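import Vale.Agent.P015.Stmts

/-! # P015: basic lemmas on `lin`, `cls`, `box`, `lv`, `chain` -/

namespace Vale.Agent.P015

open Finset

section lin

variable (ι : ℕ → ℤ) (p : ℕ)

lemma lin_add (z w : GaussianInt) : lin ι p (z + w) = lin ι p z + lin ι p w := by
  simp [lin]; ring

lemma lin_sub (z w : GaussianInt) : lin ι p (z - w) = lin ι p z - lin ι p w := by
  simp [lin]; ring

lemma lin_neg (z : GaussianInt) : lin ι p (-z) = -lin ι p z := by
  simp [lin]; ring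

lemma lin_natCast_mul (a : ℕ) (z : GaussianInt) : lin ι p ((a : GaussianInt) * z) = a * lin ι p z := by
  simp [lin]; ring

lemma lin_intCast_mul (a : ℤ) (z : GaussianInt) : lin ι p ((a : GaussianInt) * z) = a * lin ι p z := by
  simp [lin]; ring

variable {ι p}

lemma dvd_norm_of_dvd_lin {w : GaussianInt} (h : (p : ℤ) ∣ ι p ^ 2 + 1) (hw : (p : ℤ) ∣ lin ι p w) :
    (p : ℤ) ∣ w.norm := by
  have : w.norm = lin ι p w * (w.re - ι p * w.im) + (ι p ^ 2 + 1) * w.im ^ 2 := by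
    rw [Zsqrtd.norm_def, lin]; ring
  rw [this]
  exact dvd_add (hw.mul_right _) (h.mul_right _)

lemma cls_eq_iff {A : Finset ℕ} {z w : GaussianInt} :
    cls ι A z = cls ι A w ↔ ∀ p ∈ A, lin ι p z % p = lin ι p w % p := by
  constructor
  · intro h p hp
    have := congrFun h p
    simpa [cls, hp] using this
  · intro h
    funext p
    by_cases hp : p ∈ A
    · simp [cls, hp, h p hp]
    · simp [cls, hp]

lemma cls_eq_iff_dvd {A : Finset ℕ} {z w : GaussianInt} :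
    cls ι A z = cls ι A w ↔ ∀ p ∈ A, (p : ℤ) ∣ lin ι p z - lin ι p w := by
  rw [cls_eq_iff]
  exact forall₂_congr fun p _ => by
    rw [Int.emod_eq_emod_iff_emod_sub_eq_zero, Int.dvd_iff_emod_eq_zero]

lemma cls_add_congr {A : Finset ℕ} {z z' w w' : GaussianInt} (h : cls ι A z = cls ι A z')
    (h' : cls ι A w = cls ι A w') : cls ι A (z + w) = cls ι A (z' + w') := by
  rw [cls_eq_iff_dvd] at *
  intro p hp
  have := dvd_add (h p hp) (h' p hp)
  rw [lin_add, lin_add, add_sub_add_comm]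
  exact this

lemma cls_sub_congr {A : Finset ℕ} {z z' w w' : GaussianInt} (h : cls ι A z = cls ι A z')
    (h' : cls ι A w = cls ι A w') : cls ι A (z - w) = cls ι A (z' - w') := by
  rw [cls_eq_iff_dvd] at *
  intro p hp
  have := dvd_sub (h p hp) (h' p hp)
  rw [lin_sub, lin_sub, sub_sub_sub_comm]
  exact this

lemma cls_mono {A B : Finset ℕ} (hAB : A ⊆ B) {z w : GaussianInt} (h : cls ι B z = cls ι B w) :
    cls ι A z = cls ι A w := cls_eq_iff.mpr fun p hp => cls_eq_iff.mp h p (hAB hp)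

lemma emod_mem_Ico (hp : 0 < p) (a : ℤ) : a % p ∈ Ico (0 : ℤ) p :=
  mem_Ico.mpr ⟨Int.emod_nonneg _ (by omega), Int.emod_lt_of_pos _ (by omega)⟩

lemma card_Ico_int (p : ℕ) : (Ico (0 : ℤ) p).card = p := by simp

end lin

lemma lg_nonneg (A : Finset ℕ) : 0 ≤ lg A := sum_nonneg fun p _ => Real.log_natCast_nonneg p

lemma lg_singleton (p : ℕ) : lg {p} = Real.log p := by simp [lg]

lemma H_cls_le {α : Type} (ι : ℕ → ℤ) {A : Finset ℕ} (hA : ∀ p ∈ A, 0 < p) (μ : FP α)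
    (X : α → GaussianInt) : (μ.H fun a => cls ι A (X a)) ≤ lg A := by
  refine (μ.H_sum_le A (fun p a => lin ι p (X a) % p) _ fun a a' h => cls_eq_iff.mpr h).trans
    (sum_le_sum fun p hp => ?_)
  have := μ.H_le_log_card (fun a => lin ι p (X a) % p) (Ico (0 : ℤ) p)
    fun a _ => emod_mem_Ico (hA p hp) _
  rwa [card_Ico_int] at this

lemma Df_le_lg {α γ : Type} (ι : ℕ → ℤ) (A : Finset ℕ) (μ : FP α) (X : α → GaussianInt)
    (Z : α → γ) : Df ι A μ X Z ≤ lg A := sub_le_self _ (μ.Hc_nonneg _ _)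

lemma Pool.pos {ι : ℕ → ℤ} {s : ℕ} {P : Finset ℕ} (h : Pool ι s P) : ∀ p ∈ P, 0 < p :=
  fun p hp => (h p hp).1.pos

lemma Pool.subset {ι : ℕ → ℤ} {s : ℕ} {P Q : Finset ℕ} (h : Pool ι s P) (hQ : Q ⊆ P) :
    Pool ι s Q := fun p hp => h p (hQ hp)

lemma Avoid.subset {ι : ℕ → ℤ} {x : ℕ → GaussianInt} {P Q : Finset ℕ} (h : Avoid ι x P)
    (hQ : Q ⊆ P) : Avoid ι x Q := fun p hp => h p (hQ hp)

lemma Pool.card_le {ι : ℕ → ℤ} {s : ℕ} {P : Finset ℕ} (h : Pool ι s P) : P.card ≤ 2 ^ s := by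
  have : P ⊆ Ico (2 ^ s) (2 ^ (s + 1)) := fun p hp => mem_Ico.mpr (h p hp).2.2
  have h2 := card_le_card this
  rw [Nat.card_Ico, pow_succ] at h2
  generalize 2 ^ s = N at *
  omega

lemma Pool.log_le {ι : ℕ → ℤ} {s : ℕ} {P : Finset ℕ} (h : Pool ι s P) {p : ℕ} (hp : p ∈ P) :
    Real.log p ≤ (s + 1) * Real.log 2 := by
  have h1 : (p : ℝ) ≤ 2 ^ (s + 1) := by exact_mod_cast (h p hp).2.2.2.le
  have h2 := Real.log_le_log (by exact_mod_cast h.pos p hp) h1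
  rw [Real.log_pow] at h2
  exact_mod_cast h2

lemma Pool.log_le' {ι : ℕ → ℤ} {s : ℕ} {P : Finset ℕ} (h : Pool ι s P) (hs : 3 ≤ s) {p : ℕ}
    (hp : p ∈ P) : Real.log p ≤ s := by
  have h1 := h.log_le hp
  have h2 := Real.log_two_lt_d9
  have h3 : (3 : ℝ) ≤ s := by exact_mod_cast hs
  nlinarith

lemma Pool.lg_le {ι : ℕ → ℤ} {s : ℕ} {P : Finset ℕ} (h : Pool ι s P) (hs : 3 ≤ s) :
    lg P ≤ P.card * s := by
  have := sum_le_card_nsmul P (fun p => Real.log p) (s : ℝ) fun p hp => h.log_le' hs hp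
  rwa [nsmul_eq_mul] at this

/-- the primes dividing a positive number `N ≤ 2 ^ L`. -/
lemma prod_primes_le {B : Finset ℕ} {N : ℤ} (hB : ∀ p ∈ B, p.Prime ∧ (p : ℤ) ∣ N) (hN : 0 < N) :
    ((∏ p ∈ B, p : ℕ) : ℤ) ≤ N := by
  refine Int.le_of_dvd hN ?_
  rw [Int.natCast_dvd]
  exact Finset.prod_primes_dvd _ (fun p hp => (hB p hp).1.prime)
    fun p hp => Int.natCast_dvd.mp (hB p hp).2

lemma card_primes_le {B : Finset ℕ} {N : ℤ} {L : ℕ} (hB : ∀ p ∈ B, p.Prime ∧ (p : ℤ) ∣ N)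
    (hN : 0 < N) (hL : N ≤ 2 ^ L) : B.card ≤ L := by
  have h1 : 2 ^ B.card ≤ ∏ p ∈ B, p := by
    rw [← prod_const]; exact prod_le_prod' fun p hp => (hB p hp).1.two_le
  have h2 : ((∏ p ∈ B, p : ℕ) : ℤ) ≤ 2 ^ L := (prod_primes_le hB hN).trans hL
  have h3 : ∏ p ∈ B, p ≤ 2 ^ L := by exact_mod_cast h2
  exact (Nat.pow_le_pow_iff_right (by norm_num)).mp (h1.trans h3)

lemma lg_eq_log_prod {B : Finset ℕ} (hB : ∀ p ∈ B, 0 < p) :
    lg B = Real.log ((∏ p ∈ B, p : ℕ) : ℝ) := by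
  rw [lg, Nat.cast_prod, Real.log_prod fun p hp => by exact_mod_cast (hB p hp).ne']

lemma lg_primes_le {B : Finset ℕ} {N : ℤ} {L : ℕ} (hB : ∀ p ∈ B, p.Prime ∧ (p : ℤ) ∣ N)
    (hN : 0 < N) (hL : N ≤ 2 ^ L) : lg B ≤ L := by
  have h2 : ((∏ p ∈ B, p : ℕ) : ℤ) ≤ 2 ^ L := (prod_primes_le hB hN).trans hL
  have h3 : ((∏ p ∈ B, p : ℕ) : ℝ) ≤ 2 ^ L := by exact_mod_cast h2
  have h4 : 0 < ∏ p ∈ B, p := prod_pos fun p hp => (hB p hp).1.pos
  rw [lg_eq_log_prod fun p hp => (hB p hp).1.pos]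
  refine (Real.log_le_log (by exact_mod_cast h4) h3).trans ?_
  rw [Real.log_pow]
  have := Real.log_two_lt_d9
  have h5 : (0 : ℝ) ≤ L := Nat.cast_nonneg L
  nlinarith

lemma norm_pos' {w : GaussianInt} (h : w ≠ 0) : 0 < w.norm := GaussianInt.norm_pos.mpr h

lemma mem_box {r : ℕ} {z : GaussianInt} : z ∈ box r ↔ |z.re| ≤ r ∧ |z.im| ≤ r := by
  simp only [box, mem_image, mem_product, mem_Icc, Prod.exists, abs_le]
  constructor
  · rintro ⟨a, b, h, rfl⟩; exact h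
  · intro h; exact ⟨z.re, z.im, h, rfl⟩

lemma card_box_le (r : ℕ) : (box r).card ≤ (2 * r + 1) ^ 2 := by
  refine card_image_le.trans ?_
  rw [card_product, Int.card_Icc]
  have : ((r : ℤ) + 1 - -(r : ℤ)).toNat = 2 * r + 1 := by omega
  rw [this, sq]

lemma zero_mem_box (r : ℕ) : (0 : GaussianInt) ∈ box r := by simp [mem_box]

lemma mem_box_of_norm_le {r : ℕ} {z : GaussianInt} (h : z.norm ≤ (r : ℤ) ^ 2) : z ∈ box r := by
  rw [Zsqrtd.norm_def] at h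
  have hr : (0 : ℤ) ≤ r := Int.natCast_nonneg r
  exact mem_box.mpr ⟨abs_le_of_sq_le_sq' (by nlinarith [mul_self_nonneg z.im]) hr |> abs_le.mpr,
    abs_le_of_sq_le_sq' (by nlinarith [mul_self_nonneg z.re]) hr |> abs_le.mpr⟩

lemma norm_le_of_mem_box {r : ℕ} {z : GaussianInt} (h : z ∈ box r) : z.norm ≤ 2 * (r : ℤ) ^ 2 := by
  obtain ⟨h1, h2⟩ := mem_box.mp h
  have h3 := sq_le_sq' (abs_le.mp h1).1 (abs_le.mp h1).2
  have h4 := sq_le_sq' (abs_le.mp h2).1 (abs_le.mp h2).2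
  rw [Zsqrtd.norm_def]; nlinarith

lemma box_mono {r r' : ℕ} (h : r ≤ r') : box r ⊆ box r' := fun _ hz => by
  have : (r : ℤ) ≤ r' := by exact_mod_cast h
  exact mem_box.mpr ⟨(mem_box.mp hz).1.trans this, (mem_box.mp hz).2.trans this⟩

lemma add_mem_box {r r' : ℕ} {z w : GaussianInt} (hz : z ∈ box r) (hw : w ∈ box r') :
    z + w ∈ box (r + r') := by
  rw [mem_box] at *
  simp only [Zsqrtd.re_add, Zsqrtd.im_add, Nat.cast_add]
  exact ⟨(abs_add_le _ _).trans (add_le_add hz.1 hw.1), (abs_add_le _ _).trans (add_le_add hz.2 hw.2)⟩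

lemma neg_mem_box {r : ℕ} {z : GaussianInt} (hz : z ∈ box r) : -z ∈ box r := by
  rw [mem_box] at *
  simpa using hz

lemma step_disp_mem_box {D : ℕ} {x : ℕ → GaussianInt}
    (h : ∀ n, (x (n + 1) - x n).norm ≤ (D : ℤ) ^ 2) (a k : ℕ) : x (a + k) - x a ∈ box (D * k) := by
  induction k with
  | zero => simpa using zero_mem_box 0
  | succ k ih =>
    have := add_mem_box ih (mem_box_of_norm_le (h (a + k)))
    rw [mul_add, mul_one, ← add_assoc]
    convert this using 1; ring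

lemma IsPath.disp_mem_box {D : ℕ} {x : ℕ → GaussianInt} (h : IsPath D x) {a b R : ℕ}
    (h1 : a ≤ b + R) (h2 : b ≤ a + R) : x a - x b ∈ box (D * R) := by
  rcases le_total a b with hab | hab
  · obtain ⟨k, rfl⟩ := Nat.exists_eq_add_of_le hab
    have := neg_mem_box (step_disp_mem_box h.2 a k)
    rw [neg_sub] at this
    exact box_mono (Nat.mul_le_mul_left _ (by omega)) this
  · obtain ⟨k, rfl⟩ := Nat.exists_eq_add_of_le hab
    exact box_mono (Nat.mul_le_mul_left _ (by omega)) (step_disp_mem_box h.2 b k)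

lemma two_mul_add_one_le {D l : ℕ} (hl : 3 ≤ l) (hD : D ≤ l) : 2 * D + 1 ≤ 2 ^ l := by
  obtain ⟨k, rfl⟩ := Nat.exists_eq_add_of_le hl
  have := Nat.lt_two_pow_self (n := k)
  rw [pow_add]; omega

lemma disp_radius_le {D l : ℕ} (hl : 3 ≤ l) (hD : D ≤ l) :
    (2 * (D * 2 ^ (17 * l)) + 1) ^ 2 ≤ 2 ^ (36 * l) := by
  have h1 := two_mul_add_one_le hl hD
  have h2 : 1 ≤ 2 ^ (17 * l) := Nat.one_le_two_pow
  have h3 : 2 * (D * 2 ^ (17 * l)) + 1 ≤ 2 ^ l * 2 ^ (17 * l) := by nlinarith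
  calc _ ≤ (2 ^ l * 2 ^ (17 * l)) ^ 2 := Nat.pow_le_pow_left h3 2
    _ = 2 ^ (36 * l) := by rw [← pow_add, ← pow_mul]; congr 1; ring

lemma card_disp_le {D l : ℕ} (hl : 3 ≤ l) (hD : D ≤ l) :
    (box (D * 2 ^ (17 * l))).card ≤ 2 ^ (36 * l) := (card_box_le _).trans (disp_radius_le hl hD)

lemma norm_disp_le {D l : ℕ} (hl : 3 ≤ l) (hD : D ≤ l) {z : GaussianInt}
    (hz : z ∈ box (D * 2 ^ (17 * l))) : z.norm ≤ 2 ^ (36 * l) := by
  have h1 := norm_le_of_mem_box hz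
  have h2 : ((2 * (D * 2 ^ (17 * l)) + 1) ^ 2 : ℕ) ≤ ((2 ^ (36 * l) : ℕ) : ℤ) := by
    exact_mod_cast disp_radius_le hl hD
  generalize D * 2 ^ (17 * l) = r at *
  push_cast at h2
  have : (0 : ℤ) ≤ r := Int.natCast_nonneg r
  nlinarith

lemma log_le_of_le_two_pow {n L : ℕ} (h : n ≤ 2 ^ L) : Real.log n ≤ L := by
  rcases Nat.eq_zero_or_pos n with rfl | hn
  · simp
  have h3 : (n : ℝ) ≤ 2 ^ L := by exact_mod_cast h
  refine (Real.log_le_log (by exact_mod_cast hn) h3).trans ?_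
  rw [Real.log_pow]
  have := Real.log_two_lt_d9
  have h5 : (0 : ℝ) ≤ L := Nat.cast_nonneg L
  nlinarith

lemma log_card_disp_le {D l : ℕ} (hl : 3 ≤ l) (hD : D ≤ l) :
    Real.log (box (D * 2 ^ (17 * l))).card ≤ 36 * (l : ℝ) := by
  have := log_le_of_le_two_pow (card_disp_le hl hD)
  exact_mod_cast this

lemma log_card_box_le (r : ℕ) : Real.log (box r).card ≤ 4 * r := by
  have h0 : (0 : ℝ) < (box r).card := by exact_mod_cast card_pos.mpr ⟨_, zero_mem_box r⟩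
  have h1 : ((box r).card : ℝ) ≤ (2 * r + 1) ^ 2 := by exact_mod_cast card_box_le r
  refine (Real.log_le_log h0 h1).trans ?_
  rw [Real.log_pow]
  have := Real.log_le_sub_one_of_pos (x := 2 * (r : ℝ) + 1) (by positivity)
  push_cast
  linarith

lemma lv_def (t : ℕ) : lv t = 2 ^ (32 * t) := by rw [lv]

lemma lv_succ (t : ℕ) : lv (t + 1) = 2 ^ 32 * lv t := by
  rw [lv, lv, ← pow_add]; congr 1; ring

lemma lv_add (t n : ℕ) : lv (t + n) = 2 ^ (32 * n) * lv t := by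
  rw [lv, lv, ← pow_add]; congr 1; ring

lemma lv_pos (t : ℕ) : 0 < lv t := by rw [lv]; exact Nat.two_pow_pos _

lemma lv_mono {t t' : ℕ} (h : t ≤ t') : lv t ≤ lv t' := by
  rw [lv, lv]; exact Nat.pow_le_pow_right (by norm_num) (by omega)

lemma lt_lv (t : ℕ) : 32 * t < lv t := by rw [lv]; exact Nat.lt_two_pow_self

lemma lv_lt_le {t t' : ℕ} (h : t < t') : 2 ^ 32 * lv t ≤ lv t' := lv_succ t ▸ lv_mono h

section chain

variable {κ : ℕ → ℕ → FP ℕ}

@[simp] lemma chain_zero (t σ : ℕ) : chain κ t 0 σ = FP.pure σ := rfl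

lemma chain_succ (t n σ : ℕ) : chain κ t (n + 1) σ = (chain κ (t + 1) n σ).bind (κ (t + 1)) := rfl

lemma chain_add (n m : ℕ) : ∀ t σ : ℕ,
    chain κ t (n + m) σ = (chain κ (t + n) m σ).bind (chain κ t n) := by
  induction n with
  | zero =>
    intro t σ
    have : chain κ t 0 = FP.pure := rfl
    simp [this]
  | succ n ih =>
    intro t σ
    have h1 : n + 1 + m = n + m + 1 := by ring
    have h2 : t + (n + 1) = t + 1 + n := by ring
    rw [h1, h2, chain_succ, ih, FP.bind_assoc]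
    rfl

lemma chain_succ_top (t n σ : ℕ) :
    chain κ t (n + 1) σ = (κ (t + n + 1) σ).bind (chain κ t n) := by
  rw [chain_add, chain_succ, chain_zero, FP.pure_bind]

lemma top_bind {tm t n : ℕ} (h : t + n ≤ tm) :
    (top κ tm (t + n)).bind (chain κ t n) = top κ tm t := by
  rw [top, top, ← chain_add]; congr 1; omega

lemma rng_step (t : ℕ) :
    2 ^ (16 * lv (t + 1)) + 2 ^ (8 * lv (t + 1)) + 2 ^ (17 * lv t) ≤ 2 ^ (17 * lv (t + 1)) := by
  have h0 := lv_pos t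
  have h1 := lv_succ t
  generalize lv (t + 1) = l at *
  have h2 : 2 ^ (17 * lv t) ≤ 2 ^ (16 * l) := Nat.pow_le_pow_right (by norm_num) (by omega)
  have h3 : 2 ^ (8 * l) ≤ 2 ^ (16 * l) := Nat.pow_le_pow_right (by norm_num) (by omega)
  have h4 : 2 ^ (16 * l + 2) ≤ 2 ^ (17 * l) := Nat.pow_le_pow_right (by norm_num) (by omega)
  rw [pow_add] at h4
  omega

lemma Kern.chain_rng (h : Kern κ) (n : ℕ) : ∀ t σ : ℕ, (chain κ t n σ).Ae fun τ =>
    σ ≤ τ ∧ τ + 2 ^ (17 * lv t) ≤ σ + 2 ^ (17 * lv (t + n)) := by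
  induction n with
  | zero => intro t σ; exact FP.ae_pure ⟨le_rfl, le_rfl⟩
  | succ n ih =>
    intro t σ
    refine FP.ae_bind ((ih (t + 1) σ).mono fun ρ hρ => (h.rng (t + 1) ρ).mono fun τ hτ => ?_)
    have h1 := rng_step t
    have h2 : t + (n + 1) = t + 1 + n := by ring
    rw [h2]
    omega

end chain

end Vale.Agent.P015
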