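import Vale.Agent.P015.Basic

/-! # P015: the iteration over the scales -/

namespace Vale.Agent.P015

open Finset

lemma core_state_mono {x : ℕ → GaussianInt} {κ : ℕ → ℕ → FP ℕ} {tm g : ℕ} {e ε ε' : ℝ}
    (h : State x κ tm g e ε) (hε : ε ≤ ε') : State x κ tm g e ε' := by
  obtain ⟨J, i1, i2, i3, C, hC, hH⟩ := h
  exact ⟨J, i1, i2, i3, C, ⟨hC.lo, hC.hi, hC.rng, fun τ => (hC.col τ).trans
    (mul_le_mul_of_nonneg_right hε (Nat.cast_nonneg _))⟩, hH⟩

lemma core_state_nonneg {x : ℕ → GaussianInt} {κ : ℕ → ℕ → FP ℕ} {tm g : ℕ} {e ε : ℝ}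
    (h : State x κ tm g e ε) : 0 ≤ e := by
  obtain ⟨J, i1, i2, i3, C, -, hH⟩ := h
  have h0 := (FP.H_nonneg _ _).trans hH
  have h1 : (0 : ℝ) < Fintype.card J := by exact_mod_cast Fintype.card_pos
  exact nonneg_of_mul_nonneg_right h0 h1 |> fun h => by
    by_contra hneg
    push Not at hneg
    nlinarith

lemma core_root : ∃ ι : ℕ → ℤ, ∀ p : ℕ, p.Prime → p % 4 = 1 → (p : ℤ) ∣ ι p ^ 2 + 1 := by
  have : ∀ p : ℕ, ∃ t : ℤ, p.Prime → p % 4 = 1 → (p : ℤ) ∣ t ^ 2 + 1 := by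
    intro p
    by_cases h : p.Prime ∧ p % 4 = 1
    · have := Fact.mk h.1
      obtain ⟨y, hy⟩ := (ZMod.exists_sq_eq_neg_one_iff (p := p)).2 (by omega)
      obtain ⟨t, rfl⟩ := ZMod.intCast_surjective y
      refine ⟨t, fun _ _ => ?_⟩
      rw [← ZMod.intCast_zmod_eq_zero_iff_dvd]
      push_cast
      rw [sq, ← hy]
      ring
    · exact ⟨0, fun h1 h2 => (h ⟨h1, h2⟩).elim⟩
  choose ι hι using this
  exact ⟨ι, hι⟩

lemma core_small {g g0 G I E : ℕ} (h0 : 16 * E + I + 7202 ≤ g0) (hg : g0 ≤ g) (hG : G ≤ E * g) :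
    (2 : ℝ) ^ (7200 * g + 2) / 2 ^ lv (24 * g) ≤ 1 / 2 ^ (16 * G + I) := by
  have h1 : 7200 * g + 2 + (16 * G + I) ≤ g * g := by
    have h2 : g * (16 * E + I + 7202) ≤ g * g := Nat.mul_le_mul_left _ (h0.trans hg)
    have h3 : 1 ≤ g := by omega
    nlinarith
  have h2 : g * g ≤ lv (24 * g) := by
    rw [lv_def]
    have h3 : g ≤ 2 ^ g := Nat.lt_two_pow_self.le
    calc g * g ≤ 2 ^ g * 2 ^ g := Nat.mul_le_mul h3 h3
      _ = 2 ^ (g + g) := (pow_add _ _ _).symm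
      _ ≤ 2 ^ (32 * (24 * g)) := Nat.pow_le_pow_right (by norm_num) (by omega)
  rw [div_le_div_iff₀ (by positivity) (by positivity), one_mul, ← pow_add]
  exact pow_le_pow_right₀ (by norm_num) (h1.trans h2)

theorem core_of (hP : PrimeStmt) (hH : HalvStmt) (hS : ScaleStmt) (hN : NewStmt)
    (hI : InitStmt) : CoreStmt := by
  obtain ⟨c, hc, s0, hP⟩ := hP
  obtain ⟨g1, hS⟩ := hS c s0 hc
  intro D
  obtain ⟨K, hK⟩ := hH D
  have hc' : 0 < c / 2 ^ 456 := div_pos hc (pow_pos two_pos _)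
  generalize c / 2 ^ 456 = c' at hS hc'
  obtain ⟨I, hI4⟩ := exists_nat_gt (4 * (D : ℝ) / c')
  rw [div_lt_iff₀ hc'] at hI4
  obtain ⟨ι, hι⟩ := core_root
  obtain ⟨g0, hg0⟩ : ∃ g0, g0 = g1 + K + (16 * 8 ^ I + I + 7202) := ⟨_, rfl⟩
  obtain ⟨G, hG⟩ : ∃ G, G = 8 ^ I * g0 := ⟨_, rfl⟩
  refine ⟨ι, (range (2 ^ (4096 * G))).filter fun p => p.Prime ∧ p % 4 = 1, fun p hp => ?_,
    fun x hx hav => ?_⟩
  · have := (mem_filter.1 hp).2
    exact ⟨this.1, hι p this.1 this.2⟩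
  obtain ⟨κ, hκ⟩ := hK x hx
  have hsup : ∀ g ≤ G, Supply ι x c s0 (4096 * g) := by
    intro g hg s hs0 hs
    refine ⟨_, fun p hp => ?_, hav.subset fun p hp => ?_, hP s hs0⟩
    · obtain ⟨h1, h2⟩ := mem_filter.1 hp
      exact ⟨h2.1, hι p h2.1 h2.2, mem_Ico.1 h1⟩
    · obtain ⟨h1, h2⟩ := mem_filter.1 hp
      refine mem_filter.2 ⟨mem_range.2 ((mem_Ico.1 h1).2.trans_le ?_), h2⟩
      exact Nat.pow_le_pow_right (by norm_num) (by omega)
  obtain ⟨δ, hδ⟩ : ∃ δ : ℝ, δ = 1 / 2 ^ (16 * G + I) := ⟨_, rfl⟩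
  have hδ0 : 0 ≤ δ := by rw [hδ]; positivity
  have key : ∀ i ≤ I, State x κ (300 * G) (8 ^ i * g0) (4 * D - i * c') (i * δ) := by
    intro i
    induction i with
    | zero => intro _; simpa using hI D x κ (300 * G) g0 hx
    | succ i ih =>
      intro hi
      obtain ⟨J, i1, i2, i3, C, hC, hH⟩ := ih (by omega)
      obtain ⟨g, hg⟩ : ∃ g, g = 8 ^ i * g0 := ⟨_, rfl⟩
      rw [← hg] at hC hH
      have h8 : 1 ≤ 8 ^ i := Nat.one_le_pow _ _ (by norm_num)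
      have hg0g : g0 ≤ g := by rw [hg]; exact Nat.le_mul_of_pos_left _ h8
      have hgG : g ≤ G := by
        rw [hg, hG]
        exact Nat.mul_le_mul_right _ (Nat.pow_le_pow_right (by norm_num) (by omega))
      have hε : (i : ℝ) * δ ≤ 1 / 2 ^ (16 * g) := by
        have h1 : (i : ℝ) ≤ 2 ^ I := by
          have : i ≤ 2 ^ I := (by omega : i ≤ I).trans Nat.lt_two_pow_self.le
          exact_mod_cast this
        calc (i : ℝ) * δ ≤ 2 ^ I * δ := mul_le_mul_of_nonneg_right h1 hδ0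
          _ = 1 / 2 ^ (16 * G) := by rw [hδ, pow_add]; field_simp
          _ ≤ 1 / 2 ^ (16 * g) := one_div_le_one_div_of_le (by positivity)
              (pow_le_pow_right₀ (by norm_num) (by omega))
      obtain ⟨M, hM1, hM2, hM3⟩ := hS D K x κ ι (300 * G) g _ _ J C hκ hC (by omega) (by omega)
        (by omega) hε (hsup g hgG) hH
      have h := hN x κ (300 * G) g M _ _ J C hκ.kern hC (by omega) hM1 hM2 hM3
      have e1 : 8 ^ (i + 1) * g0 = 8 * g := by rw [hg]; ring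
      have e2 : 4 * (D : ℝ) - ((i + 1 : ℕ) : ℝ) * c' = 4 * D - i * c' - c' := by
        push_cast; ring
      rw [e1, e2]
      refine core_state_mono h ?_
      have := core_small (g := g) (g0 := g0) (G := G) (I := I) (E := 8 ^ I) (by omega) hg0g
        (by rw [hG]; exact Nat.mul_le_mul_left _ hg0g)
      rw [← hδ] at this
      push_cast
      linarith
  have := core_state_nonneg (key I le_rfl)
  linarith

end Vale.Agent.P015
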