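import Vale.Agent.P015.Basic

/-! # P015: coupon collector bound -/

namespace Vale.Agent.P015

open Finset

lemma Cover_phi {t : ℝ} (ht : 0 ≤ t) : (1 - √t) ^ 2 ≤ t * Real.log t - t + 1 := by
  rcases ht.eq_or_lt with h0 | h0
  · subst h0; simp
  obtain ⟨s, hs, rfl⟩ : ∃ s : ℝ, 0 < s ∧ t = s ^ 2 :=
    ⟨√t, Real.sqrt_pos.2 h0, (Real.sq_sqrt ht).symm⟩
  rw [Real.sqrt_sq hs.le, Real.log_pow]
  have h1 : 1 - s⁻¹ ≤ Real.log s := Real.one_sub_inv_le_log_of_pos hs
  have h2 := mul_le_mul_of_nonneg_left h1 (sq_nonneg s)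
  have h3 : s ^ 2 * (1 - s⁻¹) = s ^ 2 - s := by field_simp
  push_cast
  nlinarith

lemma Cover_phi_nonneg {t : ℝ} (ht : 0 ≤ t) : 0 ≤ t * Real.log t - t + 1 :=
  (sq_nonneg _).trans (Cover_phi ht)

lemma Cover_phi_ge {t : ℝ} (ht : 0 ≤ t) (h : t ≤ 1 / 4) : 1 / 4 ≤ t * Real.log t - t + 1 := by
  refine le_trans ?_ (Cover_phi ht)
  have h1 : √t ≤ 1 / 2 := by
    rw [Real.sqrt_le_left (by norm_num)]
    linarith
  nlinarith [Real.sqrt_nonneg t]

lemma Cover_ncoll {J : Type} [Fintype J] [DecidableEq J] (v : J → ℤ) (Cl : Finset ℤ)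
    (h : ∀ j, v j ∈ Cl) :
    ∑ c ∈ Cl, (((univ.filter fun j => v j = c).card : ℝ) *
      ((univ.filter fun j => v j = c).card - 1)) = ncoll v := by
  unfold ncoll
  rw [Finset.card_eq_sum_card_fiberwise (f := fun q : J × J => v q.1) (t := Cl)
    (fun q _ => h q.1)]
  push_cast
  refine Finset.sum_congr rfl fun c _ => ?_
  have e : ((univ : Finset J).offDiag.filter fun q => v q.1 = v q.2).filter
      (fun q => v q.1 = c) = (univ.filter fun j => v j = c).offDiag := by
    ext q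
    simp only [Finset.mem_filter, Finset.mem_offDiag, Finset.mem_univ, true_and]
    constructor
    · rintro ⟨⟨h1, h2⟩, h3⟩
      exact ⟨h3, h2 ▸ h3, h1⟩
    · rintro ⟨h1, h2, h3⟩
      exact ⟨⟨h3, h1.trans h2.symm⟩, h1⟩
  rw [e, Finset.offDiag_card, Nat.cast_sub (Nat.le_mul_self _)]
  push_cast
  ring

lemma Cover_term {N n mu co mi : ℝ} (m : ℕ) (hN : 0 < N) (hn : 0 < n) (hmu : 0 ≤ mu)
    (hco : 0 ≤ co) (h0 : 0 ≤ mi) (h1 : mi ≤ 1) (h2 : mi ≤ 1 - n * mu + co) :
    mi ^ m ≤ Real.exp (-(m * n) / (8 * N)) +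
      4 * (N * mu * Real.log (N * mu) - N * mu + 1) + 8 * N / n * co := by
  have e0 := Real.exp_pos (-(m * n) / (8 * N))
  have e1 := Cover_phi_nonneg (mul_nonneg hN.le hmu)
  have e2 : 0 ≤ 8 * N / n * co := by positivity
  have e3 : mi ^ m ≤ 1 := pow_le_one₀ h0 h1
  by_cases a1 : N * mu ≤ 1 / 4
  · have := Cover_phi_ge (mul_nonneg hN.le hmu) a1
    linarith
  by_cases a2 : 1 ≤ 8 * N / n * co
  · linarith
  push Not at a1 a2
  have b1 : n / (4 * N) ≤ n * mu := by
    rw [div_le_iff₀ (by positivity)]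
    nlinarith
  have b2 : co ≤ n / (8 * N) := by
    rw [div_mul_eq_mul_div, div_lt_one hn] at a2
    rw [le_div_iff₀ (by positivity)]
    linarith
  have b3 : n / (4 * N) = n / (8 * N) + n / (8 * N) := by field_simp; ring
  have b4 : mi ≤ Real.exp (-(n / (8 * N))) := by
    have := Real.add_one_le_exp (-(n / (8 * N)))
    linarith
  have b5 : mi ^ m ≤ Real.exp (-(m * n) / (8 * N)) := by
    refine (pow_le_pow_left₀ h0 b4 m).trans (le_of_eq ?_)
    rw [← Real.exp_nat_mul]
    congr 1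
    ring
  linarith

theorem cover_stmt : CoverStmt := by
  intro J _ _ _ β y Cl m hy
  have hN : (0 : ℝ) < Cl.card := by exact_mod_cast Finset.card_pos.2 ⟨y 0, hy 0⟩
  have hn : (0 : ℝ) < Fintype.card J := by exact_mod_cast Fintype.card_pos
  set X : ℤ → (J → ℕ) → ℝ := fun c u => ((univ.filter fun j => y (u j) = c).card : ℝ) with hX
  set mu : ℤ → ℝ := fun c => (pick β).Pr fun a => y a = c with hmu
  set co : ℤ → ℝ := fun c => β.E fun u => X c u * (X c u - 1) with hco
  set mi : ℤ → ℝ := fun c => β.E fun u => if ∀ j, y (u j) ≠ c then 1 else 0 with hmi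
  have hmuX : ∀ c, Fintype.card J * mu c = β.E (X c) := fun c => by
    simp only [hmu, pick, FP.Pr_bind, FP.Pr_map]
    rw [← β.E_mul_left]
    congr 1
    funext u
    rw [FP.Pr_unif Finset.univ_nonempty, Finset.card_univ]
    simp only [hX]
    field_simp
  have hXX : ∀ c u, 0 ≤ X c u * (X c u - 1) := fun c u => by
    simp only [hX]
    rcases Nat.eq_zero_or_pos (univ.filter fun j => y (u j) = c).card with h | h
    · simp [h]
    · have : (1 : ℝ) ≤ ((univ.filter fun j => y (u j) = c).card : ℝ) := by exact_mod_cast h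
      exact mul_nonneg (by linarith) (by linarith)
  have hmi2 : ∀ c, mi c ≤ 1 - Fintype.card J * mu c + co c := fun c => by
    rw [hmuX]
    have e : 1 - β.E (X c) + co c = β.E fun u => 1 - X c u + X c u * (X c u - 1) := by
      rw [β.E_add, β.E_sub, β.E_const]
    rw [e]
    refine β.E_mono fun u => ?_
    split_ifs with h
    · have : X c u = 0 := by
        simp only [hX, Nat.cast_eq_zero, Finset.card_eq_zero, Finset.filter_eq_empty_iff]
        exact fun j _ => h j
      rw [this]; norm_num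
    · nlinarith [sq_nonneg (X c u - 1)]
  have hL : ((FP.iid (Fin m) β).E fun ω =>
      ((Cl.filter fun c => ∀ i j, y (ω i j) ≠ c).card : ℝ)) = ∑ c ∈ Cl, mi c ^ m := by
    have e : ∀ ω : Fin m → J → ℕ, ((Cl.filter fun c => ∀ i j, y (ω i j) ≠ c).card : ℝ) =
        ∑ c ∈ Cl, ∏ i, if ∀ j, y (ω i j) ≠ c then (1 : ℝ) else 0 := fun ω => by
      rw [Finset.card_filter]
      push_cast
      refine Finset.sum_congr rfl fun c _ => ?_
      rw [Finset.prod_ite_zero]
      simp
    simp only [e]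
    rw [FP.E_sum _ Cl fun c (ω : Fin m → J → ℕ) => ∏ i, if ∀ j, y (ω i j) ≠ c then (1 : ℝ) else 0]
    refine Finset.sum_congr rfl fun c _ => ?_
    rw [FP.E_iid_prod (Fin m) β fun _ u => if ∀ j, y (u j) ≠ c then (1 : ℝ) else 0]
    simp [hmi]
  have hco2 : ∑ c ∈ Cl, co c = β.E fun u => (ncoll fun j => y (u j) : ℝ) := by
    simp only [hco]
    rw [← β.E_sum Cl fun c u => X c u * (X c u - 1)]
    congr 1
    funext u
    exact Cover_ncoll (fun j => y (u j)) Cl fun j => hy _
  have hae : (pick β).Ae fun a => y a ∈ Cl := FP.ae_of_all _ hy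
  have hsum : ∑ c ∈ Cl, mu c = 1 := (pick β).sum_Pr_eq y Cl hae
  have hH : ∑ c ∈ Cl, (Cl.card * mu c * Real.log (Cl.card * mu c) - Cl.card * mu c + 1) =
      Cl.card * (Real.log Cl.card - (pick β).H y) := by
    have e : ∀ c ∈ Cl, Cl.card * mu c * Real.log (Cl.card * mu c) - Cl.card * mu c + 1 =
        (Cl.card * Real.log Cl.card - Cl.card) * mu c - Cl.card * Real.negMulLog (mu c) + 1 := by
      intro c _
      by_cases h : mu c = 0
      · simp [h]
      · rw [Real.log_mul hN.ne' h, Real.negMulLog]; ring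
    rw [Finset.sum_congr rfl e, Finset.sum_add_distrib, Finset.sum_sub_distrib, ← Finset.mul_sum,
      ← Finset.mul_sum, hsum, (pick β).H_eq_sum y Cl hae]
    simp only [Finset.sum_const, nsmul_eq_mul, hmu]
    ring
  rw [hL]
  refine (Finset.sum_le_sum fun c _ => Cover_term (N := Cl.card) (n := Fintype.card J)
    (mu := mu c) (co := co c) m hN hn ((pick β).Pr_nonneg _) (β.E_nonneg (hXX c))
    (β.E_nonneg fun u => by split_ifs <;> norm_num)
    (β.E_le_of_ae (FP.ae_of_all _ fun u => by split_ifs <;> norm_num)) (hmi2 c)).trans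
    (le_of_eq ?_)
  rw [Finset.sum_add_distrib, Finset.sum_add_distrib, ← Finset.mul_sum, ← Finset.mul_sum, hH, hco2,
    Finset.sum_const, nsmul_eq_mul]
  ring

end Vale.Agent.P015
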