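import Vale.Agent.P015.Ent

/-! # P015: definitions for the entropy proof of the Gaussian moat theorem -/

namespace Vale.Agent.P015

open Finset

/-- an injective walk with steps of length at most `D`. -/
def IsPath (D : ℕ) (x : ℕ → GaussianInt) : Prop :=
  Function.Injective x ∧ ∀ n, (x (n + 1) - x n).norm ≤ (D : ℤ) ^ 2

/-- reduction modulo the Gaussian prime above `p` given by the square root `ι p` of `-1`. -/
def lin (ι : ℕ → ℤ) (p : ℕ) (z : GaussianInt) : ℤ := z.re + ι p * z.im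

/-- residue classes modulo all primes of `A`. -/
def cls (ι : ℕ → ℤ) (A : Finset ℕ) (z : GaussianInt) : ℕ → ℤ :=
  fun p => if p ∈ A then lin ι p z % p else 0

/-- a set of split primes of the dyadic range `s`. -/
def Pool (ι : ℕ → ℤ) (s : ℕ) (P : Finset ℕ) : Prop :=
  ∀ p ∈ P, p.Prime ∧ (p : ℤ) ∣ ι p ^ 2 + 1 ∧ 2 ^ s ≤ p ∧ p < 2 ^ (s + 1)

/-- the walk avoids the zero class modulo every prime of `P`. -/
def Avoid (ι : ℕ → ℤ) (x : ℕ → GaussianInt) (P : Finset ℕ) : Prop :=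
  ∀ p ∈ P, ∀ n, ¬ (p : ℤ) ∣ lin ι p (x n)

noncomputable def lg (A : Finset ℕ) : ℝ := ∑ p ∈ A, Real.log p

/-- entropy deficiency of the classes of `X` given `Z`. -/
noncomputable def Df {α γ : Type} (ι : ℕ → ℤ) (A : Finset ℕ) (μ : FP α) (X : α → GaussianInt)
    (Z : α → γ) : ℝ := lg A - μ.Hc (fun a => cls ι A (X a)) Z

/-- the counting measure on `Ω` is dominated by averages over segments in direction `v`. -/
def Dom (Ω : Finset GaussianInt) (v : GaussianInt) (A : ℕ) (K : ℝ) : Prop :=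
  ∀ (G : GaussianInt → ℝ) (B : ℝ), (∀ z, 0 ≤ G z) →
    (∀ z, ∑ a ∈ range A, G (z + (a : GaussianInt) * v) ≤ A * B) → ∑ d ∈ Ω, G d ≤ K * Ω.card * B

/-- the square of radius `r`. -/
noncomputable def box (r : ℕ) : Finset GaussianInt :=
  (Icc (-(r : ℤ)) r ×ˢ Icc (-(r : ℤ)) r).image fun q => ⟨q.1, q.2⟩

/-- the levels. -/
@[irreducible] def lv (t : ℕ) : ℕ := 2 ^ (32 * t)

/-- `chain κ t n σ`: start at time `σ` on level `t + n` and go down to level `t`. -/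
noncomputable def chain (κ : ℕ → ℕ → FP ℕ) : ℕ → ℕ → ℕ → FP ℕ
  | _, 0, σ => FP.pure σ
  | t, n + 1, σ => (chain κ (t + 1) n σ).bind (κ (t + 1))

/-- the law of the time on level `t`. -/
noncomputable def top (κ : ℕ → ℕ → FP ℕ) (tm t : ℕ) : FP ℕ := chain κ t (tm - t) 0

/-- equidistribution of a dominated set given a small amount of side information. -/
def ErrHyp (ι : ℕ → ℤ) (T : Finset ℕ) (A : ℕ → Finset ℕ) (K l : ℕ) (E : ℝ) : Prop :=
  ∀ (Ω : Finset GaussianInt) (v : GaussianInt), Ω.Nonempty → v ≠ 0 → v.norm ≤ 2 ^ (32 * l) →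
    Dom Ω v (2 ^ l) K → ∀ (γ : Type) (k : GaussianInt → FP γ) (S : Finset γ),
      Real.log S.card ≤ (l : ℝ) / 2 ^ 24 → (∀ d ∈ Ω, (k d).Ae fun c => c ∈ S) →
      ∑ i ∈ T, Df ι (A i) ((FP.unif Ω).joint k) Prod.fst Prod.snd ≤ E

/-- range and smoothing of the kernels. -/
structure Kern (κ : ℕ → ℕ → FP ℕ) : Prop where
  rng : ∀ t σ, (κ t σ).Ae fun τ => σ ≤ τ ∧ τ ≤ σ + 2 ^ (16 * lv t) + 2 ^ (8 * lv t)
  smooth : ∀ t σ a r : ℕ, ((κ t σ).Pr fun τ => τ ≤ a ∧ a ≤ τ + r) ≤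
    ((r : ℝ) + 2 ^ (8 * lv t) + 1) / 2 ^ (16 * lv t)

/-- every level halves the deficiency. -/
def Halv (K : ℕ) (x : ℕ → GaussianInt) (κ : ℕ → ℕ → FP ℕ) : Prop :=
  ∀ (ι : ℕ → ℤ) (T : Finset ℕ) (A : ℕ → Finset ℕ) (E : ℝ) (n t : ℕ), 0 ≤ E → K ≤ lv t →
    (∀ t', t < t' → t' ≤ t + n → ErrHyp ι T A K (lv t') E) →
    ∀ (μ : FP ℕ) (γ : Type) (k : ℕ → FP γ) (S : Finset γ), Real.log S.card ≤ 80 * (lv t : ℝ) →
      (∀ τ, (k τ).Ae fun c => c ∈ S) →
      ∑ i ∈ T, Df ι (A i) ((μ.bind (chain κ t n)).joint k) (fun ω => x ω.1) Prod.snd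
        ≤ (∑ i ∈ T, lg (A i)) / 2 ^ n + E

structure Env (D K : ℕ) (x : ℕ → GaussianInt) (κ : ℕ → ℕ → FP ℕ) : Prop where
  path : IsPath D x
  DK : D ≤ K
  K1 : 1 ≤ K
  kern : Kern κ
  halv : Halv K x κ

/-- number of ordered pairs of distinct indices with the same value. -/
def ncoll {J α : Type} [Fintype J] [DecidableEq J] [DecidableEq α] (u : J → α) : ℕ :=
  ((univ : Finset J).offDiag.filter fun q => u q.1 = u q.2).card

/-- a uniformly chosen coordinate. -/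
noncomputable def pick {J α : Type} [Fintype J] [Inhabited J] (β : FP (J → α)) : FP α :=
  β.bind fun u => (FP.unif (univ : Finset J)).map u

/-- a collection kernel on level `3 g`. -/
structure Col (g : ℕ) (ε : ℝ) {J : Type} [Fintype J] [DecidableEq J] (C : ℕ → FP (J → ℕ)) :
    Prop where
  lo : 2 ^ (896 * g) ≤ Fintype.card J
  hi : Fintype.card J ≤ 2 ^ (900 * g)
  rng : ∀ τ, (C τ).Ae fun u => ∀ j, τ ≤ u j ∧ u j ≤ τ + 2 ^ (17 * lv (3 * g))
  col : ∀ τ, ((C τ).E fun u => (ncoll u : ℝ)) ≤ ε * Fintype.card J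

/-- displacement word of a collection. -/
def wd1 {J : Type} (x : ℕ → GaussianInt) (ω : ℕ × (J → ℕ)) : J → GaussianInt :=
  fun j => x (ω.2 j) - x ω.1

/-- the inductive state: a collection kernel with entropy at most `e` per letter. -/
def State (x : ℕ → GaussianInt) (κ : ℕ → ℕ → FP ℕ) (tm g : ℕ) (e ε : ℝ) : Prop :=
  ∃ (J : Type) (_ : Fintype J) (_ : DecidableEq J) (_ : Inhabited J) (C : ℕ → FP (J → ℕ)),
    Col g ε C ∧ ((top κ tm (3 * g)).joint C).H (wd1 x) ≤ Fintype.card J * e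

/-- a block seen from level `24 g`. -/
noncomputable def blk (κ : ℕ → ℕ → FP ℕ) (g : ℕ) {J : Type} (C : ℕ → FP (J → ℕ)) (σ : ℕ) :
    FP (J → ℕ) := (chain κ (3 * g) (21 * g) σ).bind C

/-- a time and `m` conditionally independent blocks. -/
noncomputable def wl {γ : Type} (ν : FP ℕ) (B : ℕ → FP γ) (m : ℕ) : FP (ℕ × (Fin m → γ)) :=
  ν.joint fun σ => FP.iid (Fin m) (B σ)

/-- displacement word of `m` blocks. -/
def wd {J : Type} {m : ℕ} (x : ℕ → GaussianInt) (ω : ℕ × (Fin m → J → ℕ)) :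
    Fin m → J → GaussianInt := fun i j => x (ω.2 i j) - x ω.1

/-- number of classes modulo `p` not killed by the word. -/
noncomputable def unc {J : Type} [Fintype J] {m : ℕ} (ι : ℕ → ℤ) (p : ℕ) (w : Fin m → J → GaussianInt) : ℕ :=
  ((Ico (0 : ℤ) p).filter fun c => ∀ i j, (-lin ι p (w i j)) % p ≠ c).card

end Vale.Agent.P015
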