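import Vale.Agent.P015.FP

/-! # P015: entropy inequalities for finitely supported distributions -/

namespace Vale.Agent.P015

open Finset

namespace FP

variable {α β γ δ : Type}

lemma E_fiber (p : FP α) (X : α → β) (S : Finset β) (h : p.Ae fun a => X a ∈ S) (g : β → ℝ) :
    (p.E fun a => g (X a)) = ∑ b ∈ S, (p.Pr fun a => X a = b) * g b := by
  classical
  have h1 : ∀ b, (p.Pr fun a => X a = b) * g b = p.E fun a => if X a = b then g b else 0 := by
    intro b
    rw [Pr_eq_E, ← E_mul_right]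
    congr 1; funext a; split_ifs <;> simp
  simp only [h1]
  rw [← E_sum]
  refine p.E_congr_ae fun a ha => ?_
  beta_reduce
  rw [Finset.sum_ite_eq, if_pos (h a ha)]

lemma ae_mem_image [DecidableEq β] (p : FP α) (X : α → β) :
    p.Ae fun a => X a ∈ p.w.support.image X :=
  fun _ ha => Finset.mem_image_of_mem _ (Finsupp.mem_support_iff.mpr ha)

lemma sum_Pr_eq (p : FP α) (X : α → β) (S : Finset β) (h : p.Ae fun a => X a ∈ S) :
    ∑ b ∈ S, (p.Pr fun a => X a = b) = 1 := by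
  simpa using (p.E_fiber X S h fun _ => 1).symm

lemma sum_Pr_and_le (p : FP α) (X : α → β) (Q : α → Prop) (S : Finset β) :
    ∑ b ∈ S, (p.Pr fun a => X a = b ∧ Q a) ≤ p.Pr Q := by
  classical
  simp only [Pr_eq_E]
  rw [← E_sum]
  refine p.E_mono fun a => ?_
  by_cases hQ : Q a
  · simp only [hQ, and_true, Finset.sum_ite_eq, if_true]
    split_ifs <;> norm_num
  · simp [hQ]

lemma sum_Pr_le (p : FP α) (X : α → β) (S : Finset β) :
    ∑ b ∈ S, (p.Pr fun a => X a = b) ≤ 1 := by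
  have h := p.sum_Pr_and_le X (fun _ => True) S
  simp only [and_true] at h
  exact h.trans (p.Pr_le_one _)

lemma H_eq_sum (p : FP α) (X : α → β) (S : Finset β) (h : p.Ae fun a => X a ∈ S) :
    p.H X = ∑ b ∈ S, Real.negMulLog (p.Pr fun a => X a = b) := by
  rw [H, p.E_fiber X S h fun b => -Real.log (p.Pr fun a' => X a' = b)]
  exact Finset.sum_congr rfl fun b _ => by rw [Real.negMulLog]; ring

lemma H_map (p : FP α) (g : α → β) (X : β → γ) : (p.map g).H X = p.H fun a => X (g a) := by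
  simp only [H, E_map, Pr_map]

lemma Hc_map (p : FP α) (g : α → β) (X : β → γ) (Z : β → δ) :
    (p.map g).Hc X Z = p.Hc (fun a => X (g a)) fun a => Z (g a) := by
  simp only [Hc, H_map]

lemma H_nonneg (p : FP α) (X : α → β) : 0 ≤ p.H X :=
  p.E_nonneg fun _ => neg_nonneg.mpr (Real.log_nonpos (p.Pr_nonneg _) (p.Pr_le_one _))

/-- if `X` determines `Y` on the support then `H Y ≤ H X`. -/
lemma H_mono_ae (p : FP α) {X : α → β} {Y : α → γ}
    (h : ∀ a a', p.w a ≠ 0 → p.w a' ≠ 0 → X a = X a' → Y a = Y a') : p.H Y ≤ p.H X :=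
  p.E_mono_ae fun a ha => neg_le_neg (Real.log_le_log (p.Pr_pos ha rfl)
    (p.Pr_mono_ae fun a' ha' h' => h a' a ha' ha h'))

lemma H_mono (p : FP α) {X : α → β} {Y : α → γ} (h : ∀ a a', X a = X a' → Y a = Y a') :
    p.H Y ≤ p.H X := p.H_mono_ae fun a a' _ _ => h a a'

lemma H_congr_ae (p : FP α) {X : α → β} {Y : α → γ}
    (h : ∀ a a', p.w a ≠ 0 → p.w a' ≠ 0 → (X a = X a' ↔ Y a = Y a')) : p.H X = p.H Y :=
  le_antisymm (p.H_mono_ae fun a a' ha ha' => (h a a' ha ha').2)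
    (p.H_mono_ae fun a a' ha ha' => (h a a' ha ha').1)

lemma H_congr (p : FP α) {X : α → β} {Y : α → γ} (h : ∀ a a', X a = X a' ↔ Y a = Y a') :
    p.H X = p.H Y := p.H_congr_ae fun a a' _ _ => h a a'

@[simp] lemma H_const (p : FP α) (b : β) : (p.H fun _ => b) = 0 := by
  simp [H, Pr]

lemma Hc_eq (p : FP α) (X : α → β) (Z : α → γ) :
    p.Hc X Z = p.E fun a => -Real.log
      ((p.Pr fun a' => X a' = X a ∧ Z a' = Z a) / p.Pr fun a' => Z a' = Z a) := by
  rw [Hc, H, H, ← E_sub]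
  refine p.E_congr_ae fun a ha => ?_
  beta_reduce
  rw [Real.log_div (p.Pr_pos (P := fun a' => X a' = X a ∧ Z a' = Z a) ha ⟨rfl, rfl⟩).ne'
    (p.Pr_pos (P := fun a' => Z a' = Z a) ha rfl).ne']
  simp only [Prod.mk.injEq]
  ring

/-- Gibbs inequality. -/
lemma gibbs (p : FP α) (X : α → β) (Z : α → γ) (q : β → γ → ℝ) (hq0 : ∀ b c, 0 ≤ q b c)
    (hq : p.Ae fun a => 0 < q (X a) (Z a)) (h1 : ∀ c (S : Finset β), ∑ b ∈ S, q b c ≤ 1) :
    p.Hc X Z ≤ p.E fun a => -Real.log (q (X a) (Z a)) := by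
  classical
  set g : β × γ → ℝ := fun y => q y.1 y.2 * (p.Pr fun a' => Z a' = y.2) /
    p.Pr fun a' => (X a', Z a') = y with hg
  have h2 : p.Hc X Z - p.E (fun a => -Real.log (q (X a) (Z a)))
      ≤ p.E fun a => g (X a, Z a) - 1 := by
    rw [Hc, H, H, ← E_sub, ← E_sub]
    refine p.E_mono_ae fun a ha => ?_
    have ha1 : 0 < p.Pr fun a' => (X a', Z a') = (X a, Z a) := p.Pr_pos ha rfl
    have ha2 : 0 < p.Pr fun a' => Z a' = Z a := p.Pr_pos ha rfl
    have ha3 := hq a ha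
    have h3 := Real.log_le_sub_one_of_pos (x := g (X a, Z a)) (by rw [hg]; positivity)
    have h4 : Real.log (g (X a, Z a)) = Real.log (q (X a) (Z a)) +
        Real.log (p.Pr fun a' => Z a' = Z a) -
        Real.log (p.Pr fun a' => (X a', Z a') = (X a, Z a)) := by
      rw [hg]; beta_reduce
      rw [Real.log_div (by positivity) ha1.ne', Real.log_mul ha3.ne' ha2.ne']
    beta_reduce
    linarith
  have h5 : (p.E fun a => g (X a, Z a)) ≤ 1 := by
    set SX := p.w.support.image X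
    set SZ := p.w.support.image Z
    rw [p.E_fiber (fun a => (X a, Z a)) (SX ×ˢ SZ)
      (fun a ha => Finset.mem_product.mpr ⟨p.ae_mem_image X a ha, p.ae_mem_image Z a ha⟩) g]
    calc _ ≤ ∑ y ∈ SX ×ˢ SZ, q y.1 y.2 * (p.Pr fun a' => Z a' = y.2) := by
          refine Finset.sum_le_sum fun y _ => ?_
          rw [hg]; beta_reduce
          rcases (p.Pr_nonneg fun a' => (X a', Z a') = y).eq_or_lt with h | h
          · rw [← h, zero_mul]; exact mul_nonneg (hq0 _ _) (p.Pr_nonneg _)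
          · rw [mul_div_cancel₀ _ h.ne']
      _ = ∑ c ∈ SZ, (∑ b ∈ SX, q b c) * (p.Pr fun a' => Z a' = c) := by
          rw [Finset.sum_product_right]
          simp only [Finset.sum_mul]
      _ ≤ ∑ c ∈ SZ, (p.Pr fun a' => Z a' = c) :=
          Finset.sum_le_sum fun c _ => mul_le_of_le_one_left (p.Pr_nonneg _) (h1 c SX)
      _ ≤ 1 := p.sum_Pr_le Z SZ
  rw [E_sub, E_const] at h2
  linarith

lemma Hc_le_log_card (p : FP α) (X : α → β) (Z : α → γ) (U : γ → Finset β)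
    (h : p.Ae fun a => X a ∈ U (Z a)) :
    p.Hc X Z ≤ p.E fun a => Real.log (U (Z a)).card := by
  classical
  refine (p.gibbs X Z (fun b c => if b ∈ U c then 1 / (U c).card else 0) (fun b c => ?_)
    (fun a ha => ?_) (fun c S => ?_)).trans (p.E_mono_ae fun a ha => ?_)
  · split_ifs <;> positivity
  · beta_reduce
    have : 0 < (U (Z a)).card := Finset.card_pos.mpr ⟨_, h a ha⟩
    rw [if_pos (h a ha)]; positivity
  · rw [← Finset.sum_filter, Finset.sum_const, nsmul_eq_mul, mul_one_div]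
    refine div_le_one_of_le₀ ?_ (by positivity)
    exact_mod_cast Finset.card_le_card fun b hb => (Finset.mem_filter.mp hb).2
  · beta_reduce
    rw [if_pos (h a ha), one_div, Real.log_inv, neg_neg]

lemma Hc_const_right (p : FP α) (X : α → β) (c : γ) : (p.Hc X fun _ => c) = p.H X := by
  rw [Hc, H_const, sub_zero]
  exact p.H_congr fun a a' => by simp

lemma H_le_log_card (p : FP α) (X : α → β) (S : Finset β) (h : p.Ae fun a => X a ∈ S) :
    p.H X ≤ Real.log S.card := by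
  have := p.Hc_le_log_card X (fun _ => ()) (fun _ => S) h
  rwa [Hc_const_right, E_const] at this

lemma Hc_nonneg (p : FP α) (X : α → β) (Z : α → γ) : 0 ≤ p.Hc X Z :=
  sub_nonneg.mpr (p.H_mono fun _ _ h => (Prod.mk.inj h).2)

lemma H_sub_le_Hc (p : FP α) (X : α → β) (Z : α → γ) : p.H X - p.H Z ≤ p.Hc X Z :=
  sub_le_sub_right (p.H_mono fun _ _ h => (Prod.mk.inj h).1) _

lemma sum_cond_le (p : FP α) (X : α → β) (Z : α → γ) (c : γ) (S : Finset β) :
    ∑ b ∈ S, (p.Pr fun a => X a = b ∧ Z a = c) / (p.Pr fun a => Z a = c) ≤ 1 := by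
  rw [← Finset.sum_div]
  exact div_le_one_of_le₀ (p.sum_Pr_and_le X _ S) (p.Pr_nonneg _)

/-- conditioning on more reduces entropy: `Z'` determines `Z`. -/
lemma Hc_mono_right_ae (p : FP α) (X : α → β) {Z : α → γ} {Z' : α → δ}
    (h : ∀ a a', p.w a ≠ 0 → p.w a' ≠ 0 → Z' a = Z' a' → Z a = Z a') :
    p.Hc X Z' ≤ p.Hc X Z := by
  have h1 : p.Hc X Z' = p.Hc X fun a => (Z' a, Z a) := by
    rw [Hc, Hc]
    congr 1
    · refine p.H_congr_ae fun a a' ha ha' => ?_
      simp only [Prod.mk.injEq]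
      exact ⟨fun h' => ⟨h'.1, h'.2, h a a' ha ha' h'.2⟩, fun h' => ⟨h'.1, h'.2.1⟩⟩
    · refine p.H_congr_ae fun a a' ha ha' => ?_
      simp only [Prod.mk.injEq]
      exact ⟨fun h' => ⟨h', h a a' ha ha' h'⟩, fun h' => h'.1⟩
  rw [h1, p.Hc_eq X Z]
  exact p.gibbs X (fun a => (Z' a, Z a))
    (fun b c => (p.Pr fun a => X a = b ∧ Z a = c.2) / p.Pr fun a => Z a = c.2)
    (fun _ _ => div_nonneg (p.Pr_nonneg _) (p.Pr_nonneg _))
    (fun a ha => div_pos (p.Pr_pos ha ⟨rfl, rfl⟩) (p.Pr_pos ha rfl))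
    (fun c S => p.sum_cond_le X Z c.2 S)

lemma Hc_mono_right (p : FP α) (X : α → β) {Z : α → γ} {Z' : α → δ}
    (h : ∀ a a', Z' a = Z' a' → Z a = Z a') : p.Hc X Z' ≤ p.Hc X Z :=
  p.Hc_mono_right_ae X fun a a' _ _ => h a a'

/-- `(X, Z)` determines `Y`. -/
lemma Hc_mono_left_ae (p : FP α) {X : α → β} {Y : α → δ} (Z : α → γ)
    (h : ∀ a a', p.w a ≠ 0 → p.w a' ≠ 0 → X a = X a' → Z a = Z a' → Y a = Y a') :
    p.Hc Y Z ≤ p.Hc X Z :=
  sub_le_sub_right (p.H_mono_ae fun a a' ha ha' h' =>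
    Prod.ext (h a a' ha ha' (Prod.mk.inj h').1 (Prod.mk.inj h').2) (Prod.mk.inj h').2) _

lemma Hc_mono_left (p : FP α) {X : α → β} {Y : α → δ} (Z : α → γ)
    (h : ∀ a a', X a = X a' → Z a = Z a' → Y a = Y a') : p.Hc Y Z ≤ p.Hc X Z :=
  p.Hc_mono_left_ae Z fun a a' _ _ => h a a'

lemma Hc_chain (p : FP α) (X : α → β) (Y : α → δ) (Z : α → γ) :
    p.Hc (fun a => (X a, Y a)) Z = p.Hc X Z + p.Hc Y fun a => (X a, Z a) := by
  have : (p.H fun a => ((X a, Y a), Z a)) = p.H fun a => (Y a, X a, Z a) :=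
    p.H_congr fun a a' => by simp only [Prod.mk.injEq]; tauto
  simp only [Hc, this]; ring

lemma Hc_pair_le (p : FP α) (X : α → β) (Y : α → δ) (Z : α → γ) :
    p.Hc (fun a => (X a, Y a)) Z ≤ p.Hc X Z + p.Hc Y Z := by
  rw [Hc_chain]
  exact add_le_add le_rfl (p.Hc_mono_right Y fun _ _ h => (Prod.mk.inj h).2)

lemma Hc_le_H (p : FP α) (X : α → β) (Z : α → γ) : p.Hc X Z ≤ p.H X := by
  rw [← p.Hc_const_right X ()]
  exact p.Hc_mono_right X fun _ _ _ => rfl

lemma H_pair_le (p : FP α) (X : α → β) (Y : α → δ) :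
    (p.H fun a => (X a, Y a)) ≤ p.H X + p.H Y := by
  have := p.Hc_pair_le X Y fun _ => ()
  simpa only [Hc_const_right] using this

/-- symmetry of mutual information. -/
lemma Hc_symm (p : FP α) (X : α → β) (Z : α → γ) : p.Hc X Z + p.H Z = p.Hc Z X + p.H X := by
  have : (p.H fun a => (X a, Z a)) = p.H fun a => (Z a, X a) :=
    p.H_congr fun a a' => by simp only [Prod.mk.injEq]; tauto
  simp only [Hc, this]; ring

lemma H_le_add_Hc (p : FP α) (X : α → β) (Z : α → γ) : p.H X ≤ p.H Z + p.Hc X Z := by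
  linarith [p.H_sub_le_Hc X Z]

/-- subadditivity: the `X i` (`i ∈ T`) and `Z` determine `Y`. -/
lemma Hc_sum_le_ae {ι : Type*} (p : FP α) (T : Finset ι) (X : ι → α → β) (Z : α → γ) :
    ∀ {δ : Type} (Y : α → δ), (∀ a a', p.w a ≠ 0 → p.w a' ≠ 0 → (∀ i ∈ T, X i a = X i a') →
      Z a = Z a' → Y a = Y a') → p.Hc Y Z ≤ ∑ i ∈ T, p.Hc (X i) Z := by
  classical
  induction T using Finset.induction_on with
  | empty =>
    intro δ Y h
    have h1 : p.Hc Y Z ≤ p.Hc (fun _ => ()) Z :=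
      p.Hc_mono_left_ae Z fun a a' ha ha' _ hZ => h a a' ha ha' (by simp) hZ
    have h2 := p.Hc_le_H (fun _ => ()) Z
    rw [H_const] at h2
    simpa using h1.trans h2
  | insert i T hi ih =>
    intro δ Y h
    let f : α → Set α := fun a => {b | ∀ j ∈ T, X j b = X j a}
    have h1 : p.Hc f Z ≤ ∑ j ∈ T, p.Hc (X j) Z := ih f fun a a' _ _ hX _ =>
      Set.ext fun b => forall₂_congr fun j hj => by rw [hX j hj]
    have h2 : p.Hc Y Z ≤ p.Hc (fun a => (X i a, f a)) Z :=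
      p.Hc_mono_left_ae Z fun a a' ha ha' h' hZ => h a a' ha ha' (fun j hj => by
        rcases Finset.mem_insert.mp hj with rfl | hj
        · exact (Prod.mk.inj h').1
        · have h3 : a ∈ f a' := (Prod.mk.inj h').2 ▸ fun _ _ => rfl
          exact h3 j hj) hZ
    rw [Finset.sum_insert hi]
    linarith [p.Hc_pair_le (X i) f Z]

lemma Hc_sum_le {ι : Type*} (p : FP α) (T : Finset ι) (X : ι → α → β) (Z : α → γ) (Y : α → δ)
    (h : ∀ a a', (∀ i ∈ T, X i a = X i a') → Z a = Z a' → Y a = Y a') :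
    p.Hc Y Z ≤ ∑ i ∈ T, p.Hc (X i) Z := p.Hc_sum_le_ae T X Z Y fun a a' _ _ => h a a'

lemma H_sum_le {ι : Type*} (p : FP α) (T : Finset ι) (X : ι → α → β) (Y : α → δ)
    (h : ∀ a a', (∀ i ∈ T, X i a = X i a') → Y a = Y a') : p.H Y ≤ ∑ i ∈ T, p.H (X i) := by
  have := p.Hc_sum_le T X (fun _ => ()) Y fun a a' h' _ => h a a' h'
  simpa only [Hc_const_right] using this

/-- concavity of conditional entropy. -/
lemma E_Hc_le (p : FP α) (k : α → FP β) (X : β → γ) (Z : β → δ) :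
    (p.E fun a => (k a).Hc X Z) ≤ (p.bind k).Hc X Z := by
  rw [(p.bind k).Hc_eq, E_bind]
  have hs : p.Ae fun a => (k a).Ae fun b => (p.bind k).w b ≠ 0 := ae_of_bind fun _ hb => hb
  exact p.E_mono_ae fun a ha => (k a).gibbs X Z
    (fun b c => ((p.bind k).Pr fun a => X a = b ∧ Z a = c) / (p.bind k).Pr fun a => Z a = c)
    (fun _ _ => div_nonneg (Pr_nonneg _ _) (Pr_nonneg _ _))
    (fun b hb => div_pos (Pr_pos _ (hs a ha b hb) ⟨rfl, rfl⟩) (Pr_pos _ (hs a ha b hb) rfl))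
    (fun c S => sum_cond_le _ X Z c S)

lemma E_H_le (p : FP α) (k : α → FP β) (X : β → γ) :
    (p.E fun a => (k a).H X) ≤ (p.bind k).H X := by
  have := p.E_Hc_le k X fun _ => ()
  simpa only [Hc_const_right] using this

lemma H_ge_of_atom (p : FP α) (X : α → β) {θ : ℝ} (h : ∀ b, (p.Pr fun a => X a = b) ≤ θ) :
    -Real.log θ ≤ p.H X :=
  p.le_E_of_ae fun _ ha => neg_le_neg (Real.log_le_log (p.Pr_pos ha rfl) (h _))

lemma H_joint_fst (p : FP α) (k : α → FP β) (X : α → γ) :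
    ((p.joint k).H fun ω => X ω.1) = p.H X := by
  rw [← H_map (p.joint k) Prod.fst X, joint_map_fst]

lemma H_joint_snd (p : FP α) (k : α → FP β) (X : β → γ) :
    ((p.joint k).H fun ω => X ω.2) = (p.bind k).H X := by
  rw [← H_map (p.joint k) Prod.snd X, joint_map_snd]

end FP

end Vale.Agent.P015
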