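import Vale.Agent.P015.Basic

/-! # P015: equidistribution of blocks of primes -/

namespace Vale.Agent.P015

open Finset

lemma errA_count (ι : ℕ → ℤ) {G : Finset ℕ} {v : GaussianInt}
    (hG : ∀ p ∈ G, p.Prime ∧ ¬ (p : ℤ) ∣ lin ι p v) (A : ℕ) (z : GaussianInt) (c : ℕ → ℤ)
    [DecidablePred fun a : ℕ => cls ι G (z + (a : GaussianInt) * v) = c] :
    ((range A).filter fun a : ℕ => cls ι G (z + (a : GaussianInt) * v) = c).card
      ≤ A / (∏ p ∈ G, p) + 1 := by
  rw [← card_range (A / (∏ p ∈ G, p) + 1)]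
  refine card_le_card_of_injOn (fun a => a / ∏ p ∈ G, p) (fun a ha => ?_) fun a ha a' ha' h => ?_
  · have := mem_range.mp (mem_filter.mp (mem_coe.mp ha)).1
    exact mem_coe.mpr (mem_range.mpr (Nat.lt_succ_of_le (Nat.div_le_div_right this.le)))
  · have h1 := (mem_filter.mp (mem_coe.mp ha)).2.trans (mem_filter.mp (mem_coe.mp ha')).2.symm
    rw [cls_eq_iff_dvd] at h1
    have h2 : ((∏ p ∈ G, p : ℕ) : ℤ) ∣ (a' : ℤ) - a := by
      rw [Int.natCast_dvd]
      refine Finset.prod_primes_dvd _ (fun p hp => (hG p hp).1.prime) fun p hp => ?_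
      rw [← Int.natCast_dvd]
      have h3 := h1 p hp
      rw [lin_add, lin_add, lin_natCast_mul, lin_natCast_mul, add_sub_add_left_eq_sub,
        ← sub_mul] at h3
      exact dvd_sub_comm.mp (((Nat.prime_iff_prime_int.mp (hG p hp).1).dvd_or_dvd h3).resolve_right
        (hG p hp).2)
    have h4 : a % (∏ p ∈ G, p) = a' % (∏ p ∈ G, p) := (Nat.modEq_iff_dvd.mpr h2 :)
    rw [← Nat.div_add_mod a (∏ p ∈ G, p), ← Nat.div_add_mod a' (∏ p ∈ G, p), h4]
    simp only at h
    rw [h]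

lemma errA_H (ι : ℕ → ℤ) {G : Finset ℕ} {v : GaussianInt} {Ω : Finset GaussianInt} {A K : ℕ}
    (hG : ∀ p ∈ G, p.Prime ∧ ¬ (p : ℤ) ∣ lin ι p v) (hΩ : Ω.Nonempty) (hK : 1 ≤ K)
    (hA : ∏ p ∈ G, p ≤ A) (hD : Dom Ω v A K) :
    lg G - Real.log (2 * K) ≤ (FP.unif Ω).H (cls ι G) := by
  classical
  have hq : 0 < ∏ p ∈ G, p := prod_pos fun p hp => (hG p hp).1.pos
  rw [lg_eq_log_prod fun p hp => (hG p hp).1.pos]
  have hcount := errA_count ι hG A
  generalize ∏ p ∈ G, p = q at *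
  have hqR : (0 : ℝ) < q := by exact_mod_cast hq
  have hKR : (0 : ℝ) < K := by exact_mod_cast hK
  have h1 : ∀ c, ((FP.unif Ω).Pr fun d => cls ι G d = c) ≤ 2 * K / q := by
    intro c
    have h2 := hD (fun d => if cls ι G d = c then 1 else 0) (2 / q)
      (fun z => by split_ifs <;> norm_num) fun z => by
        rw [sum_boole]
        have h3 : (((range A).filter fun a : ℕ => cls ι G (z + (a : GaussianInt) * v) = c).card : ℝ)
            ≤ ((A / q : ℕ) : ℝ) + 1 := by exact_mod_cast hcount z c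
        have h4 : ((A / q : ℕ) : ℝ) ≤ A / q := Nat.cast_div_le
        have h5 : (1 : ℝ) ≤ A / q := by rw [le_div_iff₀ hqR, one_mul]; exact_mod_cast hA
        have h6 : (A : ℝ) * (2 / q) = A / q + A / q := by ring
        linarith
    rw [sum_boole] at h2
    have h7 : (0 : ℝ) < Ω.card := by exact_mod_cast hΩ.card_pos
    rw [FP.Pr_unif hΩ, div_le_iff₀ h7]
    refine h2.trans (le_of_eq ?_)
    ring
  have h8 := (FP.unif Ω).H_ge_of_atom (cls ι G) h1
  rw [Real.log_div (by positivity) hqR.ne'] at h8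
  linarith

theorem errA_stmt : ErrAStmt := by
  classical
  intro ι s j b K l A hs hj hK hA hdis hKl h2 h18 Ω v hΩ hv hvn hD γ k S hS hk
  set μ := (FP.unif Ω).joint k with hμ
  obtain ⟨b', hb'⟩ : ∃ b', b' = l / (2 * j * s) := ⟨_, rfl⟩
  have hjs : 0 < 2 * j * s := by positivity
  have hb1 : 1 ≤ b' := by rw [hb']; exact (Nat.le_div_iff_mul_le hjs).mpr (by omega)
  have hb2 : b' * (2 * j * s) ≤ l := by rw [hb']; exact Nat.div_mul_le_self _ _
  have hb3 : l ≤ 2 * (b' * (2 * j * s)) := by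
    have h1 : l < 2 * j * s * (b' + 1) := by rw [hb']; exact Nat.lt_mul_div_succ _ hjs
    nlinarith
  let bad : ℕ → Finset ℕ := fun i => (A i).filter fun p => (p : ℤ) ∣ lin ι p v
  let good : ℕ → Finset ℕ := fun i => (A i).filter fun p => ¬ (p : ℤ) ∣ lin ι p v
  have hsplit : ∀ i, lg (A i) = lg (bad i) + lg (good i) := fun i =>
    (sum_filter_add_sum_filter_not _ _ _).symm
  have hHs : μ.H Prod.snd ≤ (l : ℝ) / 2 ^ 24 :=
    (μ.H_le_log_card Prod.snd S (FP.ae_joint ((FP.ae_unif hΩ).mono fun d hd => hk d hd))).trans hS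
  have hgroup : ∀ Γ : Finset ℕ, Γ ⊆ range b → Γ.card ≤ b' →
      ∑ i ∈ Γ, Df ι (A i) μ Prod.fst Prod.snd ≤
        ∑ i ∈ Γ, lg (bad i) + (Real.log (2 * K) + (l : ℝ) / 2 ^ 24) := by
    intro Γ hΓ hc
    have hmem : ∀ p ∈ Γ.biUnion good, ∃ i ∈ Γ, p ∈ A i ∧ ¬ (p : ℤ) ∣ lin ι p v := fun p hp => by
      obtain ⟨i, hi, hp⟩ := mem_biUnion.mp hp
      exact ⟨i, hi, mem_filter.mp hp⟩
    have hlg : lg (Γ.biUnion good) = ∑ i ∈ Γ, lg (good i) :=
      sum_biUnion fun i hi i' hi' hne => (hdis i (mem_range.mp (hΓ hi)) i'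
        (mem_range.mp (hΓ hi')) hne).mono (filter_subset _ _) (filter_subset _ _)
    have hcard : (Γ.biUnion good).card ≤ b' * j := by
      refine card_biUnion_le.trans ((sum_le_card_nsmul _ _ j fun i hi => ?_).trans ?_)
      · exact (card_le_card (filter_subset _ _)).trans (hA i (mem_range.mp (hΓ hi))).2.le
      · exact Nat.mul_le_mul_right _ hc
    have hprod : ∏ p ∈ Γ.biUnion good, p ≤ 2 ^ l := by
      refine (prod_le_pow_card _ _ (2 ^ (s + 1)) fun p hp => ?_).trans ?_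
      · obtain ⟨i, hi, hp, _⟩ := hmem p hp
        exact ((hA i (mem_range.mp (hΓ hi))).1 p hp).2.2.2.le
      · rw [← pow_mul]
        refine Nat.pow_le_pow_right (by norm_num) (le_trans ?_ hb2)
        calc _ ≤ (2 * s) * (b' * j) := Nat.mul_le_mul (by omega) hcard
          _ = _ := by ring
    have h1 := errA_H ι (G := Γ.biUnion good) (fun p hp => by
      obtain ⟨i, hi, hp, h⟩ := hmem p hp
      exact ⟨((hA i (mem_range.mp (hΓ hi))).1 p hp).1, h⟩) hΩ hK hprod hD
    have h3 := μ.H_sub_le_Hc (fun ω => cls ι (Γ.biUnion good) ω.1) Prod.snd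
    have h4 : (μ.H fun ω => cls ι (Γ.biUnion good) ω.1) = (FP.unif Ω).H (cls ι (Γ.biUnion good)) :=
      FP.H_joint_fst _ _ _
    have h5 := μ.Hc_sum_le Γ (fun i ω => cls ι (A i) ω.1) Prod.snd
      (fun ω => cls ι (Γ.biUnion good) ω.1) fun a a' h _ => cls_eq_iff.mpr fun p hp => by
        obtain ⟨i, hi, hp, _⟩ := hmem p hp
        exact cls_eq_iff.mp (h i hi) p hp
    simp only [Df, sum_sub_distrib, hsplit, sum_add_distrib]
    linarith
  have hmaps : ∀ i ∈ range b, i / b' ∈ range (b / b' + 1) := fun i hi =>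
    mem_range.mpr (Nat.lt_succ_of_le (Nat.div_le_div_right (mem_range.mp hi).le))
  have htot : ∑ i ∈ range b, Df ι (A i) μ Prod.fst Prod.snd ≤ ∑ i ∈ range b, lg (bad i) +
      (b / b' + 1 : ℕ) * (Real.log (2 * K) + (l : ℝ) / 2 ^ 24) := by
    rw [← sum_fiberwise_of_maps_to hmaps, ← sum_fiberwise_of_maps_to hmaps fun i => lg (bad i)]
    refine (sum_le_sum fun q _ => hgroup _ (filter_subset _ _) ?_).trans ?_
    · have : (range b).filter (fun i => i / b' = q) ⊆ Ico (b' * q) (b' * q + b') := fun i hi => by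
        have h1 := (mem_filter.mp hi).2
        have h2 := Nat.div_add_mod i b'
        have h3 := Nat.mod_lt i hb1
        rw [h1] at h2
        rw [mem_Ico]; omega
      simpa using card_le_card this
    · rw [sum_add_distrib, sum_const, card_range, nsmul_eq_mul]
  have hbad : ∑ i ∈ range b, lg (bad i) ≤ (32 * l : ℕ) := by
    have h1 : lg ((range b).biUnion bad) = ∑ i ∈ range b, lg (bad i) :=
      sum_biUnion fun i hi i' hi' hne => (hdis i (mem_range.mp hi) i'
        (mem_range.mp hi') hne).mono (filter_subset _ _) (filter_subset _ _)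
    rw [← h1]
    refine lg_primes_le (N := v.norm) (fun p hp => ?_) (norm_pos' hv) hvn
    obtain ⟨i, hi, hp⟩ := mem_biUnion.mp hp
    have h2 := (hA i (mem_range.mp hi)).1 p (mem_filter.mp hp).1
    exact ⟨h2.1, dvd_norm_of_dvd_lin h2.2.1 (mem_filter.mp hp).2⟩
  have hKR : (1 : ℝ) ≤ K := by exact_mod_cast hK
  have hlog : Real.log (2 * K) ≤ 2 * K := (Real.log_le_sub_one_of_pos (by positivity)).trans (by
    linarith)
  have hKlR : (2 : ℝ) ^ 32 * K ≤ l := by exact_mod_cast hKl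
  have h18R : (2 : ℝ) ^ 18 * l ≤ b * j * s := by exact_mod_cast h18
  have hq : (b / b' + 1) * l ≤ 4 * (b * j * s) + l := by
    have h1 := Nat.div_mul_le_self b b'
    calc (b / b' + 1) * l = b / b' * l + l := by ring
      _ ≤ b / b' * (2 * (b' * (2 * j * s))) + l := by gcongr
      _ = 4 * (b / b' * b' * j * s) + l := by ring
      _ ≤ _ := by gcongr
  have hqR : ((b / b' + 1 : ℕ) : ℝ) * l ≤ 4 * (b * j * s) + l := by exact_mod_cast hq
  have h9 : ((b / b' + 1 : ℕ) : ℝ) * (Real.log (2 * K) + (l : ℝ) / 2 ^ 24) ≤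
      ((b / b' + 1 : ℕ) : ℝ) * (l / 2 ^ 23) :=
    mul_le_mul_of_nonneg_left (by linarith) (Nat.cast_nonneg _)
  rw [← mul_div_assoc] at h9
  push_cast at hbad
  have h10 : (0 : ℝ) ≤ l := Nat.cast_nonneg _
  linarith

end Vale.Agent.P015
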