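import Vale.Agent.P015.Basic

/-! # P015: the equidistribution estimate for single primes -/

namespace Vale.Agent.P015

open Finset

lemma errB_pt (F τ : ℝ) (r : ℕ) (hr : Even r) (h1 : 1 ≤ r) (hτ : 0 < τ) :
    F ≤ τ + F ^ r / τ ^ (r - 1) := by
  have h0 : 0 ≤ F ^ r / τ ^ (r - 1) := div_nonneg (hr.pow_nonneg F) (by positivity)
  rcases le_total F τ with h | h
  · linarith
  · obtain ⟨n, rfl⟩ := Nat.exists_eq_add_of_le' h1
    rw [Nat.add_sub_cancel]
    have h2 : τ ^ n ≤ F ^ n := pow_le_pow_left₀ hτ.le h n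
    have h3 : F ≤ F ^ (n + 1) / τ ^ n := by
      rw [le_div_iff₀ (by positivity), pow_succ, mul_comm (F ^ n)]
      exact mul_le_mul_of_nonneg_left h2 (hτ.le.trans h)
    linarith

lemma errB_center {p : ℕ} (hp : p.Prime) (a0 b : ℤ) (hb : ¬ (p : ℤ) ∣ b) (φ : ℤ → ℝ) :
    ∑ a ∈ range p, φ ((a0 + a * b) % p) = ∑ y ∈ Ico (0 : ℤ) p, φ y := by
  have hinj : ∀ a ∈ range p, ∀ a' ∈ range p,
      (a0 + a * b) % p = (a0 + a' * b) % p → a = a' := by
    intro a ha a' ha' h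
    have h1 : (p : ℤ) ∣ ((a : ℤ) - a') * b := by
      have h2 := Int.emod_eq_emod_iff_emod_sub_eq_zero.mp h
      have h3 : (a0 + a * b) - (a0 + a' * b) = ((a : ℤ) - a') * b := by ring
      rw [h3] at h2
      exact Int.dvd_of_emod_eq_zero h2
    have h4 : (p : ℤ) ∣ (a : ℤ) - a' :=
      ((Nat.prime_iff_prime_int.mp hp).dvd_or_dvd h1).resolve_right hb
    have h5 := mem_range.mp ha
    have h6 := mem_range.mp ha'
    have h7 := Int.eq_zero_of_abs_lt_dvd h4 (by rw [abs_lt]; constructor <;> omega)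
    omega
  refine sum_bij (fun a _ => (a0 + a * b) % p) (fun a _ => emod_mem_Ico hp.pos _)
    (fun a ha a' ha' h => hinj a ha a' ha' h) ?_ fun _ _ => rfl
  intro y hy
  obtain ⟨a, ha, h⟩ := surj_on_of_inj_on_of_card_le (s := range p) (t := Ico (0 : ℤ) p)
    (fun a _ => (a0 + a * b) % p) (fun a _ => emod_mem_Ico hp.pos _)
    (fun a a' ha ha' h => hinj a ha a' ha' h) (by rw [card_Ico_int, card_range]) y hy
  exact ⟨a, ha, h.symm⟩

/-- centred indicator function. -/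
noncomputable def errBf (U : Finset ℤ) (p : ℕ) (y : ℤ) : ℝ :=
  (if y ∈ U then 1 else 0) - (U.card : ℝ) / p

lemma errBf_abs {U : Finset ℤ} {p : ℕ} (hU : U ⊆ Ico (0 : ℤ) p) (y : ℤ) : |errBf U p y| ≤ 1 := by
  have h1 : U.card ≤ p := by simpa using card_le_card hU
  have h2 : (U.card : ℝ) / p ≤ 1 := div_le_one_of_le₀ (by exact_mod_cast h1) (by positivity)
  have h3 : 0 ≤ (U.card : ℝ) / p := by positivity
  rw [errBf, abs_le]
  split_ifs <;> constructor <;> linarith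

lemma errBf_sum {U : Finset ℤ} {p : ℕ} (hp : 0 < p) (hU : U ⊆ Ico (0 : ℤ) p) :
    ∑ y ∈ Ico (0 : ℤ) p, errBf U p y = 0 := by
  have h0 : (p : ℝ) ≠ 0 := by exact_mod_cast hp.ne'
  simp only [errBf, sum_sub_distrib, sum_const, card_Ico_int, nsmul_eq_mul]
  rw [← sum_filter, filter_mem_eq_inter, inter_eq_right.mpr hU, sum_const, nsmul_eq_mul, mul_one,
    mul_div_cancel₀ _ h0, sub_self]

/-- the sum of the centred indicators over the good primes. -/
noncomputable def errBF (ι : ℕ → ℤ) (P : Finset ℕ) (v : GaussianInt) (U : ℕ → Finset ℤ)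
    (z : GaussianInt) : ℝ :=
  ∑ p ∈ P, if (p : ℤ) ∣ lin ι p v then 0 else errBf (U p) p (lin ι p z % p)

lemma errB_seg (hS : SegStmt) {ι : ℕ → ℤ} {s l r : ℕ} {P : Finset ℕ} (hP : Pool ι s P)
    (hs : 1 ≤ s) (hr : Even r) (hr1 : 1 ≤ r) (hrP : r ≤ P.card) (hl : 3 * s * r ≤ l)
    (v : GaussianInt) {U : ℕ → Finset ℤ} (hU : ∀ p ∈ P, U p ⊆ Ico (0 : ℤ) p) (z : GaussianInt) :
    ∑ a ∈ range (2 ^ l), errBF ι P v U (z + (a : GaussianInt) * v) ^ r
      ≤ ((2 ^ l : ℕ) : ℝ) * (4 * (8 * r * P.card : ℝ) ^ (r / 2)) := by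
  have h := hS P (2 ^ (s + 1)) (2 ^ l) r
    (fun p a => if (p : ℤ) ∣ lin ι p v then 0 else errBf (U p) p ((lin ι p z + a * lin ι p v) % p))
    (fun p hp => ⟨(hP p hp).1, (hP p hp).2.2.2.le⟩) hr hrP
    (fun p hp a => by
      split_ifs
      · simp
      · exact errBf_abs (hU p hp) _)
    (fun p hp a => by
      have : (lin ι p z + ((a + p : ℕ) : ℤ) * lin ι p v) % p = (lin ι p z + a * lin ι p v) % p := by
        rw [Nat.cast_add, add_mul, ← add_assoc, Int.add_mul_emod_self_left]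
      rw [this])
    (fun p hp => by
      by_cases hb : (p : ℤ) ∣ lin ι p v
      · simp [hb]
      · simp only [hb, if_false]
        rw [errB_center (hP p hp).1 _ _ hb, errBf_sum (hP.pos p hp) (hU p hp)])
  have h1 : ∀ a : ℕ, errBF ι P v U (z + (a : GaussianInt) * v) = ∑ p ∈ P,
      if (p : ℤ) ∣ lin ι p v then 0 else errBf (U p) p ((lin ι p z + a * lin ι p v) % p) := by
    intro a
    simp only [errBF, lin_add, lin_natCast_mul]
  simp only [h1]
  refine h.trans ?_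
  have h2 : (P.card * 2 ^ (s + 1)) ^ r ≤ 2 ^ l := by
    calc (P.card * 2 ^ (s + 1)) ^ r ≤ (2 ^ s * 2 ^ (s + 1)) ^ r :=
          Nat.pow_le_pow_left (Nat.mul_le_mul_right _ hP.card_le) r
      _ = 2 ^ ((2 * s + 1) * r) := by rw [← pow_add, ← pow_mul]; congr 2; ring
      _ ≤ 2 ^ l := Nat.pow_le_pow_right (by norm_num)
          ((Nat.mul_le_mul_right r (by omega)).trans hl)
  have h3 : ((P.card : ℝ) * ((2 ^ (s + 1) : ℕ) : ℝ)) ^ r ≤ ((2 ^ l : ℕ) : ℝ) := by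
    exact_mod_cast h2
  have h4 : (1 : ℝ) ≤ (8 * r * P.card : ℝ) ^ (r / 2) := by
    refine one_le_pow₀ ?_
    have h5 : 1 ≤ 8 * r * P.card := by
      have : 1 ≤ P.card := hr1.trans hrP
      nlinarith
    exact_mod_cast h5
  have h6 : (0 : ℝ) ≤ ((2 ^ l : ℕ) : ℝ) := Nat.cast_nonneg _
  generalize ((2 ^ l : ℕ) : ℝ) = A at *
  generalize (8 * r * P.card : ℝ) ^ (r / 2) = B at *
  nlinarith

lemma errB_moment (hS : SegStmt) {ι : ℕ → ℤ} {s l r K : ℕ} {P : Finset ℕ} (hP : Pool ι s P)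
    (hs : 1 ≤ s) (hr : Even r) (hr1 : 1 ≤ r) (hrP : r ≤ P.card) (hl : 3 * s * r ≤ l)
    {Ω : Finset GaussianInt} {v : GaussianInt} (hΩ : Ω.Nonempty) (hD : Dom Ω v (2 ^ l) K)
    {γ : Type} (k : GaussianInt → FP γ) (S : Finset γ) (hk : ∀ d ∈ Ω, (k d).Ae fun c => c ∈ S)
    {U : ℕ → γ → Finset ℤ} (hU : ∀ p ∈ P, ∀ c, U p c ⊆ Ico (0 : ℤ) p) :
    (((FP.unif Ω).joint k).E fun ω => errBF ι P v (fun p => U p ω.2) ω.1 ^ r)
      ≤ S.card * (K * (4 * (8 * r * P.card : ℝ) ^ (r / 2))) := by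
  have hc : (0 : ℝ) < Ω.card := by exact_mod_cast hΩ.card_pos
  rw [FP.E_joint]
  calc _ ≤ (FP.unif Ω).E fun d => ∑ c ∈ S, errBF ι P v (fun p => U p c) d ^ r := by
        refine FP.E_mono_ae _ ((FP.ae_unif hΩ).mono fun d hd => ?_)
        refine FP.E_le_of_ae _ ((hk d hd).mono fun c hc => ?_)
        exact single_le_sum (f := fun c => errBF ι P v (fun p => U p c) d ^ r)
          (fun c _ => hr.pow_nonneg _) hc
    _ = ∑ c ∈ S, (∑ d ∈ Ω, errBF ι P v (fun p => U p c) d ^ r) / Ω.card := by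
        rw [FP.E_sum]
        exact sum_congr rfl fun c _ => FP.E_unif hΩ _
    _ ≤ ∑ c ∈ S, (K * (4 * (8 * r * P.card : ℝ) ^ (r / 2)) : ℝ) := by
        refine sum_le_sum fun c _ => ?_
        rw [div_le_iff₀ hc]
        have := hD (fun d => errBF ι P v (fun p => U p c) d ^ r) _ (fun _ => hr.pow_nonneg _)
          (errB_seg hS hP hs hr hr1 hrP hl v fun p hp => hU p hp c)
        linarith
    _ = _ := by rw [sum_const, nsmul_eq_mul]

lemma errB_side {g s K l r n : ℕ} (hs : s < 4096 * g) (hK : 2 ^ 32 * K ≤ l) (hl : l ≤ 12 * s * r)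
    (hn : Real.log n ≤ (l : ℝ) / 2 ^ 24) : (n : ℝ) * (K * 4) ≤ (2 ^ g) ^ r := by
  have h1 : (n : ℝ) ≤ Real.exp ((l : ℝ) / 2 ^ 24) := by
    rcases Nat.eq_zero_or_pos n with rfl | h
    · simpa using (Real.exp_pos _).le
    · rw [← Real.log_le_iff_le_exp (by exact_mod_cast h)]; exact hn
  have h2 : (K * 4 : ℝ) ≤ Real.exp (K * 4) := by linarith [Real.add_one_le_exp (K * 4 : ℝ)]
  have h3 : (2 ^ 32 * K : ℝ) ≤ l := by exact_mod_cast hK
  have h4 : l ≤ 49152 * (g * r) := hl.trans (by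
    have := Nat.mul_le_mul_right r (Nat.mul_le_mul_left 12 hs.le)
    linarith)
  have h5 : (l : ℝ) ≤ 49152 * ((g * r : ℕ) : ℝ) := by exact_mod_cast h4
  have h6 := Real.log_two_gt_d9
  have h7 : (0 : ℝ) ≤ ((g * r : ℕ) : ℝ) := Nat.cast_nonneg _
  calc (n : ℝ) * (K * 4) ≤ Real.exp ((l : ℝ) / 2 ^ 24) * Real.exp (K * 4) :=
        mul_le_mul h1 h2 (by positivity) (Real.exp_pos _).le
    _ = Real.exp ((l : ℝ) / 2 ^ 24 + K * 4) := (Real.exp_add _ _).symm
    _ ≤ Real.exp (((g * r : ℕ) : ℝ) * Real.log 2) := by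
        refine Real.exp_le_exp.mpr ?_
        nlinarith
    _ = (2 ^ g) ^ r := by
        rw [Real.exp_nat_mul, Real.exp_log (by norm_num), pow_mul]

lemma errB_pow {y k r' n : ℝ} {r : ℕ} (hy : 2 ≤ y) (hk : y ^ 1792 ≤ k) (hr0 : 0 ≤ r')
    (hr' : r' ≤ y ^ 768) (hr : Even r) (hn : n ≤ y ^ r) :
    n * (8 * r' * k) ^ (r / 2) ≤ (k / y ^ 200) ^ r := by
  have hy0 : 0 < y := by linarith
  have hy1 : 1 ≤ y := by linarith
  have hk0 : 0 < k := lt_of_lt_of_le (by positivity) hk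
  have h8 : 8 ≤ y ^ 3 := by
    have := pow_le_pow_left₀ (by norm_num : (0 : ℝ) ≤ 2) hy 3
    norm_num at this; exact this
  have h1 : 8 * r' * y ^ 1000 ≤ k := by
    calc 8 * r' * y ^ 1000 ≤ y ^ 3 * y ^ 768 * y ^ 1000 := by gcongr
      _ = y ^ 1771 := by rw [← pow_add, ← pow_add]
      _ ≤ y ^ 1792 := pow_le_pow_right₀ hy1 (by norm_num)
      _ ≤ k := hk
  have h2 : 8 * r' * k ≤ (k / y ^ 500) ^ 2 := by
    rw [div_pow, ← pow_mul, le_div_iff₀ (by positivity)]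
    calc 8 * r' * k * y ^ (500 * 2) = (8 * r' * y ^ 1000) * k := by ring
      _ ≤ k * k := mul_le_mul_of_nonneg_right h1 hk0.le
      _ = k ^ 2 := (sq k).symm
  have h3 : (8 * r' * k) ^ (r / 2) ≤ (k / y ^ 500) ^ r := by
    calc (8 * r' * k) ^ (r / 2) ≤ ((k / y ^ 500) ^ 2) ^ (r / 2) :=
          pow_le_pow_left₀ (by positivity) h2 _
      _ = (k / y ^ 500) ^ r := by rw [← pow_mul, Nat.two_mul_div_two_of_even hr]
  calc n * (8 * r' * k) ^ (r / 2) ≤ y ^ r * (k / y ^ 500) ^ r :=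
        mul_le_mul hn h3 (by positivity) (by positivity)
    _ = (y * (k / y ^ 500)) ^ r := (mul_pow _ _ _).symm
    _ ≤ (k / y ^ 200) ^ r := by
        refine pow_le_pow_left₀ (by positivity) ?_ r
        rw [← mul_div_assoc, div_le_div_iff₀ (by positivity) (by positivity)]
        calc y * k * y ^ 200 = k * y ^ 201 := by ring
          _ ≤ k * y ^ 500 := mul_le_mul_of_nonneg_left (pow_le_pow_right₀ hy1 (by norm_num)) hk0.le

lemma errB_final {y k l g : ℝ} (hy : 2 ≤ y) (hk : y ^ 1792 ≤ k) (hl0 : 0 ≤ l) (hl : l ≤ y ^ 768)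
    (hg0 : 0 ≤ g) (hg : g ≤ y) : 4098 * g * (32 * l + 2 * (k / y ^ 200)) ≤ k / y ^ 100 := by
  have hy0 : 0 < y := by linarith
  have hy1 : 1 ≤ y := by linarith
  have hk0 : 0 < k := lt_of_lt_of_le (by positivity) hk
  have h19 : 262272 ≤ y ^ 19 := by
    have := pow_le_pow_left₀ (by norm_num : (0 : ℝ) ≤ 2) hy 19
    norm_num at this; linarith
  have h1 : 262272 * g * l * y ^ 100 ≤ k := by
    calc 262272 * g * l * y ^ 100 ≤ y ^ 19 * y ^ 1 * y ^ 768 * y ^ 100 := by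
          rw [pow_one]; gcongr
      _ = y ^ 888 := by rw [← pow_add, ← pow_add, ← pow_add]
      _ ≤ y ^ 1792 := pow_le_pow_right₀ hy1 (by norm_num)
      _ ≤ k := hk
  have h2 : 262272 * g ≤ y ^ 100 := by
    calc 262272 * g ≤ y ^ 19 * y ^ 1 := by rw [pow_one]; gcongr
      _ = y ^ 20 := by rw [← pow_add]
      _ ≤ y ^ 100 := pow_le_pow_right₀ hy1 (by norm_num)
  have h3 : y ^ 200 = y ^ 100 * y ^ 100 := by rw [← pow_add]
  have h4 : 0 < y ^ 100 := by positivity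
  rw [h3]
  generalize y ^ 100 = w at *
  have h5 : 4098 * g * (32 * l) ≤ k / w / 2 := by
    rw [le_div_iff₀ (by norm_num), le_div_iff₀ h4]; linarith
  have h6 : 4098 * g * (2 * (k / (w * w))) ≤ k / w / 2 := by
    have h7 : k / (w * w) = k / w / w := by rw [div_div]
    have h8 : 0 ≤ k / w := by positivity
    rw [h7]
    generalize k / w = q at *
    rw [le_div_iff₀ (by norm_num), ← mul_div_assoc, ← mul_div_assoc, div_mul_eq_mul_div,
      div_le_iff₀ h4]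
    nlinarith
  linarith

theorem errB_of (hS : SegStmt) (hK : KLStmt) : ErrBStmt := by
  intro ι g s K l P hg hK1 hs1 hs hP hk hKl hsl hl Ω v hΩ hv0 hv hD γ k S hSc hk'
  set μ := (FP.unif Ω).joint k with hμ
  have hex : ∀ p : ℕ, ∃ U : γ → Finset ℤ, p ∈ P → (∀ c, U c ⊆ Ico (0 : ℤ) p) ∧
      0 ≤ (μ.E fun a => errBf (U a.2) p (lin ι p a.1 % p)) ∧
      Real.log p - μ.Hc (fun a => lin ι p a.1 % p) Prod.snd ≤ (Real.log p + 1) *
        μ.E fun a => errBf (U a.2) p (lin ι p a.1 % p) := by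
    intro p
    by_cases hp : p ∈ P
    · obtain ⟨U, h1, h2, h3⟩ := hK _ _ _ μ (fun a => lin ι p a.1 % p) Prod.snd (Ico (0 : ℤ) p)
        fun a _ => emod_mem_Ico (hP.pos p hp) _
      rw [card_Ico_int] at h2 h3
      exact ⟨U, fun _ => ⟨h1, h2, h3⟩⟩
    · exact ⟨fun _ => ∅, fun h => absurd h hp⟩
  choose U hU using hex
  have hg' : (1 : ℝ) ≤ g := by exact_mod_cast hg
  -- reduction to the centred indicators
  have h1 : ∑ p ∈ P, Df ι {p} μ Prod.fst Prod.snd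
      ≤ 4098 * g * ∑ p ∈ P, μ.E fun a => errBf (U p a.2) p (lin ι p a.1 % p) := by
    rw [mul_sum]
    refine sum_le_sum fun p hp => ?_
    obtain ⟨-, h2, h3⟩ := hU p hp
    have h4 : μ.Hc (fun a => lin ι p a.1 % p) Prod.snd
        ≤ μ.Hc (fun a => cls ι {p} a.1) Prod.snd :=
      μ.Hc_mono_left _ fun a a' h _ => cls_eq_iff.mp h p (mem_singleton_self p)
    have h5 : Real.log p + 1 ≤ 4098 * g := by
      have h6 := hP.log_le hp
      have h7 := Real.log_two_lt_d9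
      have h8 : (s + 1 : ℝ) ≤ 4096 * g := by exact_mod_cast hs
      nlinarith
    have h9 := mul_le_mul_of_nonneg_right h5 h2
    rw [Df, lg_singleton]
    linarith
  -- the bad primes
  have h2 : ∑ p ∈ P, (μ.E fun a => errBf (U p a.2) p (lin ι p a.1 % p))
      ≤ 32 * l + μ.E fun ω => errBF ι P v (fun p => U p ω.2) ω.1 := by
    have h3 : (P.filter fun p : ℕ => (p : ℤ) ∣ lin ι p v).card ≤ 32 * l :=
      card_primes_le (N := v.norm) (fun p hp => ⟨(hP p (mem_filter.mp hp).1).1,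
        dvd_norm_of_dvd_lin (hP p (mem_filter.mp hp).1).2.1 (mem_filter.mp hp).2⟩)
        (norm_pos' hv0) hv
    have h4 : ((P.filter fun p : ℕ => (p : ℤ) ∣ lin ι p v).card : ℝ) ≤ 32 * l := by
      exact_mod_cast h3
    rw [← FP.E_sum, ← μ.E_const (32 * l), ← FP.E_add]
    refine μ.E_mono fun a => ?_
    refine le_trans ?_ (add_le_add h4 le_rfl)
    rw [card_filter, errBF, Nat.cast_sum, ← sum_add_distrib]
    refine sum_le_sum fun p hp => ?_
    split_ifs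
    · simpa using (abs_le.mp (errBf_abs ((hU p hp).1 a.2) (lin ι p a.1 % p))).2
    · simp
  -- the moment bound
  set r := 2 * (l / (12 * s)) with hr
  have hq1 : 1 ≤ l / (12 * s) := (Nat.le_div_iff_mul_le (by omega)).mpr (by omega)
  have hq2 : l / (12 * s) * (12 * s) ≤ l := Nat.div_mul_le_self _ _
  have hq3 : l < 12 * s * (l / (12 * s) + 1) := Nat.lt_mul_div_succ _ (by omega)
  have hre : Even r := even_two_mul _
  have hr1 : 1 ≤ r := by omega
  have hr2 : 3 * s * r ≤ l := by rw [hr]; nlinarith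
  have hr3 : l ≤ 12 * s * r := by rw [hr]; nlinarith
  have hr4 : r ≤ l := by nlinarith
  have hlk : l ≤ P.card := hl.trans ((Nat.pow_le_pow_right (by norm_num) (by omega)).trans hk)
  clear_value r
  have hy : (2 : ℝ) ≤ 2 ^ g := le_self_pow₀ (by norm_num) (by omega)
  have hgy : (g : ℝ) ≤ 2 ^ g := by exact_mod_cast (Nat.lt_two_pow_self (n := g)).le
  have hky : ((2 : ℝ) ^ g) ^ 1792 ≤ P.card := by
    rw [← pow_mul, mul_comm]; exact_mod_cast hk
  have hly : (l : ℝ) ≤ ((2 : ℝ) ^ g) ^ 768 := by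
    rw [← pow_mul, mul_comm]; exact_mod_cast hl
  have hry : (r : ℝ) ≤ ((2 : ℝ) ^ g) ^ 768 := le_trans (by exact_mod_cast hr4) hly
  have h3 := errB_moment hS hP hs1 hre hr1 (hr4.trans hlk) hr2 hΩ hD k S hk'
    (U := U) fun p hp => (hU p hp).1
  have h4 := errB_pow hy hky (Nat.cast_nonneg r) hry hre (errB_side hs hKl hr3 hSc)
  have h5 := errB_final hy hky (Nat.cast_nonneg l) hly (Nat.cast_nonneg g) hgy
  have h6 : (2 : ℝ) ^ (100 * g) = (2 ^ g) ^ 100 := by rw [← pow_mul, mul_comm]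
  rw [h6]
  have hτ : (0 : ℝ) < P.card / ((2 : ℝ) ^ g) ^ 200 :=
    div_pos (lt_of_lt_of_le (by positivity) hky) (by positivity)
  generalize (P.card : ℝ) / ((2 : ℝ) ^ g) ^ 200 = τ at *
  have h7 : (μ.E fun ω => errBF ι P v (fun p => U p ω.2) ω.1 ^ r) ≤ τ ^ r := by
    refine h3.trans (le_of_eq_of_le ?_ h4)
    ring
  have h8 : (μ.E fun ω => errBF ι P v (fun p => U p ω.2) ω.1) ≤ 2 * τ := by
    refine (μ.E_mono fun ω => errB_pt _ τ r hre hr1 hτ).trans ?_
    rw [FP.E_add, FP.E_const, FP.E_div]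
    have h9 : (μ.E fun ω => errBF ι P v (fun p => U p ω.2) ω.1 ^ r) / τ ^ (r - 1) ≤ τ := by
      rw [div_le_iff₀ (by positivity), ← pow_succ', Nat.sub_add_cancel hr1]
      exact h7
    linarith
  refine h1.trans (le_trans ?_ h5)
  exact mul_le_mul_of_nonneg_left (by linarith) (by positivity)

end Vale.Agent.P015
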