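import Mathlib

/-! # P015: finitely supported probability distributions and their entropy (definitions, monad) -/

namespace Vale.Agent.P015

open Finset

/-- a finitely supported probability distribution. -/
structure FP (α : Type) where
  w : α →₀ ℝ
  nonneg : ∀ a, 0 ≤ w a
  total : (w.sum fun _ r => r) = 1

namespace FP

variable {α β γ δ : Type}

/-- expectation. -/
noncomputable def E (p : FP α) (f : α → ℝ) : ℝ := p.w.sum fun a r => r * f a

/-- a property holds on the support. -/
def Ae (p : FP α) (P : α → Prop) : Prop := ∀ a, p.w a ≠ 0 → P a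

open Classical in
/-- probability of an event. -/
noncomputable def Pr (p : FP α) (P : α → Prop) : ℝ := p.E fun a => if P a then 1 else 0

lemma E_def (p : FP α) (f : α → ℝ) : p.E f = ∑ a ∈ p.w.support, p.w a * f a := rfl

lemma sum_w (p : FP α) : ∑ a ∈ p.w.support, p.w a = 1 := p.total

/-- point mass. -/
noncomputable def pure (a : α) : FP α where
  w := Finsupp.single a 1
  nonneg := fun b => by
    classical
    rw [Finsupp.single_apply]; split_ifs <;> norm_num
  total := by simp

lemma sum_smul_lin (p : α →₀ ℝ) (k : α → β →₀ ℝ) (f : β → ℝ) :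
    ((p.sum fun a r => r • k a).sum fun b r => r * f b)
      = p.sum fun a r => r * (k a).sum fun b r => r * f b := by
  rw [Finsupp.sum_sum_index (by simp) (by intros; ring)]
  refine Finsupp.sum_congr fun a _ => ?_
  rw [Finsupp.sum_smul_index' (by simp), Finsupp.mul_sum]
  refine Finsupp.sum_congr fun b _ => ?_
  rw [smul_eq_mul, mul_assoc]

/-- composition with a kernel. -/
noncomputable def bind (p : FP α) (k : α → FP β) : FP β where
  w := p.w.sum fun a r => r • (k a).w
  nonneg := fun b => by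
    rw [Finsupp.sum_apply]
    exact Finset.sum_nonneg fun a _ => mul_nonneg (p.nonneg a) ((k a).nonneg b)
  total := by
    have h := sum_smul_lin p.w (fun a => (k a).w) (fun _ => 1)
    simp only [mul_one, fun a => (k a).total] at h
    rw [h, p.total]

/-- image distribution. -/
noncomputable def map (p : FP α) (f : α → β) : FP β := p.bind fun a => pure (f a)

/-- joint law of a point and a kernel. -/
noncomputable def joint (p : FP α) (k : α → FP β) : FP (α × β) :=
  p.bind fun a => (k a).map (Prod.mk a)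

lemma sum_single_lin (S : Finset γ) (g : γ → α) (c : γ → ℝ) (f : α → ℝ) :
    ((∑ s ∈ S, Finsupp.single (g s) (c s)).sum fun a r => r * f a) = ∑ s ∈ S, c s * f (g s) := by
  rw [← Finsupp.sum_finsetSum_index (by simp) (by intros; ring)]
  exact Finset.sum_congr rfl fun s _ => by simp

/-- a distribution from weights on a finite set. -/
noncomputable def ofSum (S : Finset α) (c : α → ℝ) (h0 : ∀ a ∈ S, 0 ≤ c a)
    (h1 : ∑ a ∈ S, c a = 1) : FP α where
  w := ∑ a ∈ S, Finsupp.single a (c a)
  nonneg := fun b => by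
    classical
    rw [Finsupp.finsetSum_apply]
    refine Finset.sum_nonneg fun a ha => ?_
    rw [Finsupp.single_apply]; split_ifs
    · exact h0 a ha
    · exact le_rfl
  total := by
    have h := sum_single_lin S id c (fun _ => 1)
    simp only [mul_one, id] at h
    rw [h, h1]

lemma E_ofSum (S : Finset α) (c : α → ℝ) (h0 h1) (f : α → ℝ) :
    (ofSum S c h0 h1).E f = ∑ a ∈ S, c a * f a := sum_single_lin S id c f

open Classical in
/-- uniform distribution on a nonempty finite set. -/
noncomputable def unif [Inhabited α] (S : Finset α) : FP α :=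
  if h : S.Nonempty then ofSum S (fun _ => 1 / S.card) (fun _ _ => by positivity) (by
    have : (S.card : ℝ) ≠ 0 := by exact_mod_cast h.card_pos.ne'
    simp [this]) else pure default

/-- independent copies. -/
noncomputable def iid (ι : Type) [Fintype ι] [DecidableEq ι] (p : FP α) : FP (ι → α) :=
  ofSum (Fintype.piFinset fun _ => p.w.support) (fun ω => ∏ i, p.w (ω i))
    (fun _ _ => Finset.prod_nonneg fun _ _ => p.nonneg _) (by
      rw [← Finset.prod_univ_sum]; simp [p.sum_w])

/-- entropy of a random variable. -/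
noncomputable def H (p : FP α) (X : α → β) : ℝ :=
  p.E fun a => -Real.log (p.Pr fun a' => X a' = X a)

/-- conditional entropy. -/
noncomputable def Hc (p : FP α) (X : α → β) (Z : α → γ) : ℝ :=
  p.H (fun a => (X a, Z a)) - p.H Z

@[simp] lemma E_pure (a : α) (f : α → ℝ) : (pure a).E f = f a := by simp [E, pure]

lemma E_bind (p : FP α) (k : α → FP β) (f : β → ℝ) :
    (p.bind k).E f = p.E fun a => (k a).E f := sum_smul_lin p.w (fun a => (k a).w) f

lemma E_map (p : FP α) (g : α → β) (f : β → ℝ) : (p.map g).E f = p.E fun a => f (g a) := by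
  simp [map, E_bind]

lemma E_joint (p : FP α) (k : α → FP β) (f : α × β → ℝ) :
    (p.joint k).E f = p.E fun a => (k a).E fun b => f (a, b) := by
  simp [joint, E_bind, E_map]

lemma E_unif [Inhabited α] {S : Finset α} (h : S.Nonempty) (f : α → ℝ) :
    (unif S).E f = (∑ a ∈ S, f a) / S.card := by
  rw [unif, dif_pos h, E_ofSum, ← Finset.mul_sum]; ring

lemma E_iid (ι : Type) [Fintype ι] [DecidableEq ι] (p : FP α) (F : (ι → α) → ℝ) :
    (iid ι p).E F = ∑ ω ∈ Fintype.piFinset fun _ => p.w.support, (∏ i, p.w (ω i)) * F ω :=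
  E_ofSum _ _ _ _ _

lemma E_iid_prod (ι : Type) [Fintype ι] [DecidableEq ι] (p : FP α) (f : ι → α → ℝ) :
    (iid ι p).E (fun ω => ∏ i, f i (ω i)) = ∏ i, p.E (f i) := by
  rw [E_iid]
  simp only [E_def, Finset.prod_univ_sum, Finset.prod_mul_distrib]

@[simp] lemma E_const (p : FP α) (c : ℝ) : (p.E fun _ => c) = c := by
  rw [E_def, ← Finset.sum_mul, p.sum_w, one_mul]

lemma E_add (p : FP α) (f g : α → ℝ) : (p.E fun a => f a + g a) = p.E f + p.E g := by
  simp only [E_def, mul_add, Finset.sum_add_distrib]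

lemma E_sub (p : FP α) (f g : α → ℝ) : (p.E fun a => f a - g a) = p.E f - p.E g := by
  simp only [E_def, mul_sub, Finset.sum_sub_distrib]

lemma E_neg (p : FP α) (f : α → ℝ) : (p.E fun a => -f a) = -p.E f := by
  simp only [E_def, mul_neg, Finset.sum_neg_distrib]

lemma E_mul_left (p : FP α) (c : ℝ) (f : α → ℝ) : (p.E fun a => c * f a) = c * p.E f := by
  simp only [E_def, Finset.mul_sum]; exact Finset.sum_congr rfl fun a _ => by ring

lemma E_mul_right (p : FP α) (c : ℝ) (f : α → ℝ) : (p.E fun a => f a * c) = p.E f * c := by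
  simp only [E_def, Finset.sum_mul, mul_assoc]

lemma E_div (p : FP α) (c : ℝ) (f : α → ℝ) : (p.E fun a => f a / c) = p.E f / c := by
  simp only [div_eq_mul_inv, E_mul_right]

lemma E_sum {ι : Type*} (p : FP α) (S : Finset ι) (f : ι → α → ℝ) :
    (p.E fun a => ∑ i ∈ S, f i a) = ∑ i ∈ S, p.E (f i) := by
  simp only [E_def, Finset.mul_sum]; exact Finset.sum_comm

lemma E_mono_ae (p : FP α) {f g : α → ℝ} (h : p.Ae fun a => f a ≤ g a) : p.E f ≤ p.E g :=
  Finset.sum_le_sum fun a ha =>
    mul_le_mul_of_nonneg_left (h a (Finsupp.mem_support_iff.mp ha)) (p.nonneg a)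

lemma E_mono (p : FP α) {f g : α → ℝ} (h : ∀ a, f a ≤ g a) : p.E f ≤ p.E g :=
  p.E_mono_ae fun a _ => h a

lemma E_congr_ae (p : FP α) {f g : α → ℝ} (h : p.Ae fun a => f a = g a) : p.E f = p.E g :=
  le_antisymm (p.E_mono_ae fun a ha => (h a ha).le) (p.E_mono_ae fun a ha => (h a ha).ge)

lemma E_nonneg (p : FP α) {f : α → ℝ} (h : ∀ a, 0 ≤ f a) : 0 ≤ p.E f := by
  simpa using p.E_mono (f := fun _ => 0) h

lemma E_le_of_ae (p : FP α) {f : α → ℝ} {c : ℝ} (h : p.Ae fun a => f a ≤ c) : p.E f ≤ c := by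
  simpa using p.E_mono_ae (g := fun _ => c) h

lemma le_E_of_ae (p : FP α) {f : α → ℝ} {c : ℝ} (h : p.Ae fun a => c ≤ f a) : c ≤ p.E f := by
  simpa using p.E_mono_ae (f := fun _ => c) h

lemma E_comm (p : FP α) (q : FP β) (f : α → β → ℝ) :
    (p.E fun a => q.E fun b => f a b) = q.E fun b => p.E fun a => f a b := by
  simp only [E_def, Finset.mul_sum]
  rw [Finset.sum_comm]
  exact Finset.sum_congr rfl fun b _ => Finset.sum_congr rfl fun a _ => by ring

lemma w_mul_le_E (p : FP α) {f : α → ℝ} (h : ∀ a, 0 ≤ f a) (a : α) : p.w a * f a ≤ p.E f := by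
  by_cases ha : p.w a = 0
  · rw [ha, zero_mul]; exact p.E_nonneg h
  · exact Finset.single_le_sum (f := fun a => p.w a * f a)
      (fun b _ => mul_nonneg (p.nonneg b) (h b)) (Finsupp.mem_support_iff.mpr ha)

lemma w_eq_Pr (p : FP α) (b : α) : p.w b = p.Pr fun a => a = b := by
  classical
  rw [Pr, E_def]
  simp only [mul_ite, mul_one, mul_zero]
  by_cases hb : b ∈ p.w.support
  · rw [Finset.sum_eq_single b (fun a _ ha => if_neg ha) (fun h => absurd hb h), if_pos rfl]
  · rw [Finset.sum_eq_zero fun a ha => if_neg (fun (h : a = b) => hb (h ▸ ha))]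
    exact Finsupp.notMem_support_iff.mp hb

lemma ext_E {p q : FP α} (h : ∀ f, p.E f = q.E f) : p = q := by
  have : p.w = q.w := Finsupp.ext fun b => by rw [w_eq_Pr, w_eq_Pr]; exact h _
  cases p; cases q; cases this; rfl

lemma bind_assoc (p : FP α) (k : α → FP β) (l : β → FP γ) :
    (p.bind k).bind l = p.bind fun a => (k a).bind l := ext_E fun f => by simp only [E_bind]

@[simp] lemma pure_bind (a : α) (k : α → FP β) : (pure a).bind k = k a :=
  ext_E fun f => by simp only [E_bind, E_pure]

@[simp] lemma bind_pure (p : FP α) : p.bind pure = p :=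
  ext_E fun f => by simp only [E_bind, E_pure]

lemma map_map (p : FP α) (f : α → β) (g : β → γ) : (p.map f).map g = p.map fun a => g (f a) :=
  ext_E fun f => by simp only [E_map]

lemma map_bind (p : FP α) (k : α → FP β) (g : β → γ) :
    (p.bind k).map g = p.bind fun a => (k a).map g := ext_E fun f => by simp only [E_map, E_bind]

lemma bind_map (p : FP α) (f : α → β) (k : β → FP γ) :
    (p.map f).bind k = p.bind fun a => k (f a) := ext_E fun f => by simp only [E_map, E_bind]

@[simp] lemma map_id' (p : FP α) : (p.map fun a => a) = p := ext_E fun f => by simp only [E_map]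

@[simp] lemma map_const (p : FP α) (b : β) : (p.map fun _ => b) = pure b :=
  ext_E fun f => by simp only [E_map, E_pure, E_const]

@[simp] lemma bind_const (p : FP α) (q : FP β) : (p.bind fun _ => q) = q :=
  ext_E fun f => by simp only [E_bind, E_const]

lemma joint_map_fst (p : FP α) (k : α → FP β) : (p.joint k).map Prod.fst = p :=
  ext_E fun f => by simp only [E_map, E_joint, E_const]

lemma joint_map_snd (p : FP α) (k : α → FP β) : (p.joint k).map Prod.snd = p.bind k :=
  ext_E fun f => by simp only [E_map, E_joint, E_bind]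

lemma Pr_nonneg (p : FP α) (P : α → Prop) : 0 ≤ p.Pr P :=
  p.E_nonneg fun a => by split_ifs <;> norm_num

lemma Pr_le_one (p : FP α) (P : α → Prop) : p.Pr P ≤ 1 :=
  p.E_le_of_ae fun a _ => by beta_reduce; split_ifs <;> norm_num

lemma Pr_mono_ae (p : FP α) {P Q : α → Prop} (h : p.Ae fun a => P a → Q a) : p.Pr P ≤ p.Pr Q :=
  p.E_mono_ae fun a ha => by
    beta_reduce
    by_cases hP : P a
    · rw [if_pos hP, if_pos (h a ha hP)]
    · rw [if_neg hP]; split_ifs <;> norm_num

lemma Pr_mono (p : FP α) {P Q : α → Prop} (h : ∀ a, P a → Q a) : p.Pr P ≤ p.Pr Q :=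
  p.Pr_mono_ae fun a _ => h a

lemma Pr_congr (p : FP α) {P Q : α → Prop} (h : ∀ a, P a ↔ Q a) : p.Pr P = p.Pr Q :=
  le_antisymm (p.Pr_mono fun a => (h a).1) (p.Pr_mono fun a => (h a).2)

lemma w_le_Pr (p : FP α) {P : α → Prop} {a : α} (h : P a) : p.w a ≤ p.Pr P := by
  rw [w_eq_Pr]; exact p.Pr_mono fun b hb => hb ▸ h

lemma Pr_pos (p : FP α) {P : α → Prop} {a : α} (ha : p.w a ≠ 0) (h : P a) : 0 < p.Pr P :=
  lt_of_lt_of_le (lt_of_le_of_ne (p.nonneg a) ha.symm) (p.w_le_Pr h)

lemma Pr_map (p : FP α) (g : α → β) (P : β → Prop) : (p.map g).Pr P = p.Pr fun a => P (g a) :=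
  E_map _ _ _

lemma Pr_bind (p : FP α) (k : α → FP β) (P : β → Prop) :
    (p.bind k).Pr P = p.E fun a => (k a).Pr P := E_bind _ _ _

lemma Pr_unif [Inhabited α] {S : Finset α} (h : S.Nonempty) (P : α → Prop) [DecidablePred P] :
    (unif S).Pr P = (S.filter P).card / S.card := by
  rw [Pr, E_unif h, Finset.card_filter]
  push_cast
  congr 1
  exact Finset.sum_congr rfl fun a _ => by split_ifs <;> rfl

lemma Pr_eq_E (p : FP α) (P : α → Prop) [DecidablePred P] :
    p.Pr P = p.E fun a => if P a then 1 else 0 := by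
  unfold Pr; congr 1; funext a; split_ifs <;> rfl

lemma ae_iff (p : FP α) (P : α → Prop) : p.Ae P ↔ (p.Pr fun a => ¬ P a) = 0 := by
  constructor
  · intro h
    refine le_antisymm (p.E_le_of_ae fun a ha => ?_) (p.Pr_nonneg _)
    beta_reduce
    rw [if_neg (not_not.mpr (h a ha))]
  · intro h a ha
    by_contra hP
    exact (p.Pr_pos (P := fun a => ¬ P a) ha hP).ne' h

lemma Ae.mono {p : FP α} {P Q : α → Prop} (h : p.Ae P) (hPQ : ∀ a, P a → Q a) : p.Ae Q :=
  fun a ha => hPQ a (h a ha)

lemma Ae.and {p : FP α} {P Q : α → Prop} (h : p.Ae P) (h' : p.Ae Q) : p.Ae fun a => P a ∧ Q a :=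
  fun a ha => ⟨h a ha, h' a ha⟩

lemma ae_of_all (p : FP α) {P : α → Prop} (h : ∀ a, P a) : p.Ae P := fun a _ => h a

lemma ae_bind {p : FP α} {k : α → FP β} {P : β → Prop} (h : p.Ae fun a => (k a).Ae P) :
    (p.bind k).Ae P := by
  rw [ae_iff, Pr_bind, p.E_congr_ae (g := fun _ => 0) fun a ha => (ae_iff _ _).mp (h a ha), E_const]

lemma ae_of_bind {p : FP α} {k : α → FP β} {P : β → Prop} (h : (p.bind k).Ae P) :
    p.Ae fun a => (k a).Ae P := by
  intro a ha
  rw [ae_iff, Pr_bind] at h
  rw [ae_iff]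
  have h1 := p.w_mul_le_E (fun a => (k a).Pr_nonneg fun b => ¬ P b) a
  rw [h] at h1
  have h2 : 0 < p.w a := lt_of_le_of_ne (p.nonneg a) (Ne.symm ha)
  exact le_antisymm (by
    by_contra h3
    exact absurd h1 (not_le.mpr (mul_pos h2 (not_le.mp h3)))) ((k a).Pr_nonneg _)

lemma ae_pure {a : α} {P : α → Prop} (h : P a) : (pure a).Ae P := by
  rw [ae_iff, Pr, E_pure, if_neg (not_not.mpr h)]

lemma ae_map {p : FP α} {g : α → β} {P : β → Prop} : (p.map g).Ae P ↔ p.Ae fun a => P (g a) := by
  rw [ae_iff, ae_iff, Pr_map]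

lemma ae_joint {p : FP α} {k : α → FP β} {P : α × β → Prop}
    (h : p.Ae fun a => (k a).Ae fun b => P (a, b)) : (p.joint k).Ae P :=
  ae_bind fun a ha => ae_map.mpr (h a ha)

lemma ae_unif [Inhabited α] {S : Finset α} (h : S.Nonempty) : (unif S).Ae fun a => a ∈ S := by
  classical
  rw [ae_iff, Pr_unif h, Finset.filter_eq_empty_iff.mpr fun a ha => not_not.mpr ha]; simp

lemma ae_iid (ι : Type) [Fintype ι] [DecidableEq ι] {p : FP α} {P : α → Prop} (h : p.Ae P) :
    (iid ι p).Ae fun ω => ∀ i, P (ω i) := by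
  rw [ae_iff, Pr, E_iid]
  refine Finset.sum_eq_zero fun ω hω => ?_
  rw [if_neg (not_not.mpr fun i =>
    h _ (Finsupp.mem_support_iff.mp (Fintype.mem_piFinset.mp hω i))), mul_zero]

lemma exists_ge_E (p : FP α) (f : α → ℝ) : ∃ a, p.w a ≠ 0 ∧ p.E f ≤ f a := by
  have hne : p.w.support.Nonempty := by
    rw [Finset.nonempty_iff_ne_empty]
    intro h
    have := p.sum_w
    rw [h] at this; simp at this
  obtain ⟨a, ha, hmax⟩ := Finset.exists_max_image p.w.support f hne
  exact ⟨a, Finsupp.mem_support_iff.mp ha,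
    p.E_le_of_ae fun b hb => hmax b (Finsupp.mem_support_iff.mpr hb)⟩

lemma iid_map_comp {ι κ : Type} [Fintype ι] [DecidableEq ι] [Fintype κ] [DecidableEq κ]
    (p : FP α) (e : κ → ι) (he : Function.Injective e) :
    ((iid ι p).map fun ω => ω ∘ e) = iid κ p := by
  classical
  have key : ∀ η : κ → α, ((iid ι p).map fun ω => ω ∘ e).w η = (iid κ p).w η := by
    intro η
    rw [w_eq_Pr, w_eq_Pr, Pr_map, Pr_eq_E, Pr_eq_E]
    have h1 : (fun ω : ι → α => if ω ∘ e = η then (1 : ℝ) else 0)
        = fun ω => ∏ i, ∏ j ∈ univ.filter (fun j => e j = i), if ω i = η j then (1 : ℝ) else 0 := by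
      funext ω
      have : ∀ i, (∏ j ∈ univ.filter (fun j => e j = i), if ω i = η j then (1 : ℝ) else 0)
          = ∏ j ∈ univ.filter (fun j => e j = i), if ω (e j) = η j then (1 : ℝ) else 0 :=
        fun i => Finset.prod_congr rfl fun j hj => by rw [(Finset.mem_filter.mp hj).2]
      simp only [this]
      rw [Finset.prod_fiberwise, Finset.prod_boole]
      simp [funext_iff]
    have h2 : (fun ω : κ → α => if ω = η then (1 : ℝ) else 0)
        = fun ω => ∏ j, if ω j = η j then (1 : ℝ) else 0 := by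
      funext ω
      rw [Finset.prod_boole]; simp [funext_iff]
    rw [h1, h2, E_iid_prod ι p (fun i a => ∏ j ∈ univ.filter (fun j => e j = i),
      if a = η j then (1 : ℝ) else 0), E_iid_prod κ p (fun j a => if a = η j then (1 : ℝ) else 0),
      ← Finset.prod_fiberwise (s := univ) (g := e)]
    refine Finset.prod_congr rfl fun i _ => ?_
    rcases (univ.filter fun j => e j = i).eq_empty_or_nonempty with h | ⟨j, hj⟩
    · simp [h]
    · have : (univ.filter fun j => e j = i) = {j} := by
        refine Finset.eq_singleton_iff_unique_mem.mpr ⟨hj, fun j' hj' => he ?_⟩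
        rw [(Finset.mem_filter.mp hj).2, (Finset.mem_filter.mp hj').2]
      simp [this]
  exact ext_E fun f => by unfold E; rw [Finsupp.ext key]

lemma E_iid_eval {ι : Type} [Fintype ι] [DecidableEq ι] (p : FP α) (i : ι) (f : α → ℝ) :
    ((iid ι p).E fun ω => f (ω i)) = p.E f := by
  have h := E_iid_prod ι p (fun j a => if j = i then f a else 1)
  simp only [Finset.prod_ite_eq', Finset.mem_univ, if_true] at h
  rw [h, Finset.prod_eq_single i (fun j _ hj => by simp [hj]) (by simp)]
  simp

lemma iid_map_eval {ι : Type} [Fintype ι] [DecidableEq ι] (p : FP α) (i : ι) :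
    ((iid ι p).map fun ω => ω i) = p := ext_E fun f => by rw [E_map, E_iid_eval]

lemma E_iid_pair {ι : Type} [Fintype ι] [DecidableEq ι] (p : FP α) {i j : ι} (h : i ≠ j)
    (F : α → α → ℝ) :
    ((iid ι p).E fun ω => F (ω i) (ω j)) = p.E fun a => p.E fun b => F a b := by
  have h1 := iid_map_comp p (![i, j] : Fin 2 → ι) (by
    intro a b hab
    fin_cases a <;> fin_cases b <;> simp_all [eq_comm])
  have h2 := congrArg (fun q : FP (Fin 2 → α) => q.E fun ω => F (ω 0) (ω 1)) h1
  simp only [E_map, Function.comp, Matrix.cons_val_zero, Matrix.cons_val_one] at h2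
  rw [h2, E_iid]
  simp only [E_def, Finset.mul_sum, Fin.prod_univ_two]
  rw [← Finset.sum_product']
  refine Finset.sum_nbij' (fun ω => (ω 0, ω 1)) (fun q => ![q.1, q.2]) ?_ ?_ ?_ ?_ ?_
  · intro ω hω
    have := Fintype.mem_piFinset.mp hω
    exact Finset.mem_product.mpr ⟨this 0, this 1⟩
  · intro q hq
    have := Finset.mem_product.mp hq
    refine Fintype.mem_piFinset.mpr fun i => ?_
    fin_cases i
    · exact this.1
    · exact this.2
  · intro ω _
    funext i; fin_cases i <;> rfl
  · intro q _; rfl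
  · intro ω _; ring

end FP

end Vale.Agent.P015
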