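import Vale.Agent.P015.Basic

/-! # P015: from the periodic moat to the graph on the Gaussian primes -/

namespace Vale.Agent.P015

open Finset

lemma final_norm_le {D : ℝ} {z w : GaussianInt} (h : dist (z : ℂ) (w : ℂ) ≤ D) :
    (w - z).norm ≤ (⌈D⌉₊ : ℤ) ^ 2 := by
  have h1 : ((w - z).norm : ℝ) = dist (z : ℂ) (w : ℂ) ^ 2 := by
    rw [GaussianInt.intCast_real_norm, Complex.normSq_eq_norm_sq, dist_comm, dist_eq_norm, map_sub]
  have h2 : dist (z : ℂ) (w : ℂ) ^ 2 ≤ (⌈D⌉₊ : ℝ) ^ 2 :=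
    pow_le_pow_left₀ dist_nonneg (h.trans (Nat.le_ceil D)) 2
  rw [← h1] at h2
  exact_mod_cast h2

lemma final_norm_irr {p : ℕ} (hp : p.Prime) {z : GaussianInt} (hz : Irreducible z)
    (h : (p : ℤ) ∣ z.norm) : z.norm ≤ (p : ℤ) ^ 2 := by
  have hp0 : (p : GaussianInt) ≠ 0 := by exact_mod_cast hp.ne_zero
  have hp2 : (2 : ℤ) ≤ p := by exact_mod_cast hp.two_le
  have hpu : ¬ IsUnit (p : GaussianInt) := by
    rw [← Zsqrtd.norm_eq_one_iff' (by norm_num), Zsqrtd.norm_natCast]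
    nlinarith
  obtain ⟨π, hπ, hπp⟩ := WfDvdMonoid.exists_irreducible_factor hpu hp0
  have hn : π.norm ≤ (p : ℤ) ^ 2 := by
    obtain ⟨t, ht⟩ := hπp
    refine Int.le_of_dvd (by positivity) ⟨t.norm, ?_⟩
    rw [← Zsqrtd.norm_mul, ← ht, Zsqrtd.norm_natCast, sq]
  have hd : π ∣ z * star z := by
    rw [← Zsqrtd.norm_eq_mul_conj]
    obtain ⟨m, hm⟩ := h
    refine hπp.trans ⟨m, ?_⟩
    rw [hm]; push_cast; rfl
  rcases hπ.prime.dvd_or_dvd hd with h1 | h1
  · rwa [← Zsqrtd.norm_eq_of_associated (by norm_num)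
      ((hπ.dvd_irreducible_iff_associated hz).1 h1)]
  · have hz' : Irreducible (star z) := hz.map (starRingAut (R := GaussianInt))
    rwa [← Zsqrtd.norm_conj, ← Zsqrtd.norm_eq_of_associated (by norm_num)
      ((hπ.dvd_irreducible_iff_associated hz').1 h1)]

/-- an injective walk of length `L` through points with the property `V`. -/
def FinalWalk (D : ℕ) (V : GaussianInt → Prop) (L : ℕ) (y : ℕ → GaussianInt) : Prop :=
  (∀ i ≤ L, V (y i)) ∧ (∀ i < L, (y (i + 1) - y i).norm ≤ (D : ℤ) ^ 2) ∧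
    ∀ i ≤ L, ∀ j ≤ L, y i = y j → i = j

lemma FinalWalk.disp {D L : ℕ} {V : GaussianInt → Prop} {y : ℕ → GaussianInt}
    (h : FinalWalk D V L y) : ∀ n ≤ L, y n - y 0 ∈ box (D * n) := by
  intro n
  induction n with
  | zero => intro _; simpa using zero_mem_box 0
  | succ k ih =>
    intro hk
    have := add_mem_box (ih (by omega)) (mem_box_of_norm_le (h.2.1 k (by omega)))
    rw [mul_add, mul_one]
    convert this using 1; ring

lemma final_periodic {D : ℕ} {ι : ℕ → ℤ} {P : Finset ℕ} (hP : ∀ p ∈ P, p.Prime)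
    (h : ∀ x, IsPath D x → ¬ Avoid ι x P) :
    ∃ L, ∀ y, ¬ FinalWalk D (fun z => ∀ p ∈ P, ¬ (p : ℤ) ∣ lin ι p z) L y := by
  by_contra hcon
  push Not at hcon
  obtain ⟨Q, hQ⟩ : ∃ Q : ℕ, Q = ∏ p ∈ P, p := ⟨_, rfl⟩
  have hQ0 : (0 : ℤ) < Q := by
    have : 0 < Q := hQ ▸ prod_pos fun p hp => (hP p hp).pos
    exact_mod_cast this
  have hQp : ∀ p ∈ P, (p : ℤ) ∣ Q := fun p hp =>
    Int.natCast_dvd_natCast.2 (hQ ▸ dvd_prod_of_mem _ hp)
  have h1 : ∀ L, ∃ y, FinalWalk D (fun z => ∀ p ∈ P, ¬ (p : ℤ) ∣ lin ι p z) L y ∧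
      y 0 ∈ box Q := by
    intro L
    obtain ⟨y, hy⟩ := hcon L
    let w : GaussianInt := ⟨(y 0).re / Q, (y 0).im / Q⟩
    refine ⟨fun n => y n - (Q : GaussianInt) * w, ⟨fun i hi p hp hd => hy.1 i hi p hp ?_,
      fun i hi => ?_, fun i hi j hj e => hy.2.2 i hi j hj (sub_left_injective e)⟩, ?_⟩
    · rw [lin_sub, lin_natCast_mul] at hd
      have := dvd_add hd ((hQp p hp).mul_right (lin ι p w))
      rwa [sub_add_cancel] at this
    · have := hy.2.1 i hi
      rwa [sub_sub_sub_cancel_right]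
    · have e : ∀ a : ℤ, |a - Q * (a / Q)| ≤ Q := fun a => by
        rw [← Int.emod_def, abs_of_nonneg (Int.emod_nonneg _ hQ0.ne')]
        exact (Int.emod_lt_of_pos _ hQ0).le
      rw [mem_box]
      constructor
      · simpa [w] using e (y 0).re
      · simpa [w] using e (y 0).im
  choose y hy hy0 using h1
  let U : Ultrafilter ℕ := Filter.hyperfilter ℕ
  have hU : ∀ n : ℕ, ∀ᶠ L in (U : Filter ℕ), n ≤ L := fun n =>
    Nat.hyperfilter_le_atTop (Filter.eventually_ge_atTop n)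
  have h2 : ∀ n, ∃ a, ∀ᶠ L in (U : Filter ℕ), y L n = a := by
    intro n
    have hmem : ((box (D * n + Q) : Finset GaussianInt) : Set GaussianInt) ∈
        U.map fun L => y L n := by
      rw [Ultrafilter.mem_map]
      filter_upwards [hU n] with L hL
      have := add_mem_box ((hy L).disp n hL) (hy0 L)
      rw [sub_add_cancel] at this
      exact this
    obtain ⟨a, -, ha⟩ := Ultrafilter.eq_pure_of_finite_mem (Finset.finite_toSet _) hmem
    refine ⟨a, ?_⟩
    have : ({a} : Set GaussianInt) ∈ U.map fun L => y L n := by rw [ha]; simp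
    rw [Ultrafilter.mem_map] at this
    exact this
  choose x hx using h2
  refine h x ⟨fun i j e => ?_, fun n => ?_⟩ fun p hp n => ?_
  · obtain ⟨L, h1, h2, h3, h4⟩ := ((hx i).and ((hx j).and ((hU i).and (hU j)))).exists
    exact (hy L).2.2 i h3 j h4 (by rw [h1, h2, e])
  · obtain ⟨L, h1, h2, h3⟩ := ((hx n).and ((hx (n + 1)).and (hU (n + 1)))).exists
    rw [← h1, ← h2]
    exact (hy L).2.1 n (by omega)
  · obtain ⟨L, h1, h2⟩ := ((hx n).and (hU n)).exists
    rw [← h1]
    exact (hy L).1 n h2 p hp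

lemma final_bound (h : CoreStmt) (D : ℕ) : ∃ L, ∀ y, ¬ FinalWalk D Irreducible L y := by
  obtain ⟨ι, P, hP, h⟩ := h D
  obtain ⟨L, hL⟩ := final_periodic (fun p hp => (hP p hp).1) h
  obtain ⟨F, hF⟩ : ∃ F : Finset GaussianInt, ∀ z, Irreducible z →
      ¬ (∀ p ∈ P, ¬ (p : ℤ) ∣ lin ι p z) → z ∈ F := by
    refine ⟨box (∑ p ∈ P, p), fun z hz hV => ?_⟩
    push Not at hV
    obtain ⟨p, hp, hd⟩ := hV
    exact box_mono (single_le_sum (f := fun p => p) (fun _ _ => Nat.zero_le _) hp)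
      (mem_box_of_norm_le (final_norm_irr (hP p hp).1 hz (dvd_norm_of_dvd_lin (hP p hp).2 hd)))
  refine ⟨(F.card + 1) * (L + 1), fun y hy => ?_⟩
  have hw : ∀ j ≤ F.card, ∀ i ≤ L, j * (L + 1) + i < (F.card + 1) * (L + 1) := by
    intro j hj i hi
    have := Nat.mul_le_mul_right (L + 1) hj
    nlinarith
  have h1 : ∀ j, ∃ i ≤ L, j ≤ F.card → y (j * (L + 1) + i) ∈ F := by
    intro j
    by_cases hj : j ≤ F.card
    · by_contra hcon
      push Not at hcon
      refine hL (fun i => y (j * (L + 1) + i)) ⟨fun i hi => ?_, fun i hi => ?_,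
        fun i hi i' hi' e => ?_⟩
      · by_contra hV
        exact (hcon i hi).2 (hF _ (hy.1 _ (hw j hj i hi).le) hV)
      · exact hy.2.1 _ (hw j hj i hi.le)
      · have := hy.2.2 _ (hw j hj i hi).le _ (hw j hj i' hi').le e
        omega
    · exact ⟨0, Nat.zero_le _, fun h => (hj h).elim⟩
  choose t ht1 ht2 using h1
  have := card_le_card_of_injOn (s := range (F.card + 1)) (t := F)
    (fun j => y (j * (L + 1) + t j)) (fun j hj => ht2 j (by simpa [Nat.lt_succ_iff] using hj))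
    (fun j hj j' hj' e => by
      have hj1 : j ≤ F.card := by simpa [Nat.lt_succ_iff] using hj
      have hj2 : j' ≤ F.card := by simpa [Nat.lt_succ_iff] using hj'
      have e' := hy.2.2 _ (hw j hj1 _ (ht1 j)).le _ (hw j' hj2 _ (ht1 j')).le e
      have a1 := ht1 j
      have a2 := ht1 j'
      rcases lt_trichotomy j j' with hlt | heq | hlt
      · have := Nat.mul_le_mul_right (L + 1) (Nat.succ_le_of_lt hlt)
        nlinarith
      · exact heq
      · have := Nat.mul_le_mul_right (L + 1) (Nat.succ_le_of_lt hlt)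
        nlinarith)
  rw [card_range] at this
  omega

theorem final_of (h : CoreStmt) : FinalStmt := by
  intro D
  obtain ⟨L, hL⟩ := final_bound h ⌈D⌉₊
  refine ⟨⟨(box (⌈D⌉₊ * L)).card, fun c => ?_⟩, ?_⟩
  · obtain ⟨z, hz⟩ := c.nonempty_supp
    have h1 : ∀ w ∈ c.supp, w.1 - z.1 ∈ box (⌈D⌉₊ * L) := by
      intro w hw
      obtain ⟨p, hp⟩ := (c.reachable_of_mem_supp hz hw).exists_isPath
      have hwalk : ∀ n ≤ p.length, FinalWalk ⌈D⌉₊ Irreducible n fun i => (p.getVert i).1 :=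
        fun n hn => ⟨fun i _ => (p.getVert i).2,
          fun i hi => final_norm_le (p.adj_getVert_succ (by omega)).2,
          fun i hi j hj e => hp.getVert_injOn (show i ≤ p.length by omega)
            (show j ≤ p.length by omega) (Subtype.ext e)⟩
      have hlen : p.length ≤ L := by
        by_contra hlt
        exact hL _ (hwalk L (by omega))
      have := (hwalk _ le_rfl).disp _ le_rfl
      simp only [SimpleGraph.Walk.getVert_length, SimpleGraph.Walk.getVert_zero] at this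
      exact box_mono (Nat.mul_le_mul_left _ hlen) this
    have hinj : Set.InjOn (fun w : {z : GaussianInt // Irreducible z} => w.1 - z.1) c.supp :=
      fun w _ w' _ e => Subtype.ext (sub_left_injective e)
    refine ⟨Set.Finite.of_injOn (t := (box (⌈D⌉₊ * L) : Set GaussianInt)) (fun w hw => h1 w hw)
      hinj (Finset.finite_toSet _), ?_⟩
    rw [← Set.ncard_coe_finset]
    exact Set.ncard_le_ncard_of_injOn _ (fun w hw => h1 w hw) hinj (Finset.finite_toSet _)
  · rintro ⟨x, h1, h2, h3⟩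
    exact hL x ⟨fun i _ => h2 i, fun i _ => final_norm_le (h3 i), fun i _ j _ e => h1 e⟩

end Vale.Agent.P015
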