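import Vale.Agent.P015.Basic

/-! # P015: the geometric step -/

namespace Vale.Agent.P015

open Finset

lemma geom_abs_re_le {u : GaussianInt} {X : ℤ} (hX : 0 ≤ X) (h : u.norm ≤ X ^ 2) : |u.re| ≤ X := by
  rw [Zsqrtd.norm_def] at h
  exact abs_le.mpr (abs_le_of_sq_le_sq' (by nlinarith [mul_self_nonneg u.im]) hX)

lemma geom_abs_im_le {u : GaussianInt} {X : ℤ} (hX : 0 ≤ X) (h : u.norm ≤ X ^ 2) : |u.im| ≤ X := by
  rw [Zsqrtd.norm_def] at h
  exact abs_le.mpr (abs_le_of_sq_le_sq' (by nlinarith [mul_self_nonneg u.re]) hX)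

lemma geom_norm_phi (u v : GaussianInt) : (u * star v).norm = u.norm * v.norm := by
  rw [Zsqrtd.norm_mul, Zsqrtd.norm_conj]

lemma geom_ediv_mem {t q m : ℤ} (hq : 0 < q) (h : |t| ≤ m * q) : t / q ∈ Icc (-m) m := by
  obtain ⟨h1, h2⟩ := abs_le.mp h
  refine mem_Icc.mpr ⟨?_, ?_⟩
  · exact Int.le_ediv_of_mul_le hq (by linarith)
  · exact Int.ediv_le_of_le_mul hq h2

lemma geom_ediv_eq {t t' q : ℤ} (hq : 0 < q) (h : t / q = t' / q) : |t - t'| < q := by
  have h1 := Int.mul_ediv_add_emod t q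
  have h2 := Int.mul_ediv_add_emod t' q
  have h3 := Int.emod_nonneg t hq.ne'
  have h4 := Int.emod_nonneg t' hq.ne'
  have h5 := Int.emod_lt_of_pos t hq
  have h6 := Int.emod_lt_of_pos t' hq
  rw [h] at h1
  exact abs_lt.mpr ⟨by linarith, by linarith⟩

lemma geom_card_cells (a b : ℕ) :
    (Icc (-(a : ℤ)) a ×ˢ Icc (-(b : ℤ)) b).card = (2 * a + 1) * (2 * b + 1) := by
  rw [card_product, Int.card_Icc, Int.card_Icc]
  have h1 : ((a : ℤ) + 1 - -(a : ℤ)).toNat = 2 * a + 1 := by omega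
  have h2 : ((b : ℤ) + 1 - -(b : ℤ)).toNat = 2 * b + 1 := by omega
  rw [h1, h2]

/-- counting points in a rotated box. -/
lemma geom_count (v : GaussianInt) (ρ : ℤ) (hρ : 0 < ρ) (hv : ρ ^ 2 ≤ v.norm) (a b : ℕ)
    (R : Finset GaussianInt)
    (hR : ∀ u ∈ R, |(u * star v).re| ≤ a * ρ ∧ |(u * star v).im| ≤ b * ρ) :
    R.card ≤ (4 * a + 1) * (4 * b + 1) := by
  have hc := geom_card_cells (2 * a) (2 * b)
  have e1 : 2 * (2 * a) + 1 = 4 * a + 1 := by ring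
  have e2 : 2 * (2 * b) + 1 = 4 * b + 1 := by ring
  rw [e1, e2] at hc
  rw [← hc]
  refine card_le_card_of_injOn
    (fun u => (2 * (u * star v).re / ρ, 2 * (u * star v).im / ρ)) (fun u hu => ?_) ?_
  · obtain ⟨h1, h2⟩ := hR u hu
    refine mem_coe.mpr (mem_product.mpr ⟨geom_ediv_mem hρ ?_, geom_ediv_mem hρ ?_⟩)
    · rw [abs_mul, abs_two]; push_cast; linarith
    · rw [abs_mul, abs_two]; push_cast; linarith
  · intro u _ u' _ h
    by_contra hne
    have h1 := geom_ediv_eq hρ (congrArg Prod.fst h)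
    have h2 := geom_ediv_eq hρ (congrArg Prod.snd h)
    have h3 := geom_norm_phi (u - u') v
    have h4 : 1 ≤ (u - u').norm := norm_pos' (sub_ne_zero.mpr hne)
    rw [sub_mul, Zsqrtd.norm_def, Zsqrtd.re_sub, Zsqrtd.im_sub] at h3
    generalize (u * star v).re = p at *
    generalize (u' * star v).re = p' at *
    generalize (u * star v).im = q at *
    generalize (u' * star v).im = q' at *
    have h5 := sq_lt_sq' (abs_lt.mp h1).1 (abs_lt.mp h1).2
    have h6 := sq_lt_sq' (abs_lt.mp h2).1 (abs_lt.mp h2).2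
    have h7 : 0 ≤ v.norm := le_trans (sq_nonneg _) hv
    nlinarith

/-- domination from a bound on the sumset. -/
lemma geom_dom (Ω R : Finset GaussianInt) (v : GaussianInt) (A : ℕ) (hA : 0 < A) (K : ℝ)
    (hR : ∀ d ∈ Ω, ∀ a < A, d - (a : GaussianInt) * v ∈ R) (hK : (R.card : ℝ) ≤ K * Ω.card) :
    Dom Ω v A K := by
  intro G B hG hB
  have hA' : (0 : ℝ) < A := by exact_mod_cast hA
  have hB0 : 0 ≤ B := by
    have h1 := (sum_nonneg fun (a : ℕ) _ => hG (0 + (a : GaussianInt) * v)).trans (hB 0)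
    exact (mul_nonneg_iff_of_pos_left hA').mp h1
  have h1 : ∀ a ∈ range A, ∑ d ∈ Ω, G d ≤ ∑ u ∈ R, G (u + (a : GaussianInt) * v) := by
    intro a ha
    have h2 : ∑ d ∈ Ω, G d =
        ∑ u ∈ Ω.image (fun d => d - (a : GaussianInt) * v), G (u + (a : GaussianInt) * v) := by
      rw [sum_image fun d _ d' _ h => sub_left_injective h]
      simp
    rw [h2]
    refine sum_le_sum_of_subset_of_nonneg ?_ fun u _ _ => hG _
    intro u hu
    obtain ⟨d, hd, rfl⟩ := mem_image.mp hu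
    exact hR d hd a (mem_range.mp ha)
  have h2 := sum_le_sum h1
  rw [sum_const, card_range, nsmul_eq_mul, sum_comm] at h2
  have h3 : ∑ u ∈ R, ∑ a ∈ range A, G (u + (a : GaussianInt) * v) ≤ R.card * (A * B) := by
    have := sum_le_card_nsmul R _ _ fun u _ => hB u
    rwa [nsmul_eq_mul] at this
  have h4 : (A : ℝ) * ∑ d ∈ Ω, G d ≤ A * (K * Ω.card * B) := by
    have h5 := mul_le_mul_of_nonneg_right hK (mul_nonneg hA'.le hB0)
    nlinarith
  exact le_of_mul_le_mul_left h4 hA'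

/-- the pigeonhole direction. -/
lemma geom_dir (z : ℕ → GaussianInt) (n A : ℕ) (hn : (2 * A + 1) * (2 * A + 1) < n + 1)
    (N W : ℤ) (hN : 0 < N) (hW : 0 < W)
    (h : ∀ j ≤ n, |(z j).re| ≤ N ∧ |(z j).im| ≤ W) :
    ∃ i ≤ n, ∃ j ≤ n, i ≠ j ∧ A * |(z i - z j).re| < N ∧ A * |(z i - z j).im| < W := by
  have hc := geom_card_cells A A
  have hA : (0 : ℤ) ≤ A := Int.natCast_nonneg A
  obtain ⟨i, hi, j, hj, hij, he⟩ := exists_ne_map_eq_of_card_lt_of_maps_to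
    (s := range (n + 1)) (t := Icc (-(A : ℤ)) A ×ˢ Icc (-(A : ℤ)) A)
    (by rw [hc, card_range]; exact hn)
    (f := fun j => (A * (z j).re / N, A * (z j).im / W)) (fun j hj => by
      obtain ⟨h1, h2⟩ := h j (Nat.lt_succ_iff.mp (mem_range.mp hj))
      refine mem_coe.mpr (mem_product.mpr ⟨geom_ediv_mem hN ?_, geom_ediv_mem hW ?_⟩)
      · rw [abs_mul, abs_of_nonneg hA]; exact mul_le_mul_of_nonneg_left h1 hA
      · rw [abs_mul, abs_of_nonneg hA]; exact mul_le_mul_of_nonneg_left h2 hA)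
  refine ⟨i, Nat.lt_succ_iff.mp (mem_range.mp hi), j, Nat.lt_succ_iff.mp (mem_range.mp hj),
    hij, ?_, ?_⟩
  · have h1 := geom_ediv_eq hN (congrArg Prod.fst he)
    rwa [← mul_sub, abs_mul, abs_of_nonneg hA, ← Zsqrtd.re_sub] at h1
  · have h1 := geom_ediv_eq hW (congrArg Prod.snd he)
    rwa [← mul_sub, abs_mul, abs_of_nonneg hA, ← Zsqrtd.im_sub] at h1

/-- domination for a set inside a rotated box. -/
lemma geom_dom2 (D A N ρ W : ℕ) (Ω : Finset GaussianInt) (v v0 : GaussianInt) (hA : 0 < A)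
    (hρ0 : 1 ≤ ρ) (hρ1 : (ρ : ℤ) ^ 2 ≤ v0.norm) (hρ2 : (N : ℤ) ≤ 4 * ρ * ρ) (hWρ : ρ ≤ W)
    (hΩc : W ≤ (2 * D + 1) * Ω.card)
    (hΩ : ∀ d ∈ Ω, |(d * star v0).re| ≤ (1 + 6 * D) * N ∧ |(d * star v0).im| ≤ (2 + 6 * D) * W)
    (hv1 : A * |(v * star v0).re| < N) (hv2 : A * |(v * star v0).im| < W) :
    Dom Ω v A ((200 * (2 + 6 * D) * (3 + 6 * D) * (2 * D + 1) : ℕ) : ℝ) := by
  refine geom_dom Ω ((Ω ×ˢ range A).image fun q => q.1 - (q.2 : GaussianInt) * v) v A hA _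
    (fun d hd t ht => mem_image.mpr ⟨(d, t), mem_product.mpr ⟨hd, mem_range.mpr ht⟩, rfl⟩) ?_
  have hcount := geom_count v0 ρ (by omega) hρ1 ((2 + 6 * D) * (4 * ρ))
    ((3 + 6 * D) * (W / ρ + 1)) ((Ω ×ˢ range A).image fun q => q.1 - (q.2 : GaussianInt) * v)
    (by
      intro u hu
      obtain ⟨⟨d, t⟩, hq, rfl⟩ := mem_image.mp hu
      obtain ⟨hd, ht⟩ := mem_product.mp hq
      have ht' : (t : ℤ) ≤ A := by exact_mod_cast (mem_range.mp ht).le
      have ht0 : (0 : ℤ) ≤ t := Int.natCast_nonneg t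
      have e1 := abs_le.mp (hΩ d hd).1
      have e2 := abs_le.mp (hΩ d hd).2
      have e5 : |t * (v * star v0).re| ≤ N := by
        rw [abs_mul, abs_of_nonneg ht0]
        exact (mul_le_mul_of_nonneg_right ht' (abs_nonneg _)).trans hv1.le
      have e6 : |t * (v * star v0).im| ≤ W := by
        rw [abs_mul, abs_of_nonneg ht0]
        exact (mul_le_mul_of_nonneg_right ht' (abs_nonneg _)).trans hv2.le
      have e7 := abs_le.mp e5
      have e8 := abs_le.mp e6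
      have e : (d - (t : GaussianInt) * v) * star v0 = d * star v0 -
          (t : GaussianInt) * (v * star v0) := by ring
      have er : ((t : GaussianInt) * (v * star v0)).re = t * (v * star v0).re := by
        generalize v * star v0 = w; simp
      have ei : ((t : GaussianInt) * (v * star v0)).im = t * (v * star v0).im := by
        generalize v * star v0 = w; simp
      have hWd : (W : ℤ) ≤ ((W / ρ : ℕ) + 1) * ρ := by
        have h1 := Nat.lt_div_mul_add (a := W) (b := ρ) hρ0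
        have h2 : W ≤ (W / ρ + 1) * ρ := by rw [add_mul, one_mul]; exact h1.le
        exact_mod_cast h2
      have f3 : (2 + 6 * (D : ℤ)) * N ≤ (2 + 6 * D) * (4 * ρ * ρ) :=
        mul_le_mul_of_nonneg_left hρ2 (by positivity)
      have f4 : (3 + 6 * (D : ℤ)) * W ≤ (3 + 6 * D) * (((W / ρ : ℕ) + 1) * ρ) :=
        mul_le_mul_of_nonneg_left hWd (by positivity)
      dsimp only
      rw [e, Zsqrtd.re_sub, Zsqrtd.im_sub, er, ei]
      generalize (W / ρ : ℕ) = q at *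
      generalize t * (v * star v0).re = a1 at *
      generalize t * (v * star v0).im = a2 at *
      generalize (d * star v0).re = a3 at *
      generalize (d * star v0).im = a4 at *
      push_cast
      exact ⟨abs_le.mpr ⟨by linarith, by linarith⟩, abs_le.mpr ⟨by linarith, by linarith⟩⟩)
  have hq : W / ρ * ρ ≤ W := Nat.div_mul_le_self W ρ
  have hfin : (4 * ((2 + 6 * D) * (4 * ρ)) + 1) * (4 * ((3 + 6 * D) * (W / ρ + 1)) + 1) ≤
      200 * (2 + 6 * D) * (3 + 6 * D) * (2 * D + 1) * Ω.card := by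
    generalize W / ρ = q at *
    have g1 : 4 * ((2 + 6 * D) * (4 * ρ)) + 1 ≤ 5 * ((2 + 6 * D) * (4 * ρ)) := by
      have : 0 < (2 + 6 * D) * (4 * ρ) := by positivity
      omega
    have g2 : 4 * ((3 + 6 * D) * (q + 1)) + 1 ≤ 5 * ((3 + 6 * D) * (q + 1)) := by
      have : 0 < (3 + 6 * D) * (q + 1) := by positivity
      omega
    have g3 : ρ * (q + 1) ≤ 2 * ((2 * D + 1) * Ω.card) := by
      rw [mul_add, mul_one, mul_comm ρ q]; omega
    calc _ ≤ 5 * ((2 + 6 * D) * (4 * ρ)) * (5 * ((3 + 6 * D) * (q + 1))) := Nat.mul_le_mul g1 g2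
      _ = 100 * (2 + 6 * D) * (3 + 6 * D) * (ρ * (q + 1)) := by ring
      _ ≤ 100 * (2 + 6 * D) * (3 + 6 * D) * (2 * ((2 * D + 1) * Ω.card)) :=
        Nat.mul_le_mul_left _ g3
      _ = _ := by ring
  exact_mod_cast hcount.trans hfin

lemma geom_near (D N ρ W : ℕ) (u d v0 : GaussianInt) (hN : v0.norm = N)
    (hρ2 : (N : ℤ) ≤ 4 * ρ * ρ) (hρN : (ρ : ℤ) ≤ N) (hWρ : (ρ : ℤ) ≤ W)
    (h1 : |(u * star v0).re| ≤ N) (h2 : |(u * star v0).im| ≤ 2 * W)
    (he : (u - d).norm ≤ 8 * (D : ℤ) ^ 2) :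
    |(d * star v0).re| ≤ (1 + 6 * D) * N ∧ |(d * star v0).im| ≤ (2 + 6 * D) * W := by
  have hne : ((u - d) * star v0).norm ≤ (6 * D * ρ) ^ 2 := by
    rw [geom_norm_phi, hN]
    have h1 := mul_le_mul he hρ2 (Int.natCast_nonneg N) (by positivity)
    nlinarith [mul_nonneg (sq_nonneg (D : ℤ)) (sq_nonneg (ρ : ℤ))]
  have e1 := abs_le.mp (geom_abs_re_le (by positivity) hne)
  have e2 := abs_le.mp (geom_abs_im_le (by positivity) hne)
  have e3 := abs_le.mp h1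
  have e4 := abs_le.mp h2
  have f1 : 6 * (D : ℤ) * ρ ≤ 6 * D * N := mul_le_mul_of_nonneg_left hρN (by positivity)
  have f2 : 6 * (D : ℤ) * ρ ≤ 6 * D * W := mul_le_mul_of_nonneg_left hWρ (by positivity)
  rw [sub_mul, Zsqrtd.re_sub] at e1
  rw [sub_mul, Zsqrtd.im_sub] at e2
  exact ⟨abs_le.mpr ⟨by linarith, by linarith⟩, abs_le.mpr ⟨by linarith, by linarith⟩⟩

/-- the geometric statement for a finite piece of an injective walk. -/
lemma geom_main (h : RingStmt) (D n A : ℕ) (z : ℕ → GaussianInt) (hz : IsPath D z) (hA : 0 < A)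
    (hn : (2 * A + 1) * (2 * A + 1) < n + 1) :
    ∃ (Ω : Finset GaussianInt) (v : GaussianInt), Ω.Nonempty ∧ v ≠ 0 ∧
      v.norm ≤ 2 * ((D * n : ℕ) : ℤ) ^ 2 ∧
      (∀ d ∈ Ω, ∃ i ≤ n, ∃ j ≤ n, (z i - z j - d).norm ≤ 8 * (D : ℤ) ^ 2) ∧
      Dom Ω v A ((200 * (2 + 6 * D) * (3 + 6 * D) * (2 * D + 1) : ℕ) : ℝ) := by
  have hn1 : 1 ≤ n := by nlinarith
  have hdisp : ∀ i ≤ n, ∀ j ≤ n, (z i - z j).norm ≤ 2 * ((D * n : ℕ) : ℤ) ^ 2 :=
    fun i hi j hj => norm_le_of_mem_box (hz.disp_mem_box (by omega) (by omega))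
  obtain ⟨⟨a, b⟩, hab, hmax⟩ := exists_max_image (range (n + 1) ×ˢ range (n + 1))
    (fun q => (z q.2 - z q.1).norm) ⟨(0, 0), by simp⟩
  have ha : a ≤ n := Nat.lt_succ_iff.mp (mem_range.mp (mem_product.mp hab).1)
  have hb : b ≤ n := Nat.lt_succ_iff.mp (mem_range.mp (mem_product.mp hab).2)
  have hmax' : ∀ i ≤ n, ∀ j ≤ n, (z i - z j).norm ≤ (z b - z a).norm := fun i hi j hj =>
    hmax (j, i) (mem_product.mpr ⟨mem_range.mpr (by omega), mem_range.mpr (by omega)⟩)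
  obtain ⟨c, hc, hcmax⟩ := exists_max_image (range (n + 1))
    (fun j => |((z j - z a) * star (z b - z a)).im|) ⟨0, by simp⟩
  have hc' : c ≤ n := Nat.lt_succ_iff.mp (mem_range.mp hc)
  obtain ⟨Ω₁, hΩ₁, hΩ₁'⟩ := h D n z hz.2 a b c ha hb hc'
  have hv0n := hdisp b hb a ha
  set v0 := z b - z a with hv0
  set Δ := |((z c - z a) * star v0).im| with hΔ
  have hN1 : 1 ≤ v0.norm := by
    have h1 : 0 < (z 1 - z 0).norm := norm_pos' (sub_ne_zero.mpr fun e => by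
      have := hz.1 e; omega)
    have h2 := hmax' 1 hn1 0 (Nat.zero_le _)
    omega
  obtain ⟨N, hN⟩ : ∃ N : ℕ, v0.norm = N := ⟨v0.norm.toNat, by omega⟩
  obtain ⟨ρ, hρ1, hρ2⟩ : ∃ ρ : ℕ, ρ * ρ ≤ N ∧ N < (ρ + 1) * (ρ + 1) :=
    ⟨Nat.sqrt N, Nat.sqrt_le N, Nat.lt_succ_sqrt N⟩
  have hρ0 : 1 ≤ ρ := by
    rcases Nat.eq_zero_or_pos ρ with rfl | h0
    · omega
    · exact h0
  have hρ1' : (ρ : ℤ) ^ 2 ≤ N := by rw [sq]; exact_mod_cast hρ1
  have hρ2' : (N : ℤ) ≤ 4 * ρ * ρ := by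
    have : N ≤ 4 * ρ * ρ := by nlinarith
    exact_mod_cast this
  have hρ0' : (1 : ℤ) ≤ ρ := by exact_mod_cast hρ0
  have hρN : (ρ : ℤ) ≤ N := by nlinarith
  have hD0 : (0 : ℤ) ≤ D := Int.natCast_nonneg D
  obtain ⟨W, hWΔ, hWρ, hW⟩ : ∃ W : ℕ, Δ ≤ W ∧ ρ ≤ W ∧ ((W : ℤ) = Δ ∨ W = ρ) := by
    rcases le_total Δ ρ with h1 | h1
    · exact ⟨ρ, h1, le_rfl, Or.inr rfl⟩
    · refine ⟨Δ.toNat, by omega, by omega, Or.inl (by omega)⟩
  have hWρ' : (ρ : ℤ) ≤ W := by exact_mod_cast hWρ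
  obtain ⟨Ω, hΩc, hΩ⟩ : ∃ Ω : Finset GaussianInt, W ≤ (2 * D + 1) * Ω.card ∧
      ∀ d ∈ Ω, ∃ i ≤ n, ∃ j ≤ n, (z i - z j - d).norm ≤ 8 * (D : ℤ) ^ 2 := by
    rcases hW with hW | hW
    · refine ⟨Ω₁, ?_, hΩ₁'⟩
      have h1 : W ≤ Ω₁.card := by omega
      nlinarith
    · refine ⟨(range (n + 1)).image fun j => z j - z a, ?_, ?_⟩
      · rw [card_image_of_injective _ (fun i j e => hz.1 (sub_left_injective e)), card_range, hW]
        have h1 : (ρ : ℤ) ^ 2 ≤ (2 * ((D * n : ℕ) : ℤ)) ^ 2 := by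
          nlinarith [sq_nonneg ((D * n : ℕ) : ℤ)]
        have h2 : (ρ : ℤ) ≤ 2 * ((D * n : ℕ) : ℤ) :=
          (abs_le_of_sq_le_sq' h1 (by positivity)).2
        have h3 : ρ ≤ 2 * (D * n) := by exact_mod_cast h2
        nlinarith
      · intro d hd
        obtain ⟨j, hj, rfl⟩ := mem_image.mp hd
        refine ⟨j, Nat.lt_succ_iff.mp (mem_range.mp hj), a, ha, ?_⟩
        rw [sub_self, Zsqrtd.norm_zero]; positivity
  have hre : ∀ i ≤ n, ∀ j ≤ n, |((z i - z j) * star v0).re| ≤ N := fun i hi j hj => by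
    refine geom_abs_re_le (Int.natCast_nonneg N) ?_
    rw [geom_norm_phi, hN, sq]
    exact mul_le_mul_of_nonneg_right (hN ▸ hmax' i hi j hj) (Int.natCast_nonneg N)
  have him : ∀ i ≤ n, |((z i - z a) * star v0).im| ≤ W := fun i hi =>
    (hcmax i (mem_range.mpr (by omega))).trans hWΔ
  have him2 : ∀ i ≤ n, ∀ j ≤ n, |((z i - z j) * star v0).im| ≤ 2 * W := fun i hi j hj => by
    have e : (z i - z j) * star v0 = (z i - z a) * star v0 - (z j - z a) * star v0 := by ring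
    rw [e, Zsqrtd.im_sub]
    have h1 := abs_le.mp (him i hi)
    have h2 := abs_le.mp (him j hj)
    exact abs_le.mpr ⟨by linarith, by linarith⟩
  obtain ⟨i, hi, j, hj, hij, hv1, hv2⟩ := geom_dir (fun j => (z j - z a) * star v0) n A hn N W
    (by omega) (by omega) fun j hj => ⟨hre j hj a ha, him j hj⟩
  have ev : (z i - z a) * star v0 - (z j - z a) * star v0 = (z i - z j) * star v0 := by ring
  rw [ev] at hv1 hv2
  have hΩne : Ω.Nonempty := by
    rw [← card_pos]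
    rcases Nat.eq_zero_or_pos Ω.card with h0 | h0
    · rw [h0] at hΩc; omega
    · exact h0
  refine ⟨Ω, z i - z j, hΩne, sub_ne_zero.mpr fun e => hij (hz.1 e), hdisp i hi j hj, hΩ, ?_⟩
  refine geom_dom2 D A N ρ W Ω _ v0 hA hρ0 (hN ▸ hρ1') hρ2' hWρ hΩc (fun d hd => ?_) hv1 hv2
  obtain ⟨i', hi', j', hj', he⟩ := hΩ d hd
  exact geom_near D N ρ W _ d v0 hN hρ2' hρN hWρ' (hre i' hi' j' hj') (him2 i' hi' j' hj') he

theorem geom_of_ring (h : RingStmt) : GeomStmt := by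
  intro D
  have hK : 8 * D ^ 2 + D + 2 ≤ 200 * (2 + 6 * D) * (3 + 6 * D) * (2 * D + 1) := by
    nlinarith [Nat.zero_le (D * D), Nat.zero_le (D * D * D)]
  refine ⟨200 * (2 + 6 * D) * (3 + 6 * D) * (2 * D + 1), by omega, by omega, ?_⟩
  intro x hx l σ hl
  have hz : IsPath D fun i => x (σ + i) :=
    ⟨fun i j e => by have := hx.1 e; omega, fun i => hx.2 (σ + i)⟩
  have hlA : l < 2 ^ l := Nat.lt_two_pow_self
  have e8 : 2 ^ (8 * l) = (2 ^ l) ^ 8 := by rw [← pow_mul, mul_comm]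
  have e32 : (2 : ℤ) ^ (32 * l) = ((2 ^ l : ℕ) : ℤ) ^ 32 := by
    push_cast; rw [← pow_mul, mul_comm]
  obtain ⟨Ω, v, h1, h2, h3, h4, h5⟩ := geom_main h D (2 ^ (8 * l)) (2 ^ l) _ hz (Nat.two_pow_pos l)
    (by
      rw [e8]
      generalize 2 ^ l = A at *
      have a1 : 2 ≤ A := by omega
      have a2 : 2 ^ 6 ≤ A ^ 6 := Nat.pow_le_pow_left a1 6
      have a3 : A ^ 8 = A ^ 6 * (A * A) := by ring
      have a4 : 2 ^ 6 * (A * A) ≤ A ^ 6 * (A * A) := Nat.mul_le_mul_right _ a2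
      nlinarith)
  choose! i hi j hj hij using h4
  refine ⟨Ω, v, fun β d => if d ∈ Ω then σ + (if β then i d else j d) else σ, h1, h2, ?_, ?_, ?_,
    h5⟩
  · refine h3.trans ?_
    rw [e32, e8]
    have a0 : D ≤ 2 ^ l := by omega
    have a1 : 2 ≤ 2 ^ l := by omega
    generalize 2 ^ l = A at *
    have a2 : 2 * (D * A ^ 8) ^ 2 ≤ A ^ 32 := by
      calc 2 * (D * A ^ 8) ^ 2 ≤ A * (A * A ^ 8) ^ 2 :=
          Nat.mul_le_mul a1 (Nat.pow_le_pow_left (Nat.mul_le_mul_right _ a0) 2)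
        _ = A ^ 19 := by ring
        _ ≤ A ^ 32 := Nat.pow_le_pow_right (by omega) (by norm_num)
    exact_mod_cast a2
  · intro β d
    by_cases hd : d ∈ Ω
    · have b1 := hi d hd
      have b2 := hj d hd
      cases β <;> simp only [hd, if_true, Bool.false_eq_true, if_false] <;> omega
    · simp [hd]
  · intro d hd
    simp only [hd, if_true, Bool.false_eq_true, if_false]
    refine (hij d hd).trans ?_
    have : 8 * D ^ 2 ≤ 200 * (2 + 6 * D) * (3 + 6 * D) * (2 * D + 1) := by omega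
    exact_mod_cast this

end Vale.Agent.P015
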