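import Vale.Agent.P015.Basic

/-! # P015: the halving lemma -/

namespace Vale.Agent.P015

open Finset

lemma halv_two {α γ : Type} (ι : ℕ → ℤ) (A : Finset ℕ) (Λ : FP α) (X1 X2 X0 d : α → GaussianInt)
    (Z1 Z2 : α → γ) :
    Λ.Hc (fun ω => cls ι A (d ω)) (fun ω => (Z1 ω, Z2 ω, X1 ω - X2 ω - d ω)) +
      Λ.Hc (fun ω => cls ι A (X0 ω)) (fun ω => (X1 ω - X0 ω, X2 ω - X0 ω, Z1 ω, Z2 ω)) ≤
    Λ.Hc (fun ω => cls ι A (X1 ω)) Z1 + Λ.Hc (fun ω => cls ι A (X2 ω)) Z2 := by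
  have h1 : Λ.Hc (fun ω => cls ι A (X1 ω)) (fun ω => (Z1 ω, Z2 ω)) ≤
      Λ.Hc (fun ω => cls ι A (X1 ω)) Z1 := Λ.Hc_mono_right _ fun _ _ h => (Prod.mk.inj h).1
  have h2 : Λ.Hc (fun ω => cls ι A (X2 ω)) (fun ω => (Z1 ω, Z2 ω)) ≤
      Λ.Hc (fun ω => cls ι A (X2 ω)) Z2 := Λ.Hc_mono_right _ fun _ _ h => (Prod.mk.inj h).2
  have h3 := Λ.Hc_pair_le (fun ω => cls ι A (X1 ω)) (fun ω => cls ι A (X2 ω))
    fun ω => (Z1 ω, Z2 ω)
  have h4 : Λ.Hc (fun ω => (cls ι A (X1 ω - X2 ω), cls ι A (X1 ω))) (fun ω => (Z1 ω, Z2 ω)) ≤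
      Λ.Hc (fun ω => (cls ι A (X1 ω), cls ι A (X2 ω))) (fun ω => (Z1 ω, Z2 ω)) :=
    Λ.Hc_mono_left _ fun _ _ h _ =>
      Prod.ext (cls_sub_congr (Prod.mk.inj h).1 (Prod.mk.inj h).2) (Prod.mk.inj h).1
  have h5 := Λ.Hc_chain (fun ω => cls ι A (X1 ω - X2 ω)) (fun ω => cls ι A (X1 ω))
    fun ω => (Z1 ω, Z2 ω)
  have h6 : Λ.Hc (fun ω => cls ι A (X1 ω - X2 ω)) (fun ω => (Z1 ω, Z2 ω, X1 ω - X2 ω - d ω)) ≤
      Λ.Hc (fun ω => cls ι A (X1 ω - X2 ω)) (fun ω => (Z1 ω, Z2 ω)) :=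
    Λ.Hc_mono_right _ fun _ _ h => by
      simp only [Prod.mk.injEq] at h ⊢; exact ⟨h.1, h.2.1⟩
  have h7 : Λ.Hc (fun ω => cls ι A (d ω)) (fun ω => (Z1 ω, Z2 ω, X1 ω - X2 ω - d ω)) ≤
      Λ.Hc (fun ω => cls ι A (X1 ω - X2 ω)) (fun ω => (Z1 ω, Z2 ω, X1 ω - X2 ω - d ω)) :=
    Λ.Hc_mono_left _ fun a a' h h' => by
      simp only [Prod.mk.injEq] at h'
      have := cls_sub_congr h (congrArg (cls ι A) h'.2.2)
      simpa only [sub_sub_cancel] using this
  have h8 : Λ.Hc (fun ω => cls ι A (X1 ω)) (fun ω => (X1 ω - X0 ω, X2 ω - X0 ω, Z1 ω, Z2 ω)) ≤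
      Λ.Hc (fun ω => cls ι A (X1 ω)) (fun ω => (cls ι A (X1 ω - X2 ω), Z1 ω, Z2 ω)) :=
    Λ.Hc_mono_right _ fun a a' h => by
      simp only [Prod.mk.injEq] at h ⊢
      refine ⟨?_, h.2.2⟩
      rw [← sub_sub_sub_cancel_right (X1 a) (X2 a) (X0 a), h.1, h.2.1, sub_sub_sub_cancel_right]
  have h9 : Λ.Hc (fun ω => cls ι A (X0 ω)) (fun ω => (X1 ω - X0 ω, X2 ω - X0 ω, Z1 ω, Z2 ω)) ≤
      Λ.Hc (fun ω => cls ι A (X1 ω)) (fun ω => (X1 ω - X0 ω, X2 ω - X0 ω, Z1 ω, Z2 ω)) :=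
    Λ.Hc_mono_left _ fun a a' h h' => by
      simp only [Prod.mk.injEq] at h'
      have := cls_sub_congr h (congrArg (cls ι A) h'.1)
      simpa only [sub_sub_cancel] using this
  linarith

lemma halv_E_bool (f : Bool → ℝ) : (FP.unif (univ : Finset Bool)).E f = (f true + f false) / 2 := by
  rw [FP.E_unif univ_nonempty]; simp

section step

variable {γ : Type} (x : ℕ → GaussianInt) (U : ℕ → FP ℕ) (Ω : ℕ → Finset GaussianInt)
  (s : ℕ → Bool → GaussianInt → ℕ) (k : ℕ → FP γ)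

/-- one level of the chain. -/
noncomputable def halvKer (σ : ℕ) : FP ℕ :=
  (U σ).bind fun ρ => (FP.unif (Ω ρ)).bind fun d =>
    (FP.unif (univ : Finset Bool)).map fun β => s ρ β d

/-- side information of the difference. -/
noncomputable def halvErr (ρ : ℕ) (d : GaussianInt) : FP (γ × γ × GaussianInt) :=
  (k (s ρ true d)).bind fun z1 => (k (s ρ false d)).map fun z2 =>
    (z1, z2, x (s ρ true d) - x (s ρ false d) - d)

/-- side information on the next level. -/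
noncomputable def halvUp (σ : ℕ) : FP (GaussianInt × GaussianInt × γ × γ) :=
  (U σ).bind fun ρ => (FP.unif (Ω ρ)).bind fun d => (k (s ρ true d)).bind fun z1 =>
    (k (s ρ false d)).map fun z2 => (x (s ρ true d) - x σ, x (s ρ false d) - x σ, z1, z2)

lemma halv_step (ι : ℕ → ℤ) (A : Finset ℕ) (μ : FP ℕ) :
    Df ι A ((μ.bind (halvKer U Ω s)).joint k) (fun ω => x ω.1) Prod.snd ≤
      (((μ.bind U).E fun ρ =>
          Df ι A ((FP.unif (Ω ρ)).joint (halvErr x s k ρ)) Prod.fst Prod.snd) +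
        Df ι A (μ.joint (halvUp x U Ω s k)) (fun ω => x ω.1) Prod.snd) / 2 := by
  let Λ : FP (ℕ × ℕ × GaussianInt × γ × γ) := μ.bind fun σ => (U σ).bind fun ρ =>
    (FP.unif (Ω ρ)).bind fun d => (k (s ρ true d)).bind fun z1 =>
      (k (s ρ false d)).map fun z2 => (σ, ρ, d, z1, z2)
  have e1 : (μ.bind (halvKer U Ω s)).joint k = (FP.unif (univ : Finset Bool)).bind fun β =>
      Λ.map fun ω => (s ω.2.1 β ω.2.2.1, if β then ω.2.2.2.1 else ω.2.2.2.2) := by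
    refine FP.ext_E fun f => ?_
    simp only [Λ, halvKer, FP.E_bind, FP.E_map, FP.E_joint, halv_E_bool, FP.E_div, FP.E_add,
      if_true, Bool.false_eq_true, if_false, FP.E_const]
  have e2 : (Λ.map fun ω => (ω.2.2.1, ω.2.2.2.1, ω.2.2.2.2,
      x (s ω.2.1 true ω.2.2.1) - x (s ω.2.1 false ω.2.2.1) - ω.2.2.1)) =
      (μ.bind U).bind fun ρ => (FP.unif (Ω ρ)).joint (halvErr x s k ρ) := by
    refine FP.ext_E fun f => ?_
    simp only [Λ, halvErr, FP.E_bind, FP.E_map, FP.E_joint]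
  have e3 : (Λ.map fun ω => (ω.1, x (s ω.2.1 true ω.2.2.1) - x ω.1,
      x (s ω.2.1 false ω.2.2.1) - x ω.1, ω.2.2.2.1, ω.2.2.2.2)) = μ.joint (halvUp x U Ω s k) := by
    refine FP.ext_E fun f => ?_
    simp only [Λ, halvUp, FP.E_bind, FP.E_map, FP.E_joint]
  have h1 := (FP.unif (univ : Finset Bool)).E_Hc_le (fun β =>
      Λ.map fun ω => (s ω.2.1 β ω.2.2.1, if β then ω.2.2.2.1 else ω.2.2.2.2))
      (fun ω => cls ι A (x ω.1)) Prod.snd
  rw [← e1, halv_E_bool] at h1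
  simp only [FP.Hc_map, if_true, Bool.false_eq_true, if_false] at h1
  have h2 := halv_two ι A Λ (fun ω => x (s ω.2.1 true ω.2.2.1)) (fun ω => x (s ω.2.1 false ω.2.2.1))
    (fun ω => x ω.1) (fun ω => ω.2.2.1) (fun ω => ω.2.2.2.1) (fun ω => ω.2.2.2.2)
  have h3 := (μ.bind U).E_Hc_le (fun ρ => (FP.unif (Ω ρ)).joint (halvErr x s k ρ))
    (fun ω => cls ι A ω.1) Prod.snd
  rw [← e2, FP.Hc_map] at h3
  simp only [Df, FP.E_sub, FP.E_const]
  rw [← e3, FP.Hc_map]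
  linarith

end step

lemma halv_log_prod {α β : Type} (S : Finset α) (T : Finset β) {a b : ℝ} (ha : 0 ≤ a) (hb : 0 ≤ b)
    (hS : Real.log S.card ≤ a) (hT : Real.log T.card ≤ b) : Real.log (S ×ˢ T).card ≤ a + b := by
  rw [card_product, Nat.cast_mul]
  rcases Nat.eq_zero_or_pos S.card with h | h
  · simp [h]; positivity
  rcases Nat.eq_zero_or_pos T.card with h' | h'
  · simp [h']; positivity
  rw [Real.log_mul (by exact_mod_cast h.ne') (by exact_mod_cast h'.ne')]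
  linarith

theorem halv_of_geom (hG : GeomStmt) : HalvStmt := by
  intro D
  obtain ⟨K, hDK, hK1, hK⟩ := hG D
  refine ⟨K, fun x hx => ?_⟩
  have hex : ∀ t σ : ℕ, ∃ (Ω : Finset GaussianInt) (v : GaussianInt)
      (s : Bool → GaussianInt → ℕ), Ω.Nonempty ∧
      (∀ β d, σ ≤ s β d ∧ s β d ≤ σ + 2 ^ (8 * lv t)) ∧ (K ≤ lv t → v ≠ 0 ∧
        v.norm ≤ 2 ^ (32 * lv t) ∧ (∀ d ∈ Ω, (x (s true d) - x (s false d) - d).norm ≤ K) ∧
        Dom Ω v (2 ^ lv t) K) := by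
    intro t σ
    by_cases h : K ≤ lv t
    · obtain ⟨Ω, v, s, h1, h2, h3, h4, h5, h6⟩ := hK x hx (lv t) σ h
      exact ⟨Ω, v, s, h1, h4, fun _ => ⟨h2, h3, h5, h6⟩⟩
    · exact ⟨{0}, 0, fun _ _ => σ, singleton_nonempty _, fun _ _ => ⟨le_rfl, Nat.le_add_right _ _⟩,
        fun h' => absurd h' h⟩
  choose Ω v s hne hs hgood using hex
  let U : ℕ → ℕ → FP ℕ := fun t σ => (FP.unif (range (2 ^ (16 * lv t)))).map fun u => σ + u
  have hr : ∀ t, (range (2 ^ (16 * lv t))).Nonempty := fun t =>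
    ⟨0, mem_range.mpr (Nat.two_pow_pos _)⟩
  have hU : ∀ t σ, (U t σ).Ae fun ρ => σ ≤ ρ ∧ ρ ≤ σ + 2 ^ (16 * lv t) := fun t σ =>
    FP.ae_map.mpr ((FP.ae_unif (hr t)).mono fun u hu =>
      ⟨Nat.le_add_right _ _, Nat.add_le_add_left (mem_range.mp hu).le _⟩)
  have hin : ∀ t ρ, ((FP.unif (Ω t ρ)).bind fun d => (FP.unif (univ : Finset Bool)).map
      fun β => s t ρ β d).Ae fun τ => ρ ≤ τ ∧ τ ≤ ρ + 2 ^ (8 * lv t) := fun t ρ =>
    FP.ae_bind (FP.ae_of_all _ fun d => FP.ae_map.mpr (FP.ae_of_all _ fun β => hs t ρ β d))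
  refine ⟨fun t => halvKer (U t) (Ω t) (s t), hx, hDK, hK1, ⟨fun t σ => ?_, fun t σ a r => ?_⟩, ?_⟩
  · exact FP.ae_bind ((hU t σ).mono fun ρ hρ => (hin t ρ).mono fun τ hτ => by omega)
  · classical
    have h1 : ((halvKer (U t) (Ω t) (s t) σ).Pr fun τ => τ ≤ a ∧ a ≤ τ + r) ≤
        (U t σ).Pr fun ρ => ρ ≤ a ∧ a ≤ ρ + 2 ^ (8 * lv t) + r := by
      rw [halvKer, FP.Pr_bind, FP.Pr_eq_E (U t σ)]
      refine FP.E_mono _ fun ρ => ?_
      split_ifs with h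
      · exact FP.Pr_le_one _ _
      · refine le_of_eq ?_
        have := (FP.ae_iff _ _).mp ((hin t ρ).mono (Q := fun τ => ¬(τ ≤ a ∧ a ≤ τ + r))
          fun τ hτ h' => h (by omega))
        simpa only [not_not] using this
    refine h1.trans ?_
    rw [FP.Pr_map, FP.Pr_unif (hr t), card_range]
    push_cast
    refine div_le_div_of_nonneg_right ?_ (by positivity)
    have h2 : ((range (2 ^ (16 * lv t))).filter fun u =>
        σ + u ≤ a ∧ a ≤ σ + u + 2 ^ (8 * lv t) + r) ⊆ Icc (a - σ - 2 ^ (8 * lv t) - r) (a - σ) :=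
      fun u hu => by
        have := (mem_filter.mp hu).2
        rw [mem_Icc]; omega
    have h3 := card_le_card h2
    rw [Nat.card_Icc] at h3
    have h4 : ((range (2 ^ (16 * lv t))).filter fun u =>
        σ + u ≤ a ∧ a ≤ σ + u + 2 ^ (8 * lv t) + r).card ≤ r + 2 ^ (8 * lv t) + 1 := by
      refine h3.trans ?_
      generalize 2 ^ (8 * lv t) = w
      omega
    exact_mod_cast h4
  · intro ι T A E n
    induction n with
    | zero =>
      intro t hE _ _ μ γ k S _ _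
      have := sum_le_sum fun i (_ : i ∈ T) => Df_le_lg ι (A i)
        ((μ.bind (chain (fun t => halvKer (U t) (Ω t) (s t)) t 0)).joint k) (fun ω => x ω.1) Prod.snd
      rw [pow_zero, div_one]
      linarith
    | succ n ih =>
      intro t hE hKt hErr μ γ k S hS hk
      have hl := lv_succ t
      have hl0 := lv_pos t
      have hlR : (lv (t + 1) : ℝ) = 2 ^ 32 * lv t := by rw [hl]; push_cast; ring
      have hl0R : (0 : ℝ) ≤ lv t := Nat.cast_nonneg _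
      have hKR : (K : ℝ) ≤ lv t := by exact_mod_cast hKt
      have hK' : K ≤ lv (t + 1) := by omega
      set μ' := μ.bind (chain (fun t => halvKer (U t) (Ω t) (s t)) (t + 1) n) with hμ'
      have e : μ.bind (chain (fun t => halvKer (U t) (Ω t) (s t)) t (n + 1)) =
          μ'.bind (halvKer (U (t + 1)) (Ω (t + 1)) (s (t + 1))) := by
        rw [hμ', FP.bind_assoc]; rfl
      rw [e]
      have hB := log_card_disp_le (D := D) (l := lv (t + 1)) (by omega) (by omega)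
      have p1 : (0 : ℝ) ≤ 80 * (lv t : ℝ) := by positivity
      have p2 : (0 : ℝ) ≤ 36 * (lv (t + 1) : ℝ) := by positivity
      have p3 : (0 : ℝ) ≤ 4 * (K : ℝ) := by positivity
      have hS1 := halv_log_prod _ _ p2 (add_nonneg p2 (add_nonneg p1 p1)) hB
        (halv_log_prod _ _ p2 (add_nonneg p1 p1) hB (halv_log_prod _ _ p1 p1 hS hS))
      have hS2 := halv_log_prod _ _ p1 (add_nonneg p1 p3) hS
        (halv_log_prod _ _ p1 p3 hS (log_card_box_le K))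
      have q1 : 36 * (lv (t + 1) : ℝ) + (36 * (lv (t + 1) : ℝ) + (80 * (lv t : ℝ) + 80 * (lv t : ℝ)))
          ≤ 80 * (lv (t + 1) : ℝ) := by rw [hlR]; linarith
      have q2 : 80 * (lv t : ℝ) + (80 * (lv t : ℝ) + 4 * (K : ℝ)) ≤ (lv (t + 1) : ℝ) / 2 ^ 24 := by
        rw [hlR]; linarith
      have h1 := ih (t + 1) hE hK' (fun t' h1 h2 => hErr t' (by omega) (by omega)) μ _
        (halvUp x (U (t + 1)) (Ω (t + 1)) (s (t + 1)) k) _ (hS1.trans q1)
        (fun σ => by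
          refine FP.ae_bind ((hU (t + 1) σ).mono fun ρ hρ => FP.ae_bind (FP.ae_of_all _ fun d =>
            FP.ae_bind ((hk _).mono fun z1 hz1 => FP.ae_map.mpr ((hk _).mono fun z2 hz2 => ?_))))
          have h5 := rng_step t
          have h6 := hs (t + 1) ρ true d
          have h7 := hs (t + 1) ρ false d
          generalize 2 ^ (17 * lv t) = w at h5
          simp only [mem_product]
          exact ⟨hx.disp_mem_box (by omega) (by omega), hx.disp_mem_box (by omega) (by omega),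
            hz1, hz2⟩)
      have h2 : ∀ ρ, ∑ i ∈ T, Df ι (A i) ((FP.unif (Ω (t + 1) ρ)).joint
          (halvErr x (s (t + 1)) k ρ)) Prod.fst Prod.snd ≤ E := by
        intro ρ
        obtain ⟨g1, g2, g3, g4⟩ := hgood (t + 1) ρ hK'
        refine hErr (t + 1) (by omega) (by omega) _ _ (hne _ _) g1 g2 g4 _ _ _
          (hS2.trans q2) fun d hd => ?_
        refine FP.ae_bind ((hk _).mono fun z1 hz1 => FP.ae_map.mpr ((hk _).mono fun z2 hz2 => ?_))
        simp only [mem_product]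
        refine ⟨hz1, hz2, mem_box_of_norm_le ((g3 d hd).trans ?_)⟩
        have : (1 : ℤ) ≤ K := by exact_mod_cast hK1
        nlinarith
      have h3 := sum_le_sum fun i (_ : i ∈ T) =>
        halv_step x (U (t + 1)) (Ω (t + 1)) (s (t + 1)) k ι (A i) μ'
      rw [← sum_div, sum_add_distrib, ← FP.E_sum] at h3
      have h4 := (μ'.bind (U (t + 1))).E_le_of_ae (FP.ae_of_all _ h2)
      rw [pow_succ, ← div_div]
      linarith

end Vale.Agent.P015
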