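import Vale.Agent.P015.Basic

/-! # P015: conditional entropy of the classes given the word, and the information bound -/

namespace Vale.Agent.P015

open Finset

lemma hc_log_le {u p θ : ℝ} (hu : 0 < u) (hp : 0 < p) (hθ : 0 < θ) :
    Real.log u ≤ Real.log p + Real.log θ - 1 + u / p / θ := by
  have h := Real.log_le_sub_one_of_pos (x := u / p / θ) (by positivity)
  rw [Real.log_div (by positivity) hθ.ne', Real.log_div hu.ne' hp.ne'] at h
  linarith

lemma hc_mem {x : ℕ → GaussianInt} {ι : ℕ → ℤ} {J : Type} [Fintype J] {m p : ℕ} (hp : 0 < p)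
    (hav : ∀ n, ¬ (p : ℤ) ∣ lin ι p (x n)) (ω : ℕ × (Fin m → J → ℕ)) :
    lin ι p (x ω.1) % p ∈
      (Ico (0 : ℤ) p).filter fun c => ∀ i j, (-lin ι p (wd x ω i j)) % p ≠ c := by
  refine mem_filter.mpr ⟨emod_mem_Ico hp _, fun i j h => hav (ω.2 i j) ?_⟩
  rw [Int.emod_eq_emod_iff_emod_sub_eq_zero, ← Int.dvd_iff_emod_eq_zero, wd, lin_sub] at h
  have h2 : -(lin ι p (x (ω.2 i j)) - lin ι p (x ω.1)) - lin ι p (x ω.1)
      = -lin ι p (x (ω.2 i j)) := by ring
  rw [h2] at h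
  exact (dvd_neg).mp h

lemma hc_one {x : ℕ → GaussianInt} {ι : ℕ → ℤ} {J : Type} [Fintype J] {m p : ℕ} {θ : ℝ}
    (W : FP (ℕ × (Fin m → J → ℕ))) (hθ : 0 < θ) (hp : 0 < p)
    (hav : ∀ n, ¬ (p : ℤ) ∣ lin ι p (x n)) :
    W.Hc (fun ω => cls ι {p} (x ω.1)) (wd x) ≤ Real.log p + Real.log θ - 1 +
      (W.E fun ω => (unc ι p (wd x ω) : ℝ)) / p / θ := by
  have h1 : W.Hc (fun ω => cls ι {p} (x ω.1)) (wd x)
      ≤ W.Hc (fun ω => lin ι p (x ω.1) % p) (wd x) :=
    W.Hc_mono_left _ fun a a' h _ => cls_eq_iff.mpr fun q hq => by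
      rw [mem_singleton.mp hq]; exact h
  have h2 := W.Hc_le_log_card (fun ω => lin ι p (x ω.1) % p) (wd x)
    (fun w => (Ico (0 : ℤ) p).filter fun c => ∀ i j, (-lin ι p (w i j)) % p ≠ c)
    fun ω _ => hc_mem hp hav ω
  have h3 : (W.E fun ω => Real.log (unc ι p (wd x ω) : ℝ))
      ≤ W.E fun ω => Real.log p + Real.log θ - 1 + (unc ι p (wd x ω) : ℝ) / p / θ := by
    refine W.E_mono fun ω => hc_log_le ?_ (by exact_mod_cast hp) hθ
    have : 0 < unc ι p (wd x ω) := card_pos.mpr ⟨_, hc_mem hp hav ω⟩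
    exact_mod_cast this
  rw [FP.E_add, FP.E_const, FP.E_div, FP.E_div] at h3
  exact h1.trans (h2.trans h3)

theorem hc_stmt : HcStmt := by
  intro x ι ν J _ B m P θ hθ hP hav hs
  have h1 := sum_le_sum fun p (hp : p ∈ P) =>
    hc_one (x := x) (ι := ι) (wl ν B m) hθ (hP p hp) (hav p hp)
  have h2 : ∑ p ∈ P, ((wl ν B m).E fun ω => (unc ι p (wd x ω) : ℝ)) / p ≤ P.card * θ := by
    simp only [wl, FP.E_joint]
    have h3 := ν.E_le_of_ae (f := fun σ => ∑ p ∈ P,
      ((FP.iid (Fin m) (B σ)).E fun u => (unc ι p (wd x (σ, u)) : ℝ)) / p) fun σ _ => hs σ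
    rw [FP.E_sum] at h3
    simpa only [FP.E_div] using h3
  rw [sum_add_distrib, sum_sub_distrib, sum_add_distrib, ← sum_div] at h1
  simp only [sum_const, nsmul_eq_mul, mul_one] at h1
  have h4 : (∑ p ∈ P, ((wl ν B m).E fun ω => (unc ι p (wd x ω) : ℝ)) / p) / θ ≤ P.card :=
    (div_le_iff₀ hθ).mpr h2
  rw [lg]
  linarith

lemma hc_blocks (j : ℕ) : ∀ (b : ℕ) (P : Finset ℕ), b * j ≤ P.card →
    ∃ A : ℕ → Finset ℕ, (∀ i < b, A i ⊆ P ∧ (A i).card = j) ∧
      ∀ i < b, ∀ i' < b, i ≠ i' → Disjoint (A i) (A i') := by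
  intro b
  induction b with
  | zero => intro P _; exact ⟨fun _ => ∅, by simp, by simp⟩
  | succ b ih =>
    intro P hP
    rw [add_mul, one_mul] at hP
    obtain ⟨T, hT, hc⟩ := exists_subset_card_eq (s := P) (n := j) (by omega)
    obtain ⟨A, h1, h2⟩ := ih (P \ T) (by rw [card_sdiff_of_subset hT]; omega)
    refine ⟨fun i => if i = b then T else A i, fun i hi => ?_, fun i hi i' hi' hne => ?_⟩
    · beta_reduce
      split_ifs with h
      · exact ⟨hT, hc⟩
      · exact ⟨(h1 i (by omega)).1.trans sdiff_subset, (h1 i (by omega)).2⟩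
    · beta_reduce
      split_ifs with h h' h'
      · omega
      · exact Disjoint.mono_right (h1 i' (by omega)).1 disjoint_sdiff
      · exact Disjoint.mono_left (h1 i (by omega)).1 disjoint_sdiff.symm
      · exact h2 i (by omega) i' (by omega) hne

theorem info_of (hU : UncStmt) (hH : HcStmt) (hA : InfoAStmt) : InfoStmt := by
  intro D K x κ ι tm g s j b m ε J _ _ _ C P env col hg hK htm hε hs1 hs2 hb pool hav hbj hcard
    hlv hm
  have hb0 : 0 < b := hb ▸ Nat.two_pow_pos _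
  obtain ⟨A, h1, h2⟩ := hc_blocks j b P hbj
  have hdis : ((range b : Finset ℕ) : Set ℕ).PairwiseDisjoint A := fun i hi i' hi' hne =>
    h2 i (mem_range.mp hi) i' (mem_range.mp hi') hne
  set P' := (range b).biUnion A with hP'
  have hsub : P' ⊆ P := biUnion_subset.mpr fun i hi => (h1 i (mem_range.mp hi)).1
  have hc' : P'.card = b * j := by
    rw [hP', card_biUnion hdis, sum_congr rfl fun i hi => (h1 i (mem_range.mp hi)).2]
    simp
  have hpool : ∀ i < b, Pool ι s (A i) ∧ (A i).card = j := fun i hi =>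
    ⟨pool.subset (h1 i hi).1, (h1 i hi).2⟩
  have hj : j ≤ 2 ^ s := (hpool 0 hb0).2 ▸ (hpool 0 hb0).1.card_le
  have hs3 : 3 ≤ s := by omega
  have hI := hA D K x κ ι tm g s j b A env (by omega) hK htm hs3 hs2 hb hj hlv hpool h2
  clear hb
  have hθ : (0 : ℝ) < 1 / 2 ^ (8 * g) := by positivity
  have hHc := hH x ι (top κ tm (24 * g)) J (blk κ g C) m P' (1 / 2 ^ (8 * g)) hθ
    (pool.subset hsub).pos (hav.subset hsub)
    (hU D K x κ ι g s m ε J C P' env col hg hK hε hs1 hs2 (pool.subset hsub) (hc' ▸ hcard) hm)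
  set W := wl (top κ tm (24 * g)) (blk κ g C) m with hW
  have hlog : Real.log (1 / 2 ^ (8 * g)) = -(8 * g * Real.log 2) := by
    rw [one_div, Real.log_inv, Real.log_pow]; push_cast; ring
  have hlg : lg P' = ∑ i ∈ range b, lg (A i) := by
    rw [lg, hP', sum_biUnion hdis]; rfl
  rw [hlog, hc', hlg, hP', sum_biUnion hdis] at hHc
  have h3 : ∑ i ∈ range b, W.Hc (fun ω => cls ι (A i) (x ω.1)) (wd x)
      ≤ ∑ i ∈ range b, ∑ p ∈ A i, W.Hc (fun ω => cls ι {p} (x ω.1)) (wd x) :=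
    sum_le_sum fun i _ => W.Hc_sum_le (A i) (fun p ω => cls ι {p} (x ω.1)) (wd x) _
      fun a a' h _ => cls_eq_iff.mpr fun p hp => cls_eq_iff.mp (h p hp) p (mem_singleton_self p)
  have h4 : ∑ _i ∈ range b, ((j : ℝ) * s / 2 ^ 11) ≤ ∑ i ∈ range b,
      (((top κ tm (24 * g)).H fun σ => cls ι (A i) (x σ))
        - W.Hc (fun ω => cls ι (A i) (x ω.1)) (wd x)) := by
    rw [sum_sub_distrib] at hI ⊢
    rw [sum_const, card_range, nsmul_eq_mul]
    have h5 : (s : ℝ) ≤ 4096 * g := by exact_mod_cast hs2.le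
    have h6 := Real.log_two_gt_d9
    have h7 : (0 : ℝ) ≤ g := Nat.cast_nonneg g
    have h8 : 5 * (s : ℝ) / 2 ^ 12 ≤ 8 * g * Real.log 2 := by nlinarith
    have h9 : (0 : ℝ) ≤ (b : ℝ) * j := by positivity
    have h10 := mul_le_mul_of_nonneg_left h8 h9
    push_cast at hHc
    nlinarith
  obtain ⟨i, hi, h5⟩ := exists_le_of_sum_le (nonempty_range_iff.mpr hb0.ne') h4
  have hi' := hpool i (mem_range.mp hi)
  refine ⟨A i, ?_, ?_⟩
  · have h6 := hi'.1.lg_le hs3
    rw [hi'.2] at h6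
    exact (H_cls_le ι hi'.1.pos _ x).trans h6
  · have h6 := W.Hc_symm (fun ω => cls ι (A i) (x ω.1)) (wd x)
    have h7 : (W.H fun ω => cls ι (A i) (x ω.1))
        = (top κ tm (24 * g)).H fun σ => cls ι (A i) (x σ) :=
      FP.H_joint_fst _ _ fun σ => cls ι (A i) (x σ)
    linarith

end Vale.Agent.P015
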