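import Vale.Agent.P015.Basic

/-! # P015: the classes of the position on level `24 g` are nearly equidistributed -/

namespace Vale.Agent.P015

open Finset

lemma infoA_level {N t0 : ℕ} (h : lv t0 < N) : ∃ t, t0 ≤ t ∧ lv t < N ∧ N ≤ lv (t + 1) := by
  have hex : ∃ t, N ≤ lv t := ⟨N, by have := lt_lv N; omega⟩
  have h1 := Nat.find_spec hex
  have h2 : t0 < Nat.find hex := by
    by_contra h3
    have := lv_mono (not_lt.mp h3)
    omega
  refine ⟨Nat.find hex - 1, by omega, not_le.mp (Nat.find_min hex (by omega)), ?_⟩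
  rwa [Nat.sub_add_cancel (by omega)]

lemma infoA_lt {t j s : ℕ} (h : lv t < 2 * j * s) (hj : j ≤ 2 ^ s) : 32 * t < 2 * s + 1 := by
  have h1 : s ≤ 2 ^ s := Nat.lt_two_pow_self.le
  have h2 : 2 * j * s ≤ 2 ^ (2 * s + 1) := by
    calc 2 * j * s ≤ 2 * 2 ^ s * 2 ^ s := Nat.mul_le_mul (Nat.mul_le_mul_left _ hj) h1
      _ = 2 ^ (2 * s + 1) := by ring
  rw [lv_def] at h
  exact (Nat.pow_lt_pow_iff_right (by norm_num)).mp (h.trans_le h2)

lemma infoA_pow (a c : ℕ) : 2 ^ (a + c + 1) = 2 ^ a * 2 ^ c * 2 := by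
  rw [pow_succ, pow_add]

lemma infoA_up {t t' j s b : ℕ} (hb : b = 2 ^ (18 + 32 * 13 + 1)) (h : lv t < 2 * j * s)
    (ht : t' ≤ t + 13) : 2 ^ 18 * lv t' ≤ b * j * s := by
  have h1 := lv_mono ht
  rw [lv_add] at h1
  rw [hb, infoA_pow]
  generalize 2 ^ (32 * 13) = u at *
  generalize 2 ^ 18 = v at *
  calc v * lv t' ≤ v * (u * (2 * j * s)) :=
        Nat.mul_le_mul_left _ (h1.trans (Nat.mul_le_mul_left _ h.le))
    _ = v * u * 2 * j * s := by ring

lemma infoA_cmp (ι : ℕ → ℤ) (A : Finset ℕ) (x : ℕ → GaussianInt) (μ : FP ℕ) (c : ℕ → FP ℕ) :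
    lg A - (μ.bind c).H (fun σ => cls ι A (x σ)) ≤
      Df ι A (μ.joint fun τ => (c τ).map fun σ => x σ - x τ) (fun ω => x ω.1) Prod.snd := by
  have h1 : (μ.joint fun τ => (c τ).map fun σ => x σ - x τ)
      = (μ.joint c).map fun ω => (ω.1, x ω.2 - x ω.1) :=
    FP.ext_E fun f => by simp only [FP.E_map, FP.E_joint]
  rw [Df, h1, FP.Hc_map, ← FP.H_joint_snd]
  have h2 := (μ.joint c).Hc_le_H (fun ω => cls ι A (x ω.2)) fun ω => x ω.2 - x ω.1
  have h3 : (μ.joint c).Hc (fun ω => cls ι A (x ω.1)) (fun ω => x ω.2 - x ω.1)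
      ≤ (μ.joint c).Hc (fun ω => cls ι A (x ω.2)) fun ω => x ω.2 - x ω.1 :=
    FP.Hc_mono_left _ _ fun a a' h h' => by
      have h4 := cls_sub_congr h (congrArg (cls ι A) h')
      simpa only [sub_sub_cancel] using h4
  linarith

theorem infoA_of (hA : ErrAStmt) : InfoAStmt := by
  intro D K x κ ι tm g s j b A env hg hK htm hs3 hs2 hb hj hlv hpool hdis
  obtain ⟨t, ht1, ht2, ht3⟩ := infoA_level hlv
  have ht4 := infoA_lt ht2 hj
  have hup : ∀ t', t' ≤ t + 13 → 2 ^ 18 * lv t' ≤ b * j * s := fun t' h => infoA_up hb ht2 h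
  clear hb
  have hlt := lt_lv t
  have hKt : K ≤ lv t := by omega
  have hj1 : 1 ≤ j := by
    rcases Nat.eq_zero_or_pos j with h | h
    · rw [h] at ht2; omega
    · exact h
  have hE : (0 : ℝ) ≤ (b * j * s : ℝ) / 2 ^ 11 := by positivity
  have hS : Real.log (box (D * 2 ^ (17 * lv t))).card ≤ 80 * (lv t : ℝ) := by
    have h1 := log_card_disp_le (D := D) (l := lv t) (by omega) (env.DK.trans hKt)
    have h2 : (0 : ℝ) ≤ lv t := Nat.cast_nonneg _
    linarith
  have h1 := env.halv ι (range b) A _ 13 t hE hKt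
    (fun t' h h' => hA ι s j b K (lv t') A (by omega) hj1 env.K1 hpool hdis
      ((Nat.mul_le_mul_left _ hKt).trans (lv_lt_le h)) (ht3.trans (lv_mono h)) (hup t' h'))
    (top κ tm (t + 13)) GaussianInt
    (fun τ => (chain κ (24 * g) (t - 24 * g) τ).map fun σ => x σ - x τ)
    (box (D * 2 ^ (17 * lv t))) hS fun τ => FP.ae_map.mpr
      ((env.kern.chain_rng (t - 24 * g) (24 * g) τ).mono fun σ hσ => by
        rw [Nat.add_sub_cancel' ht1] at hσ
        generalize 2 ^ (17 * lv t) = R at *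
        generalize 2 ^ (17 * lv (24 * g)) = R' at *
        exact env.path.disp_mem_box (by omega) (by omega))
  rw [top_bind (by omega)] at h1
  have h2 : (top κ tm t).bind (chain κ (24 * g) (t - 24 * g)) = top κ tm (24 * g) := by
    have h3 := top_bind (κ := κ) (tm := tm) (t := 24 * g) (n := t - 24 * g) (by omega)
    rwa [Nat.add_sub_cancel' ht1] at h3
  have h3 := sum_le_sum fun i (_ : i ∈ range b) =>
    infoA_cmp ι (A i) x (top κ tm t) (chain κ (24 * g) (t - 24 * g))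
  rw [h2] at h3
  have h4 : ∑ i ∈ range b, lg (A i) ≤ (b * j * s : ℝ) := by
    have h5 := sum_le_card_nsmul (range b) (fun i => lg (A i)) ((j : ℝ) * s) fun i hi => by
      have h6 := (hpool i (mem_range.mp hi)).1.lg_le hs3
      rwa [(hpool i (mem_range.mp hi)).2] at h6
    rwa [card_range, nsmul_eq_mul, ← mul_assoc] at h5
  have h5 : (0 : ℝ) ≤ (b * j * s : ℝ) := by positivity
  linarith

end Vale.Agent.P015
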