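import Vale.Agent.P015.Basic

/-! # P015: conditional deficiency against total variation -/

namespace Vale.Agent.P015

open Finset

lemma KL_term {N P Q : ℝ} (hN : 1 ≤ N) (hP : 0 ≤ P) (hPQ : P ≤ Q) :
    P * (Real.log N + Real.log (P / Q)) ≤
      (Real.log N + 1) * (if Q / N < P then P - Q / N else 0) := by
  have hN0 : 0 < N := by linarith
  rcases hP.eq_or_lt with h0 | h0
  · subst h0
    have : ¬ Q / N < 0 := not_lt.2 (div_nonneg hPQ hN0.le)
    simp [this]
  have hQ : 0 < Q := by linarith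
  have hq : 0 < Q / N := div_pos hQ hN0
  have e : Real.log N + Real.log (P / Q) = Real.log (P / (Q / N)) := by
    rw [← Real.log_mul hN0.ne' (div_pos h0 hQ).ne']
    congr 1
    field_simp
  rw [e]
  split_ifs with h
  · have h1 : Real.log (P / (Q / N)) ≤ P / (Q / N) - 1 :=
      Real.log_le_sub_one_of_pos (div_pos h0 hq)
    have h2 : Real.log (P / (Q / N)) ≤ Real.log N := by
      refine Real.log_le_log (div_pos h0 hq) ?_
      rw [div_le_iff₀ hq]
      calc P ≤ Q := hPQ
        _ = N * (Q / N) := by field_simp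
    have h3 : Q / N * Real.log (P / (Q / N)) ≤ P - Q / N := by
      have := mul_le_mul_of_nonneg_left h1 hq.le
      rwa [mul_sub, mul_div_cancel₀ _ hq.ne', mul_one] at this
    have h4 := mul_le_mul_of_nonneg_left h2 (sub_nonneg.2 h.le)
    nlinarith
  · have h1 : Real.log (P / (Q / N)) ≤ 0 :=
      Real.log_nonpos (div_pos h0 hq).le ((div_le_one hq).2 (not_lt.1 h))
    rw [mul_zero]
    exact mul_nonpos_of_nonneg_of_nonpos hP h1

theorem kl_stmt : KLStmt := by
  intro α β γ _ μ X Z Cl hX
  classical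
  set P : β → γ → ℝ := fun b c => μ.Pr fun a => X a = b ∧ Z a = c with hP
  set Q : γ → ℝ := fun c => μ.Pr fun a => Z a = c with hQ
  set SZ : Finset γ := μ.w.support.image Z with hSZ
  have hne : Cl.Nonempty := by
    obtain ⟨a, ha, -⟩ := μ.exists_ge_E fun _ => 0
    exact ⟨X a, hX a ha⟩
  have hN : (1 : ℝ) ≤ Cl.card := by exact_mod_cast hne.card_pos
  have hfib : ∀ g : β → γ → ℝ, (μ.E fun a => g (X a) (Z a)) =
      ∑ c ∈ SZ, ∑ b ∈ Cl, P b c * g b c := fun g => by
    have h := μ.E_fiber (fun a => (X a, Z a)) (Cl ×ˢ SZ)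
      ((hX.and (μ.ae_mem_image Z)).mono fun a ha => Finset.mem_product.2 ha) fun q => g q.1 q.2
    rw [h, Finset.sum_product_right]
    refine Finset.sum_congr rfl fun c _ => Finset.sum_congr rfl fun b _ => ?_
    congr 1
    exact μ.Pr_congr fun a => Prod.mk.injEq _ _ _ _ ▸ Iff.rfl
  have hmarg : ∀ c, ∑ b ∈ Cl, P b c = Q c := fun c => by
    simp only [hP, hQ, FP.Pr_eq_E]
    rw [← μ.E_sum Cl fun b a => if X a = b ∧ Z a = c then (1 : ℝ) else 0]
    refine μ.E_congr_ae (hX.mono fun a ha => ?_)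
    by_cases h : Z a = c
    · simp [h, ha]
    · simp [h]
  set U : γ → Finset β := fun c => Cl.filter fun b => Q c / Cl.card < P b c with hU
  have hE : (μ.E fun a => (if X a ∈ U (Z a) then 1 else 0) - ((U (Z a)).card : ℝ) / Cl.card) =
      ∑ c ∈ SZ, ∑ b ∈ Cl, if Q c / Cl.card < P b c then P b c - Q c / Cl.card else 0 := by
    rw [hfib fun b c => (if b ∈ U c then 1 else 0) - ((U c).card : ℝ) / Cl.card]
    refine Finset.sum_congr rfl fun c _ => ?_
    simp only [mul_sub, Finset.sum_sub_distrib, ← Finset.sum_mul, hmarg]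
    rw [← Finset.sum_filter, Finset.sum_sub_distrib, Finset.sum_const, nsmul_eq_mul,
      Finset.sum_filter]
    congr 1
    · refine Finset.sum_congr rfl fun b hb => ?_
      simp only [hU, Finset.mem_filter, hb, true_and]
      split_ifs <;> simp
    · simp only [hU]; ring
  refine ⟨U, fun c => Finset.filter_subset _ _, ?_, ?_⟩
  · rw [hE]
    refine Finset.sum_nonneg fun c _ => Finset.sum_nonneg fun b _ => ?_
    split_ifs with h
    · exact sub_nonneg.2 h.le
    · exact le_rfl
  · have e : Real.log Cl.card - μ.Hc X Z =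
        μ.E fun a => Real.log Cl.card + Real.log (P (X a) (Z a) / Q (Z a)) := by
      rw [μ.E_add, μ.E_const, μ.Hc_eq, μ.E_neg]
      simp only [hP, hQ]
      ring
    rw [hE, e, hfib fun b c => Real.log Cl.card + Real.log (P b c / Q c), Finset.mul_sum]
    refine Finset.sum_le_sum fun c _ => ?_
    rw [Finset.mul_sum]
    refine Finset.sum_le_sum fun b _ => ?_
    exact KL_term hN (μ.Pr_nonneg _) (μ.Pr_mono fun a h => h.2)

end Vale.Agent.P015
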