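import Vale.Agent.P015.Basic

/-! # P015: the new collection kernel -/

namespace Vale.Agent.P015

open Finset

lemma new_ncoll_eq {J : Type} [Fintype J] [DecidableEq J] (u : J → ℕ) :
    (ncoll u : ℝ) = ∑ j, ∑ j', if j ≠ j' ∧ u j = u j' then (1 : ℝ) else 0 := by
  rw [ncoll, ← Fintype.sum_prod_type', ← sum_filter, sum_const, nsmul_eq_mul, mul_one]
  congr 2
  ext q
  simp [mem_offDiag]

lemma new_blk_rng {κ : ℕ → ℕ → FP ℕ} (hκ : Kern κ) {g : ℕ} {ε : ℝ} {J : Type} [Fintype J]
    [DecidableEq J] {C : ℕ → FP (J → ℕ)} (hC : Col g ε C) (n ρ : ℕ) :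
    ((chain κ (3 * g) n ρ).bind C).Ae fun u =>
      ∀ j, ρ ≤ u j ∧ u j ≤ ρ + 2 ^ (17 * lv (3 * g + n)) := by
  refine FP.ae_bind ((hκ.chain_rng n (3 * g) ρ).mono fun τ hτ => (hC.rng τ).mono fun u hu j => ?_)
  exact ⟨hτ.1.trans (hu j).1, (hu j).2.trans hτ.2⟩

lemma new_atom {κ : ℕ → ℕ → FP ℕ} (hκ : Kern κ) {g : ℕ} (hg : 1 ≤ g) {ε : ℝ} {J : Type}
    [Fintype J] [DecidableEq J] {C : ℕ → FP (J → ℕ)} (hC : Col g ε C) (σ a : ℕ) (j : J) :
    ((blk κ g C σ).E fun u => if a = u j then (1 : ℝ) else 0) ≤ 4 / 2 ^ lv (24 * g) := by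
  obtain ⟨n, hn⟩ : ∃ n, 21 * g = n + 1 := ⟨21 * g - 1, by omega⟩
  have e24 : 3 * g + n + 1 = 24 * g := by omega
  have hl := lv_succ (3 * g + n)
  rw [e24] at hl
  have h1 := hκ.smooth (24 * g) σ a (2 ^ (17 * lv (3 * g + n)))
  rw [FP.Pr_eq_E] at h1
  rw [blk, hn, chain_succ_top, e24, FP.bind_assoc, FP.E_bind]
  refine (FP.E_mono _ fun ρ => FP.E_le_of_ae _ ((new_blk_rng hκ hC n ρ).mono fun u hu => ?_)).trans
    (h1.trans ?_)
  · by_cases h : a = u j
    · rw [if_pos h, if_pos (h ▸ hu j)]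
    · rw [if_neg h]; split_ifs <;> norm_num
  · have h2 : 2 ^ (17 * lv (3 * g + n)) ≤ 2 ^ (8 * lv (24 * g)) :=
      Nat.pow_le_pow_right (by norm_num) (by omega)
    have h3 : ((2 ^ (17 * lv (3 * g + n)) : ℕ) : ℝ) ≤ 2 ^ (8 * lv (24 * g)) := by exact_mod_cast h2
    generalize ((2 ^ (17 * lv (3 * g + n)) : ℕ) : ℝ) = R at *
    generalize lv (24 * g) = l at *
    have h4 : (1 : ℝ) ≤ 2 ^ (8 * l) := one_le_pow₀ (by norm_num)
    have h5 : (2 : ℝ) ^ (8 * l) * 2 ^ l ≤ 2 ^ (16 * l) := by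
      rw [← pow_add]; exact pow_le_pow_right₀ (by norm_num) (by omega)
    have h6 : (0 : ℝ) < 2 ^ l := by positivity
    rw [div_le_div_iff₀ (by positivity) h6]
    nlinarith

theorem new_stmt : NewStmt := by
  intro x κ tm g M e ε J _ _ _ C hκ hC hg hlo hhi hH
  have hM : 0 < M := by
    rcases Nat.eq_zero_or_pos M with rfl | h
    · have := Nat.two_pow_pos (7168 * g); omega
    · exact h
  have e24 : 3 * (8 * g) = 24 * g := by ring
  have e24' : 3 * g + 21 * g = 24 * g := by ring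
  have hcard : Fintype.card (Fin M × J) = M * Fintype.card J := by
    rw [Fintype.card_prod, Fintype.card_fin]
  refine ⟨Fin M × J, inferInstance, inferInstance, ⟨(⟨0, hM⟩, default)⟩,
    fun σ => (FP.iid (Fin M) (blk κ g C σ)).map fun w q => w q.1 q.2, ⟨?_, ?_, ?_, ?_⟩, ?_⟩
  · rw [hcard, ← mul_assoc]; exact hlo
  · rw [hcard, ← mul_assoc]; exact hhi
  · intro σ
    have h1 := new_blk_rng hκ hC (21 * g) σ
    rw [e24'] at h1
    rw [e24]
    exact FP.ae_map.mpr ((FP.ae_iid (Fin M) h1).mono fun w hw q => hw q.1 q.2)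
  · intro σ
    rw [FP.E_map, hcard]
    have hat := new_atom hκ hg hC σ
    obtain ⟨θ, hθ⟩ : ∃ θ : ℝ, θ = 4 / 2 ^ lv (24 * g) := ⟨_, rfl⟩
    have hθ0 : 0 ≤ θ := by rw [hθ]; positivity
    rw [← hθ] at hat
    have hblk : ((blk κ g C σ).E fun u => (ncoll u : ℝ)) ≤ ε * Fintype.card J := by
      rw [blk, FP.E_bind]
      exact FP.E_le_of_ae _ (FP.ae_of_all _ fun τ => hC.col τ)
    generalize blk κ g C σ = β at *
    have h1 : ∀ w : Fin M → J → ℕ, (ncoll fun q : Fin M × J => w q.1 q.2 : ℝ) =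
        ∑ i, ∑ i', ∑ j, ∑ j', if (i, j) ≠ (i', j') ∧ w i j = w i' j' then (1 : ℝ) else 0 := by
      intro w
      rw [new_ncoll_eq, Fintype.sum_prod_type]
      refine sum_congr rfl fun i _ => ?_
      simp only [Fintype.sum_prod_type]
      exact sum_comm
    have h2 : ∀ i i' : Fin M, ((FP.iid (Fin M) β).E fun w => ∑ j, ∑ j',
        if (i, j) ≠ (i', j') ∧ w i j = w i' j' then (1 : ℝ) else 0) ≤
        (if i = i' then ε * Fintype.card J else 0) +
          Fintype.card J * (Fintype.card J * θ) := by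
      intro i i'
      by_cases h : i = i'
      · subst h
        rw [if_pos rfl]
        have h3 : ((FP.iid (Fin M) β).E fun w => ∑ j, ∑ j',
            if (i, j) ≠ (i, j') ∧ w i j = w i j' then (1 : ℝ) else 0) =
            β.E fun u => (ncoll u : ℝ) := by
          rw [← FP.E_iid_eval β i]
          congr 1
          funext w
          rw [new_ncoll_eq]
          simp
        rw [h3]
        have : (0 : ℝ) ≤ Fintype.card J * (Fintype.card J * θ) := by positivity
        linarith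
      · rw [if_neg h, zero_add, FP.E_sum]
        have h4 : ∀ j ∈ (univ : Finset J), ((FP.iid (Fin M) β).E fun w => ∑ j',
            if (i, j) ≠ (i', j') ∧ w i j = w i' j' then (1 : ℝ) else 0) ≤
            Fintype.card J * θ := by
          intro j _
          rw [FP.E_sum]
          have h5 : ∀ j' ∈ (univ : Finset J), ((FP.iid (Fin M) β).E fun w =>
              if (i, j) ≠ (i', j') ∧ w i j = w i' j' then (1 : ℝ) else 0) ≤ θ := by
            intro j' _
            have h6 := FP.E_iid_pair β h fun u u' => if u j = u' j' then (1 : ℝ) else 0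
            have h7 : (β.E fun u => β.E fun u' => if u j = u' j' then (1 : ℝ) else 0) ≤ θ :=
              FP.E_le_of_ae _ (FP.ae_of_all _ fun u => hat (u j) j')
            refine le_trans (le_of_eq ?_) (h6.trans_le h7)
            congr 1
            funext w
            simp [h]
          have h8 := sum_le_card_nsmul _ _ _ h5
          rwa [card_univ, nsmul_eq_mul] at h8
        have h9 := sum_le_card_nsmul _ _ _ h4
        rwa [card_univ, nsmul_eq_mul] at h9
    simp only [h1, FP.E_sum (FP.iid (Fin M) β) (univ : Finset (Fin M))]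
    refine (sum_le_sum fun i _ => sum_le_sum fun i' _ => h2 i i').trans ?_
    simp only [sum_add_distrib, sum_ite_eq, mem_univ, if_true, sum_const, card_univ,
      Fintype.card_fin, nsmul_eq_mul]
    have h10 : (M : ℝ) * Fintype.card J ≤ 2 ^ (7200 * g) := by exact_mod_cast hhi
    have h11 : (2 : ℝ) ^ (7200 * g + 2) / 2 ^ lv (24 * g) = 2 ^ (7200 * g) * θ := by
      rw [hθ, pow_add]; ring
    rw [h11]
    push_cast
    have h12 : (0 : ℝ) ≤ M * Fintype.card J * θ := by positivity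
    have h13 := mul_le_mul_of_nonneg_right h10 h12
    nlinarith
  · have h1 : ((top κ tm (3 * (8 * g))).joint
        fun σ => (FP.iid (Fin M) (blk κ g C σ)).map fun w (q : Fin M × J) => w q.1 q.2) =
        (wl (top κ tm (24 * g)) (blk κ g C) M).map fun ω => (ω.1, fun q => ω.2 q.1 q.2) := by
      rw [e24]
      exact FP.ext_E fun f => by simp only [wl, FP.E_map, FP.E_joint]
    rw [h1, FP.H_map, hcard]
    push_cast
    refine le_trans (FP.H_mono _ fun a a' h => ?_) hH
    funext q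
    exact congrFun (congrFun h q.1) q.2

end Vale.Agent.P015
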