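import Vale.Agent.P015.Basic

/-! # P015: the group ring trick -/

namespace Vale.Agent.P015

open Finset

section ring

variable {G : Type} [AddCommGroup G]

/-- the group element as an element of the group ring. -/
noncomputable def ringE (g : G) : AddMonoidAlgebra ℤ G := AddMonoidAlgebra.single g 1

/-- sum of the coefficients. -/
noncomputable def ringEps (G : Type) [AddCommGroup G] : AddMonoidAlgebra ℤ G →ₐ[ℤ] ℤ :=
  AddMonoidAlgebra.lift ℤ ℤ G 1

lemma ringEps_E (g : G) : ringEps G (ringE g) = 1 := by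
  simp [ringEps, ringE]

lemma ringE_add (g h : G) : ringE (g + h) = ringE g * ringE h := by
  simp [ringE, AddMonoidAlgebra.single_mul_single]

/-- the support lies in `S`. -/
def RingSupp (S : Set G) (a : AddMonoidAlgebra ℤ G) : Prop := ∀ g, a.coeff g ≠ 0 → g ∈ S

lemma RingSupp.zero (S : Set G) : RingSupp S 0 := fun g h => by simp at h

lemma RingSupp.add {S : Set G} {a b : AddMonoidAlgebra ℤ G} (ha : RingSupp S a)
    (hb : RingSupp S b) : RingSupp S (a + b) := fun g h => by
  by_contra hg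
  apply h
  have h1 : a.coeff g = 0 := by_contra fun h1 => hg (ha g h1)
  have h2 : b.coeff g = 0 := by_contra fun h2 => hg (hb g h2)
  simp [h1, h2]

lemma RingSupp.neg {S : Set G} {a : AddMonoidAlgebra ℤ G} (ha : RingSupp S a) :
    RingSupp S (-a) := fun g h => ha g (by simpa using h)

lemma RingSupp.E {S : Set G} {g : G} (hg : g ∈ S) : RingSupp S (ringE g) := fun h hh => by
  classical
  have : g = h := by
    by_contra hne
    apply hh
    simp [ringE, hne]
  exact this ▸ hg

lemma RingSupp.mul {S T U : Set G} {a b : AddMonoidAlgebra ℤ G} (ha : RingSupp S a)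
    (hb : RingSupp T b) (hU : ∀ s ∈ S, ∀ t ∈ T, s + t ∈ U) : RingSupp U (a * b) := fun g h => by
  classical
  have h1 := AddMonoidAlgebra.support_coeff_mul_subset a b (Finsupp.mem_support_iff.2 h)
  obtain ⟨s, hs, t, ht, rfl⟩ := Finset.mem_add.1 h1
  exact hU s (ha s (Finsupp.mem_support_iff.1 hs)) t (hb t (Finsupp.mem_support_iff.1 ht))

variable (π : GaussianInt →+ G)

/-- `u` and `u'` are joined by a lattice path inside `N`, in group ring form. -/
def RingRep (N : Set GaussianInt) (u u' : GaussianInt) : Prop :=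
  ∃ a1 a2 : AddMonoidAlgebra ℤ G, RingSupp (π '' N) a1 ∧ RingSupp (π '' N) a2 ∧
    (ringE (π 1) - 1) * a1 + (ringE (π ⟨0, 1⟩) - 1) * a2 = ringE (π u') - ringE (π u) ∧
    ringEps G a1 = (u' - u).re ∧ ringEps G a2 = (u' - u).im

variable {π} {N : Set GaussianInt}

lemma RingRep.refl (u : GaussianInt) : RingRep π N u u :=
  ⟨0, 0, RingSupp.zero _, RingSupp.zero _, by simp, by simp, by simp⟩

lemma RingRep.symm {u u' : GaussianInt} (h : RingRep π N u u') : RingRep π N u' u := by
  obtain ⟨a1, a2, h1, h2, h3, h4, h5⟩ := h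
  refine ⟨-a1, -a2, h1.neg, h2.neg, ?_, ?_, ?_⟩
  · linear_combination -h3
  · rw [map_neg, h4]; simp
  · rw [map_neg, h5]; simp

lemma RingRep.trans {u u' u'' : GaussianInt} (h : RingRep π N u u') (h' : RingRep π N u' u'') :
    RingRep π N u u'' := by
  obtain ⟨a1, a2, h1, h2, h3, h4, h5⟩ := h
  obtain ⟨b1, b2, k1, k2, k3, k4, k5⟩ := h'
  refine ⟨a1 + b1, a2 + b2, h1.add k1, h2.add k2, ?_, ?_, ?_⟩
  · linear_combination h3 + k3
  · rw [map_add, h4, k4]; simp
  · rw [map_add, h5, k5]; simp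

lemma RingRep.one {u : GaussianInt} (hu : u ∈ N) : RingRep π N u (u + 1) := by
  refine ⟨ringE (π u), 0, RingSupp.E ⟨u, hu, rfl⟩, RingSupp.zero _, ?_, ?_, ?_⟩
  · rw [map_add, ringE_add]; ring
  · rw [ringEps_E]; simp
  · simp

lemma RingRep.I {u : GaussianInt} (hu : u ∈ N) : RingRep π N u (u + ⟨0, 1⟩) := by
  refine ⟨0, ringE (π u), RingSupp.zero _, RingSupp.E ⟨u, hu, rfl⟩, ?_, ?_, ?_⟩
  · rw [map_add, ringE_add]; ring
  · simp
  · rw [ringEps_E]; simp

lemma RingRep.line {g : GaussianInt} (hg : ∀ u ∈ N, RingRep π N u (u + g)) (u : GaussianInt)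
    (k : ℤ) (h : ∀ t : ℤ, |t| ≤ |k| → u + t * g ∈ N) : RingRep π N u (u + k * g) := by
  induction k using Int.induction_on with
  | zero => simpa using RingRep.refl u
  | succ k ih =>
    have hk : (0 : ℤ) ≤ k := Int.natCast_nonneg k
    have e1 : |(k : ℤ)| ≤ |(k : ℤ) + 1| := by
      rw [abs_of_nonneg hk, abs_of_nonneg (by omega)]; omega
    have h1 := (ih fun t ht => h t (ht.trans e1)).trans (hg _ (h k e1))
    convert h1 using 1
    push_cast
    ring
  | pred k ih =>
    have hk : (0 : ℤ) ≤ k := Int.natCast_nonneg k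
    have e1 : |-(k : ℤ)| ≤ |-(k : ℤ) - 1| := by
      rw [abs_of_nonpos (by omega), abs_of_nonpos (by omega)]; omega
    have h1 := hg _ (h (-(k : ℤ) - 1) le_rfl)
    have e2 : u + ((-(k : ℤ) - 1 : ℤ) : GaussianInt) * g + g = u + ((-(k : ℤ) : ℤ) : GaussianInt) * g := by
      push_cast
      ring
    rw [e2] at h1
    exact (ih fun t ht => h t (ht.trans e1)).trans h1.symm

lemma RingRep.step {D : ℕ} {u w : GaussianInt} (hN : ∀ e ∈ box D, u + e ∈ N) (hw : w ∈ box D) :
    RingRep π N u (u + w) := by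
  obtain ⟨h1, h2⟩ := mem_box.1 hw
  have a1 : RingRep π N u (u + w.re * 1) :=
    RingRep.line (fun u hu => RingRep.one hu) u w.re fun t ht =>
      hN _ (mem_box.2 ⟨by simpa using ht.trans h1, by simp⟩)
  have a2 : RingRep π N (u + w.re * 1) (u + w.re * 1 + w.im * ⟨0, 1⟩) :=
    RingRep.line (fun u hu => RingRep.I hu) _ w.im fun t ht => by
      rw [add_assoc]
      exact hN _ (mem_box.2 ⟨by simpa using h1, by simpa using ht.trans h2⟩)
  have e : u + w.re * 1 + w.im * ⟨0, 1⟩ = u + w := by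
    ext <;> simp
  rw [e] at a2
  exact a1.trans a2

/-- points near the walk. -/
def ringNear (D n : ℕ) (z : ℕ → GaussianInt) : Set GaussianInt := {w | ∃ i ≤ n, w - z i ∈ box D}

lemma RingRep.walk {D n : ℕ} {z : ℕ → GaussianInt}
    (hz : ∀ i, (z (i + 1) - z i).norm ≤ (D : ℤ) ^ 2) {a b : ℕ} (ha : a ≤ n) (hb : b ≤ n) :
    RingRep π (ringNear D n z) (z a) (z b) := by
  have key : ∀ k ≤ n, RingRep π (ringNear D n z) (z 0) (z k) := by
    intro k hk
    induction k with
    | zero => exact RingRep.refl _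
    | succ k ih =>
      have h1 : RingRep π (ringNear D n z) (z k) (z k + (z (k + 1) - z k)) :=
        RingRep.step (D := D) (fun e he => ⟨k, by omega, by simpa using he⟩)
          (mem_box_of_norm_le (hz k))
      rw [add_sub_cancel] at h1
      exact (ih (by omega)).trans h1
  exact (key a ha).symm.trans (key b hb)

lemma ring_const (hπ : Function.Surjective π) {I : AddMonoidAlgebra ℤ G}
    (h1 : (ringE (π 1) - 1) * I = 0) (h2 : (ringE (π ⟨0, 1⟩) - 1) * I = 0) (g : G) :
    I.coeff g = I.coeff 0 := by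
  have key : ∀ w : GaussianInt, (ringE (π w) - 1) * I = 0 → ∀ (k : ℤ) (h : G),
      I.coeff (π (k * w) + h) = I.coeff h := by
    intro w hw
    have hw' : ∀ h, I.coeff (π w + h) = I.coeff h := by
      intro h
      have e : ringE (π w) * I = I := by linear_combination hw
      have e2 := AddMonoidAlgebra.coeff_single_mul_add I 1 (π w) h
      rw [one_mul] at e2
      rw [← e2]
      exact (congrArg (fun x : AddMonoidAlgebra ℤ G => x.coeff (π w + h)) e).symm
    intro k
    induction k using Int.induction_on with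
    | zero => simp
    | succ k ih =>
      intro h
      rw [← ih h, ← hw' (π (((k : ℤ) : GaussianInt) * w) + h), ← add_assoc, ← map_add]
      congr 3
      push_cast
      ring
    | pred k ih =>
      intro h
      rw [← ih h, ← hw' (π (((-(k : ℤ) - 1 : ℤ) : GaussianInt) * w) + h), ← add_assoc, ← map_add]
      congr 3
      push_cast
      ring
  obtain ⟨u, rfl⟩ := hπ g
  have e : u = u.re * 1 + (u.im * ⟨0, 1⟩ + 0) := by
    ext <;> simp
  rw [e, map_add π, map_add π, key _ h1, key _ h2, map_zero π]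

lemma ring_cover (hπ : Function.Surjective π) {D n : ℕ} {z : ℕ → GaussianInt}
    (hz : ∀ i, (z (i + 1) - z i).norm ≤ (D : ℤ) ^ 2) {a b c : ℕ} (ha : a ≤ n) (hb : b ≤ n)
    (hc : c ≤ n) (hab : π (z b) = π (z a)) (hac : π (z c) = π (z a))
    (hdet : ((z c - z a) * star (z b - z a)).im ≠ 0) :
    Finite G ∧ ∀ g : G, ∃ d, π d = g ∧ ∃ i ≤ n, ∃ j ≤ n, (z i - z j - d).norm ≤ 8 * (D : ℤ) ^ 2 := by
  obtain ⟨a1, a2, h1, h2, h3, h4, h5⟩ := RingRep.walk (π := π) hz ha hb
  obtain ⟨b1, b2, k1, k2, k3, k4, k5⟩ := RingRep.walk (π := π) (z := fun i => -z i) (D := D)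
    (fun i => by rw [← Zsqrtd.norm_neg]; convert hz i using 2; ring) ha hc
  rw [hab, sub_self] at h3
  rw [map_neg, map_neg, hac, sub_self] at k3
  have hI : ringEps G (a1 * b2 - b1 * a2) ≠ 0 := by
    rw [map_sub, map_mul, map_mul, h4, h5, k4, k5]
    intro h
    apply hdet
    simp only [Zsqrtd.re_sub, Zsqrtd.im_sub, Zsqrtd.re_neg, Zsqrtd.im_neg, Zsqrtd.im_mul,
      Zsqrtd.re_star, Zsqrtd.im_star] at h ⊢
    linear_combination -h
  have hS : RingSupp {g | ∃ d, π d = g ∧ ∃ i ≤ n, ∃ j ≤ n, (z i - z j - d).norm ≤ 8 * (D : ℤ) ^ 2}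
      (a1 * b2 - b1 * a2) := by
    have hU : ∀ s ∈ π '' ringNear D n z, ∀ t ∈ π '' ringNear D n fun i => -z i, s + t ∈
        {g | ∃ d, π d = g ∧ ∃ i ≤ n, ∃ j ≤ n, (z i - z j - d).norm ≤ 8 * (D : ℤ) ^ 2} := by
      rintro _ ⟨s, ⟨i, hi, hs⟩, rfl⟩ _ ⟨t, ⟨j, hj, ht⟩, rfl⟩
      refine ⟨s + t, map_add _ _ _, i, hi, j, hj, ?_⟩
      have e1 := norm_le_of_mem_box (neg_mem_box (add_mem_box hs ht))
      have e2 : -(s - z i + (t - -z j)) = z i - z j - (s + t) := by ring
      rw [e2] at e1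
      push_cast at e1
      linarith
    rw [sub_eq_add_neg, mul_comm b1]
    exact (h1.mul k2 hU).add (h2.mul k1 hU).neg
  have hc := ring_const hπ (I := a1 * b2 - b1 * a2) (by linear_combination b2 * h3 - a2 * k3)
    (by linear_combination a1 * k3 - b1 * h3)
  generalize a1 * b2 - b1 * a2 = I at hI hS hc
  have h0 : I.coeff 0 ≠ 0 := by
    intro h0
    apply hI
    have : I = 0 := by
      ext g
      rw [hc g, h0]
      simp
    rw [this, map_zero]
  have hall : ∀ g, I.coeff g ≠ 0 := fun g => by rw [hc g]; exact h0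
  refine ⟨?_, fun g => hS g (hall g)⟩
  exact Set.finite_univ_iff.1 (I.coeff.support.finite_toSet.subset fun g _ =>
    Finsupp.mem_support_iff.2 (hall g))

end ring

lemma ring_quot (v w : GaussianInt) (h : (w * star v).im ≠ 0) :
    ∃ (G : Type) (_ : AddCommGroup G) (π : GaussianInt →+ G), Function.Surjective π ∧
      π v = 0 ∧ π w = 0 ∧ |(w * star v).im| = Nat.card G := by
  let A : Matrix (Fin 2) (Fin 2) ℤ := !![v.re, w.re; v.im, w.im]
  have hA : A.det = (w * star v).im := by
    simp [A, Matrix.det_fin_two_of]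
    ring
  let f : (Fin 2 → ℤ) →ₗ[ℤ] (Fin 2 → ℤ) := Matrix.toLin' A
  have hf : Function.Injective f := by
    have := Matrix.mulVec_injective_of_det_ne_zero (M := A) (hA ▸ h)
    exact this
  let ρ : GaussianInt →+ (Fin 2 → ℤ) :=
    { toFun := fun u => ![u.re, u.im]
      map_zero' := by ext i; fin_cases i <;> simp
      map_add' := fun u u' => by ext i; fin_cases i <;> simp }
  have hρ : Function.Surjective ρ := fun y => ⟨⟨y 0, y 1⟩, by ext i; fin_cases i <;> simp [ρ]⟩
  refine ⟨(Fin 2 → ℤ) ⧸ LinearMap.range f, inferInstance,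
    (LinearMap.range f).mkQ.toAddMonoidHom.comp ρ,
    (Submodule.mkQ_surjective _).comp hρ, ?_, ?_, ?_⟩
  · refine (Submodule.Quotient.mk_eq_zero _).2 ⟨![1, 0], ?_⟩
    ext i
    fin_cases i <;> simp [f, A, ρ]
  · refine (Submodule.Quotient.mk_eq_zero _).2 ⟨![0, 1], ?_⟩
    ext i
    fin_cases i <;> simp [f, A, ρ]
  · rw [← Submodule.natAbs_det_equiv (LinearMap.range f) (LinearEquiv.ofInjective f hf)]
    have e : (LinearMap.range f).subtype ∘ₗ AddMonoidHom.toIntLinearMap
        ((LinearEquiv.ofInjective f hf : (Fin 2 → ℤ) ≃ₗ[ℤ] LinearMap.range f) :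
          (Fin 2 → ℤ) →+ LinearMap.range f) = f := by
      ext x i
      rfl
    rw [e, LinearMap.det_toLin', hA, Int.natCast_natAbs]

theorem ring_stmt : RingStmt := by
  classical
  intro D n z hz a b c ha hb hc
  by_cases hdet : ((z c - z a) * star (z b - z a)).im = 0
  · exact ⟨∅, by rw [hdet]; simp, by simp⟩
  obtain ⟨G, _, π, hπ, h1, h2, h3⟩ := ring_quot _ _ hdet
  rw [map_sub, sub_eq_zero] at h1 h2
  obtain ⟨hfin, hcov⟩ := ring_cover hπ hz ha hb hc h1 h2 hdet
  choose f hf hf' using hcov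
  have := Fintype.ofFinite G
  refine ⟨univ.image f, ?_, ?_⟩
  · rw [h3, card_image_of_injective _ fun g g' e => by rw [← hf g, ← hf g', e],
      Nat.card_eq_fintype_card, card_univ]
  · intro d hd
    obtain ⟨g, -, rfl⟩ := mem_image.1 hd
    exact hf' g

end Vale.Agent.P015
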