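import Vale.Agent.P015.Basic

/-! # P015: the entropy decrement over all scales of one stage -/

namespace Vale.Agent.P015

open Finset

lemma scale_num {c : ℝ} (hc : 0 < c) (b : ℕ) : ∃ g1 : ℕ, ∀ g : ℕ, g1 ≤ g →
    8192 * (g : ℝ) * b ≤ c * 2 ^ (256 * g) ∧ 36 * (b : ℝ) * 2 ^ 21 ≤ c * 2 ^ (128 * g) := by
  obtain ⟨g1, hg1⟩ := exists_nat_ge (36 * (b : ℝ) * 2 ^ 21 / c)
  refine ⟨g1, fun g hg => ?_⟩
  have h1 : 36 * (b : ℝ) * 2 ^ 21 ≤ g * c := by
    rw [div_le_iff₀ hc] at hg1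
    exact hg1.trans (mul_le_mul_of_nonneg_right (by exact_mod_cast hg) hc.le)
  have h2 : (g : ℝ) ≤ 2 ^ (128 * g) := by
    have : g < 2 ^ (128 * g) := lt_of_le_of_lt (by omega) Nat.lt_two_pow_self
    exact_mod_cast this.le
  have h3 : (2 : ℝ) ^ (256 * g) = 2 ^ (128 * g) * 2 ^ (128 * g) := by
    rw [← pow_add]; congr 1; ring
  have hg0 : (0 : ℝ) ≤ g := Nat.cast_nonneg _
  have hb0 : (0 : ℝ) ≤ b := Nat.cast_nonneg _
  rw [h3]
  generalize (2 : ℝ) ^ (128 * g) = y at *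
  have h4 : 36 * (b : ℝ) * 2 ^ 21 ≤ c * y := by nlinarith
  refine ⟨?_, h4⟩
  calc 8192 * (g : ℝ) * b ≤ (36 * (b : ℝ) * 2 ^ 21) * g := by nlinarith [mul_nonneg hg0 hb0]
    _ ≤ (c * y) * y := mul_le_mul h4 h2 hg0 (by nlinarith)
    _ = c * (y * y) := by ring

lemma scale_j {c : ℝ} (hc : 0 < c) {b g s N : ℕ} (hb : 0 < b) (hg : 1 ≤ g) (h1 : 2048 * g ≤ s)
    (h2 : s < 4096 * g) (h3 : 8192 * (g : ℝ) * b ≤ c * 2 ^ (256 * g)) (hN : c * 2 ^ s / s ≤ N) :
    ∃ j : ℕ, b * j ≤ N ∧ 2 ^ (1792 * g) ≤ b * j ∧ 2 ^ (768 * g) < 2 * j * s ∧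
      c * 2 ^ s ≤ 2 * b * (j * s) := by
  have hs : (0 : ℝ) < s := by exact_mod_cast (by omega : 0 < s)
  have hbR : (1 : ℝ) ≤ b := by exact_mod_cast hb
  have hgR : (1 : ℝ) ≤ g := by exact_mod_cast hg
  have hsg : (s : ℝ) ≤ 4096 * g := by exact_mod_cast h2.le
  have h4 : (2 : ℝ) ^ (256 * g) * 2 ^ (1792 * g) ≤ 2 ^ s := by
    rw [← pow_add]; exact pow_le_pow_right₀ (by norm_num) (by omega)
  have h5 : (2 : ℝ) ^ (768 * g) ≤ 2 ^ (1792 * g) := pow_le_pow_right₀ (by norm_num) (by omega)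
  have h6 : (1 : ℝ) ≤ 2 ^ (768 * g) := one_le_pow₀ (by norm_num)
  have h7 : 8192 * (g : ℝ) * b * 2 ^ (1792 * g) ≤ c * 2 ^ s :=
    calc _ ≤ c * 2 ^ (256 * g) * 2 ^ (1792 * g) := by gcongr
      _ ≤ c * 2 ^ s := by rw [mul_assoc]; gcongr
  set y := c * 2 ^ s / (s * b) with hy
  have hy0 : c * 2 ^ s = y * (s * b) := by rw [hy]; field_simp
  have hsb : (0 : ℝ) < s * b := by positivity
  have hy1 : 1 ≤ y := by
    rw [hy, le_div_iff₀ hsb]
    have : (s : ℝ) * b ≤ 8192 * (g : ℝ) * b := by nlinarith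
    have h8 : 8192 * (g : ℝ) * b ≤ 8192 * (g : ℝ) * b * 2 ^ (1792 * g) :=
      le_mul_of_one_le_right (by positivity) (h6.trans h5)
    linarith
  have hj1 : (⌊y⌋₊ : ℝ) ≤ y := Nat.floor_le (by linarith)
  have hj2 : y ≤ 2 * ⌊y⌋₊ := by
    have := Nat.lt_floor_add_one y
    have h9 : (1 : ℝ) ≤ ⌊y⌋₊ := by exact_mod_cast Nat.le_floor (by simpa using hy1)
    linarith
  have hmain : c * 2 ^ s ≤ 2 * b * (⌊y⌋₊ * s) := by
    rw [hy0]; nlinarith
  refine ⟨⌊y⌋₊, ?_, ?_, ?_, hmain⟩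
  · have : (b : ℝ) * ⌊y⌋₊ ≤ N := by
      refine le_trans ?_ hN
      rw [le_div_iff₀ hs, hy0]; nlinarith
    exact_mod_cast this
  · have : (2 : ℝ) ^ (1792 * g) ≤ b * ⌊y⌋₊ := by
      generalize (2 : ℝ) ^ (1792 * g) = u at *
      have hu : 0 ≤ u := by linarith
      have h10 : 2 * s * u ≤ 8192 * (g : ℝ) * b * u := by
        refine mul_le_mul_of_nonneg_right ?_ hu
        nlinarith
      have h11 : 2 * s * u ≤ 2 * s * (b * ⌊y⌋₊) := by linarith
      exact le_of_mul_le_mul_left h11 (by positivity)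
    exact_mod_cast this
  · have : (2 : ℝ) ^ (768 * g) < 2 * ⌊y⌋₊ * s := by
      generalize (2 : ℝ) ^ (1792 * g) = u at *
      have h11 : b * (8192 * (g : ℝ) * u) ≤ b * (2 * ⌊y⌋₊ * s) := by linarith
      have h12 := le_of_mul_le_mul_left h11 (by positivity)
      nlinarith
    exact_mod_cast this

theorem scale_of (hT : TeleStmt) (hO : OneStmt) (hI : InfoStmt) : ScaleStmt := by
  intro c s0 hc
  obtain ⟨b, hb⟩ : ∃ b : ℕ, b = 2 ^ 435 := ⟨_, rfl⟩
  have hb0 : 0 < b := by rw [hb]; exact Nat.two_pow_pos 435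
  have hb456 : (2 : ℝ) ^ 456 = b * 2 ^ 21 := by
    rw [hb, Nat.cast_pow, Nat.cast_ofNat, ← pow_add]
  obtain ⟨g1, hg1⟩ := scale_num hc b
  refine ⟨g1 + s0 + 2, ?_⟩
  intro D K x κ ι tm g e ε J _ _ _ C env col hg hK htm hε hsup he
  obtain ⟨n1, n2⟩ := hg1 g (by omega)
  rw [hb456]
  set n := Fintype.card J with hn
  have hn0 : 0 < n := Fintype.card_pos
  have hlo : 2 ^ (896 * g) ≤ n := col.lo
  have hhi : n ≤ 2 ^ (900 * g) := col.hi
  let hW : ℕ → ℝ := fun m => (wl (top κ tm (24 * g)) (blk κ g C) m).H (wd x)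
  have hsub : ∀ r m, hW (r * m) ≤ r * hW m := by
    intro r m
    have := hT _ _ _ (top κ tm (24 * g)) (blk κ g C) (fun σ u j => x (u j) - x σ) (fun _ => ()) m r
    rw [FP.H_const, FP.Hc_const_right, zero_add] at this
    exact this
  set m0 := 2 ^ (2048 * g) * (4096 * g) / n + 1 with hm0
  have hm1 : 2 ^ (2048 * g) * (4096 * g) ≤ m0 * n := by
    rw [hm0, mul_comm _ n]; exact (Nat.lt_mul_div_succ _ hn0).le
  have hm2 : m0 * n ≤ 2 ^ (2048 * g) * (4097 * g) := by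
    have h1 := Nat.div_mul_le_self (2 ^ (2048 * g) * (4096 * g)) n
    have h2 : 2 ^ (900 * g) ≤ 2 ^ (2048 * g) := Nat.pow_le_pow_right (by norm_num) (by omega)
    have h3 : 2 ^ (2048 * g) ≤ 2 ^ (2048 * g) * g := Nat.le_mul_of_pos_right _ (by omega)
    rw [hm0, add_mul, one_mul]
    calc _ ≤ 2 ^ (2048 * g) * (4096 * g) + 2 ^ (2048 * g) * g := by omega
      _ = _ := by ring
  clear_value m0
  have hgR : (1 : ℝ) ≤ g := by exact_mod_cast (by omega : 1 ≤ g)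
  have hbR : (0 : ℝ) < b := by exact_mod_cast hb0
  have hnR : (0 : ℝ) < n := by exact_mod_cast hn0
  have hdec : ∀ r, r < 128 * g → hW (2 ^ (13 * (r + 1)) * m0) ≤
      2 ^ 13 * hW (2 ^ (13 * r) * m0) - 2 ^ (13 * (r + 1)) * (m0 * n) * (c / (b * 2 ^ 26 * g)) := by
    intro r hr
    obtain ⟨P, hP, hav, hcard⟩ := hsup (2048 * g + 13 * r) (by omega) (by omega)
    obtain ⟨j, j1, j2, j3, j4⟩ := scale_j hc hb0 (g := g) (s := 2048 * g + 13 * r) (by omega)
      (by omega) (by omega) n1 hcard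
    have hlv : lv (24 * g) = 2 ^ (768 * g) := by rw [lv_def]; congr 1; ring
    obtain ⟨A, a1, a2⟩ := hI D K x κ ι tm g (2048 * g + 13 * r) j b (2 ^ (13 * r) * m0) ε J C P env
      col (by omega) hK htm hε (by omega) (by omega) hb hP hav j1 j2 (hlv ▸ j3) (by
        calc 2 ^ (2048 * g + 13 * r) * (2048 * g + 13 * r)
            ≤ 2 ^ (2048 * g + 13 * r) * (4096 * g) := Nat.mul_le_mul_left _ (by omega)
          _ = 2 ^ (13 * r) * (2 ^ (2048 * g) * (4096 * g)) := by ring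
          _ ≤ 2 ^ (13 * r) * (m0 * n) := Nat.mul_le_mul_left _ hm1
          _ = _ := by ring)
    have h1 := hT _ _ _ (top κ tm (24 * g)) (blk κ g C) (fun σ u j => x (u j) - x σ)
      (fun σ => cls ι A (x σ)) (2 ^ (13 * r) * m0) (2 ^ 13)
    have h2 : 2 ^ (13 * (r + 1)) * m0 = 2 ^ 13 * (2 ^ (13 * r) * m0) := by ring
    have h3 : hW (2 ^ 13 * (2 ^ (13 * r) * m0)) ≤ (j : ℝ) * (2048 * g + 13 * r : ℕ) +
        2 ^ 13 * (hW (2 ^ (13 * r) * m0) - j * (2048 * g + 13 * r : ℕ) / 2 ^ 11) := by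
      refine h1.trans (add_le_add a1 ?_)
      rw [Nat.cast_pow, Nat.cast_ofNat]
      exact mul_le_mul_of_nonneg_left a2 (by norm_num)
    rw [h2]
    refine h3.trans ?_
    have hm2R : (m0 : ℝ) * n ≤ 2 ^ (2048 * g) * (8192 * g) := by
      have : m0 * n ≤ 2 ^ (2048 * g) * (8192 * g) := hm2.trans (Nat.mul_le_mul_left _ (by omega))
      exact_mod_cast this
    have h4 : (2 : ℝ) ^ (13 * (r + 1)) * (m0 * n) * (c / (b * 2 ^ 26 * g)) ≤
        2 * ((j : ℝ) * (2048 * g + 13 * r : ℕ)) :=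
      calc _ ≤ (2 : ℝ) ^ (13 * (r + 1)) * (2 ^ (2048 * g) * (8192 * g)) *
            (c / (b * 2 ^ 26 * g)) := by gcongr
        _ = c * 2 ^ (2048 * g + 13 * r) / b := by
            rw [mul_add, pow_add, pow_add]; field_simp; norm_num
        _ ≤ _ := by rw [div_le_iff₀ hbR]; linarith
    have h5 : (0 : ℝ) ≤ (j : ℝ) * (2048 * g + 13 * r : ℕ) := by positivity
    linarith
  have hind : ∀ r, r ≤ 128 * g → hW (2 ^ (13 * r) * m0) ≤ 2 ^ (13 * r) * (m0 * n) *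
      (e + 36 * (lv (24 * g) : ℝ) / n - r * (c / (b * 2 ^ 26 * g))) := by
    intro r
    induction r with
    | zero =>
      intro _
      have h1 := hsub m0 1
      have h2 : hW 1 ≤ 36 * (lv (24 * g) : ℝ) + n * e :=
        (hO D K x κ tm g J C env (by omega) hK (by omega)).trans (add_le_add le_rfl he)
      have h3 : (m0 : ℝ) * hW 1 ≤ m0 * (36 * (lv (24 * g) : ℝ) + n * e) :=
        mul_le_mul_of_nonneg_left h2 (Nat.cast_nonneg _)
      simp only [mul_zero, pow_zero, one_mul, mul_one, Nat.cast_zero, zero_mul, sub_zero] at h1 ⊢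
      refine (h1.trans h3).trans (le_of_eq ?_)
      field_simp
      ring
    | succ r ih =>
      intro hr
      have h1 := hdec r (by omega)
      have h2 := ih (by omega)
      have h3 : (2 : ℝ) ^ (13 * (r + 1)) = 2 ^ 13 * 2 ^ (13 * r) := by rw [← pow_add]; congr 1; ring
      rw [h3] at h1 ⊢
      push_cast
      linarith
  refine ⟨2 ^ (3456 * g) * (2 ^ (13 * (128 * g)) * m0), ?_, ?_, ?_⟩
  · calc 2 ^ (7168 * g) = 2 ^ (3456 * g) * (2 ^ (13 * (128 * g)) * (2 ^ (2048 * g) * 1)) := by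
          rw [mul_one, ← pow_add, ← pow_add]; congr 1; ring
      _ ≤ 2 ^ (3456 * g) * (2 ^ (13 * (128 * g)) * (2 ^ (2048 * g) * (4096 * g))) := by
          gcongr; omega
      _ ≤ 2 ^ (3456 * g) * (2 ^ (13 * (128 * g)) * (m0 * n)) := by gcongr
      _ = _ := by simp only [mul_assoc]
  · have h1 : 4097 * g ≤ 2 ^ (32 * g) := by
      have h2 : g < 2 ^ g := Nat.lt_two_pow_self
      have h3 : 2 ^ 13 ≤ 2 ^ (31 * g) := Nat.pow_le_pow_right (by norm_num) (by omega)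
      calc 4097 * g ≤ 2 ^ (31 * g) * 2 ^ g := Nat.mul_le_mul (by omega) h2.le
        _ = _ := by rw [← pow_add]; congr 1; ring
    calc _ = 2 ^ (3456 * g) * (2 ^ (13 * (128 * g)) * (m0 * n)) := by simp only [mul_assoc]
      _ ≤ 2 ^ (3456 * g) * (2 ^ (13 * (128 * g)) * (2 ^ (2048 * g) * (4097 * g))) := by gcongr
      _ ≤ 2 ^ (3456 * g) * (2 ^ (13 * (128 * g)) * (2 ^ (2048 * g) * 2 ^ (32 * g))) := by gcongr
      _ = _ := by rw [← pow_add, ← pow_add, ← pow_add]; congr 1; ring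
  · have h1 := hsub (2 ^ (3456 * g)) (2 ^ (13 * (128 * g)) * m0)
    have h2 := hind (128 * g) le_rfl
    have h3 : e + 36 * (lv (24 * g) : ℝ) / n - (128 * g : ℕ) * (c / (b * 2 ^ 26 * g))
        ≤ e - c / (b * 2 ^ 21) := by
      have h4 : ((128 * g : ℕ) : ℝ) * (c / (b * 2 ^ 26 * g)) = 4 * (c / (b * 2 ^ 21)) := by
        push_cast; field_simp; norm_num
      have h5 : 36 * (lv (24 * g) : ℝ) / n ≤ c / (b * 2 ^ 21) := by
        rw [div_le_div_iff₀ hnR (by positivity)]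
        have h6 : (2 : ℝ) ^ (128 * g) * (lv (24 * g) : ℝ) ≤ n := by
          have : 2 ^ (128 * g) * lv (24 * g) ≤ n := by
            rw [lv_def, ← pow_add]; exact le_trans (le_of_eq (by congr 1; ring)) hlo
          exact_mod_cast this
        have h7 : (0 : ℝ) ≤ lv (24 * g) := Nat.cast_nonneg _
        calc _ = 36 * (b : ℝ) * 2 ^ 21 * (lv (24 * g) : ℝ) := by ring
          _ ≤ c * 2 ^ (128 * g) * (lv (24 * g) : ℝ) := by gcongr
          _ ≤ c * n := by rw [mul_assoc]; gcongr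
      have h8 : 0 ≤ c / (b * 2 ^ 21) := by positivity
      linarith
    refine h1.trans ?_
    push_cast
    calc _ ≤ (2 : ℝ) ^ (3456 * g) * (2 ^ (13 * (128 * g)) * (m0 * n) * (e - c / (b * 2 ^ 21))) := by
          refine mul_le_mul_of_nonneg_left (h2.trans ?_) (by positivity)
          exact mul_le_mul_of_nonneg_left h3 (by positivity)
      _ = _ := by ring

end Vale.Agent.P015
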