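import Vale.Agent.P015.Basic

/-! # P015: moments of sums of periodic functions along a segment -/

namespace Vale.Agent.P015

open Finset

lemma seg_per_dvd {f : ℕ → ℝ} {p q : ℕ} (h : ∀ a, f (a + p) = f a) (hq : p ∣ q) (a : ℕ) :
    f (a + q) = f a := by
  obtain ⟨j, rfl⟩ := hq
  induction j with
  | zero => simp
  | succ j ih => rw [mul_add, mul_one, ← add_assoc, h, ih]

lemma seg_mod {f : ℕ → ℝ} {p : ℕ} (h : ∀ a, f (a + p) = f a) (a : ℕ) : f (a % p) = f a := by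
  conv_rhs => rw [← Nat.mod_add_div a p]
  exact (seg_per_dvd h (dvd_mul_right _ _) _).symm

lemma seg_mul {f : ℕ → ℝ} {q : ℕ} (h : ∀ a, f (a + q) = f a) (u : ℕ) :
    ∑ a ∈ range (q * u), f a = u * ∑ a ∈ range q, f a := by
  induction u with
  | zero => simp
  | succ u ih =>
    rw [mul_add, mul_one, sum_range_add, ih]
    have : ∑ x ∈ range q, f (q * u + x) = ∑ x ∈ range q, f x :=
      sum_congr rfl fun x _ => by rw [add_comm]; exact seg_per_dvd h (dvd_mul_right _ _) _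
    rw [this]
    push_cast
    ring

lemma seg_approx {f : ℕ → ℝ} {q Q : ℕ} (h : ∀ a, f (a + q) = f a) (hb : ∀ a, |f a| ≤ 1)
    (hQ : 0 < Q) (hq : q ∣ Q) (A : ℕ) :
    ∑ a ∈ range A, f a ≤ A * ((∑ a ∈ range Q, f a) / Q) + 2 * q := by
  obtain ⟨v, rfl⟩ := hq
  have hq0 : 0 < q := Nat.pos_of_mul_pos_right hQ
  have hv0 : 0 < v := Nat.pos_of_mul_pos_left hQ
  have hq0' : (0 : ℝ) < q := by exact_mod_cast hq0
  have hv0' : (0 : ℝ) < v := by exact_mod_cast hv0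
  obtain ⟨m, hm⟩ : ∃ m : ℝ, ∑ a ∈ range q, f a = q * m :=
    ⟨(∑ a ∈ range q, f a) / q, by field_simp⟩
  have hm1 : -1 ≤ m := by
    have h1 : ∑ a ∈ range q, (-1 : ℝ) ≤ ∑ a ∈ range q, f a :=
      sum_le_sum fun a _ => (abs_le.1 (hb a)).1
    rw [hm, sum_const, card_range, nsmul_eq_mul] at h1
    exact le_of_mul_le_mul_left h1 hq0'
  have e1 : (∑ a ∈ range (q * v), f a) / (q * v : ℕ) = m := by
    rw [seg_mul h, hm]
    push_cast
    field_simp
  rw [e1]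
  have ht : A % q < q := Nat.mod_lt _ hq0
  have hA : A = q * (A / q) + A % q := (Nat.div_add_mod A q).symm
  generalize A % q = t at ht hA
  generalize A / q = u at hA
  subst hA
  rw [sum_range_add, seg_mul h, hm]
  have h2 : ∑ x ∈ range t, f (q * u + x) ≤ ∑ x ∈ range t, (1 : ℝ) :=
    sum_le_sum fun a _ => (abs_le.1 (hb _)).2
  rw [sum_const, card_range, nsmul_eq_mul, mul_one] at h2
  have ht' : (t : ℝ) ≤ q := by exact_mod_cast ht.le
  have ht0 : (0 : ℝ) ≤ t := Nat.cast_nonneg t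
  push_cast
  nlinarith

lemma seg_crt2 {F H : ℕ → ℝ} {q p : ℕ} (hF : ∀ a, F (a + q) = F a) (hH : ∀ a, H (a + p) = H a)
    (hc : q.Coprime p) (hq : 0 < q) (hp : 0 < p) :
    ∑ a ∈ range (q * p), F a * H a = (∑ a ∈ range q, F a) * ∑ a ∈ range p, H a := by
  rw [sum_mul_sum, ← sum_product']
  refine sum_bij (fun a _ => (a % q, a % p)) ?_ ?_ ?_ ?_
  · intro a _
    exact mem_product.2 ⟨mem_range.2 (Nat.mod_lt _ hq), mem_range.2 (Nat.mod_lt _ hp)⟩
  · intro a ha b hb hab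
    have h1 : a ≡ b [MOD q * p] := (Nat.modEq_and_modEq_iff_modEq_mul hc).1
      ⟨congrArg Prod.fst hab, congrArg Prod.snd hab⟩
    exact Nat.ModEq.eq_of_lt_of_lt h1 (mem_range.1 ha) (mem_range.1 hb)
  · rintro ⟨i, j⟩ hij
    obtain ⟨hi, hj⟩ := mem_product.1 hij
    refine ⟨Nat.chineseRemainder hc i j,
      mem_range.2 (Nat.chineseRemainder_lt_mul hc i j hq.ne' hp.ne'), ?_⟩
    have h1 := (Nat.chineseRemainder hc i j).2
    refine Prod.ext ?_ ?_
    · exact Eq.trans h1.1 (Nat.mod_eq_of_lt (mem_range.1 hi))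
    · exact Eq.trans h1.2 (Nat.mod_eq_of_lt (mem_range.1 hj))
  · intro a _
    rw [seg_mod hF, seg_mod hH]

lemma seg_crt (P : Finset ℕ) (h : ℕ → ℕ → ℝ) (hP : ∀ p ∈ P, p.Prime)
    (hh : ∀ p ∈ P, ∀ a, h p (a + p) = h p a) :
    ∑ a ∈ range (∏ p ∈ P, p), ∏ p ∈ P, h p a = ∏ p ∈ P, ∑ a ∈ range p, h p a := by
  induction P using Finset.cons_induction with
  | empty => simp
  | cons p P hp ih =>
    have hP' : ∀ r ∈ P, r.Prime := fun r hr => hP r (mem_cons_of_mem hr)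
    have hh' : ∀ r ∈ P, ∀ a, h r (a + r) = h r a := fun r hr => hh r (mem_cons_of_mem hr)
    simp only [prod_cons]
    rw [← ih hP' hh']
    refine seg_crt2 (F := h p) (H := fun a => ∏ r ∈ P, h r a) (hh p (mem_cons_self _ _))
      (fun a => prod_congr rfl fun r hr => seg_per_dvd (hh' r hr) (dvd_prod_of_mem _ hr) a) ?_
      (hP p (mem_cons_self _ _)).pos (prod_pos fun r hr => (hP' r hr).pos)
    exact Nat.Coprime.prod_right fun r hr =>
      (Nat.coprime_primes (hP p (mem_cons_self _ _)) (hP' r hr)).2 fun e => hp (e ▸ hr)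

lemma seg_exp (P : Finset ℕ) (g : ℕ → ℕ → ℝ) (hP : ∀ p ∈ P, p.Prime)
    (hb : ∀ p ∈ P, ∀ a, |g p a| ≤ 1) (hg : ∀ p ∈ P, ∀ a, g p (a + p) = g p a)
    (h0 : ∀ p ∈ P, ∑ a ∈ range p, g p a = 0) {l : ℝ} (hl : |l| ≤ 1) :
    ∑ a ∈ range (∏ p ∈ P, p), Real.exp (l * ∑ p ∈ P, g p a)
      ≤ (∏ p ∈ P, p : ℕ) * Real.exp (l ^ 2 * P.card) := by
  have e1 : ∀ a, Real.exp (l * ∑ p ∈ P, g p a) = ∏ p ∈ P, Real.exp (l * g p a) := fun a => by
    rw [mul_sum, Real.exp_sum]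
  simp only [e1]
  rw [seg_crt P (fun p a => Real.exp (l * g p a)) hP fun p hp a => by simp only [hg p hp]]
  have e2 : ((∏ p ∈ P, p : ℕ) : ℝ) * Real.exp (l ^ 2 * P.card)
      = ∏ p ∈ P, (p : ℝ) * Real.exp (l ^ 2) := by
    rw [prod_mul_distrib, prod_const, Nat.cast_prod, ← Real.exp_nat_mul, mul_comm (l ^ 2)]
  rw [e2]
  refine prod_le_prod (fun p _ => sum_nonneg fun a _ => (Real.exp_pos _).le) fun p hp => ?_
  have h1 : ∀ a, Real.exp (l * g p a) ≤ Real.exp (l ^ 2) + l * g p a := by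
    intro a
    have a1 : |l * g p a| ≤ |l| := by
      rw [abs_mul]
      exact mul_le_of_le_one_right (abs_nonneg _) (hb p hp a)
    have a2 := (abs_le.1 (Real.abs_exp_sub_one_sub_id_le (a1.trans hl))).2
    have a3 : (l * g p a) ^ 2 ≤ l ^ 2 := sq_le_sq.2 a1
    have a4 := Real.add_one_le_exp (l ^ 2)
    linarith
  refine (sum_le_sum fun a _ => h1 a).trans ?_
  rw [sum_add_distrib, ← mul_sum, h0 p hp, sum_const, card_range, nsmul_eq_mul]
  simp

lemma seg_moment (P : Finset ℕ) (m : ℕ) (g : ℕ → ℕ → ℝ) (hP : ∀ p ∈ P, p.Prime) (hm : 0 < m)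
    (hk : 2 * m ≤ P.card) (hb : ∀ p ∈ P, ∀ a, |g p a| ≤ 1)
    (hg : ∀ p ∈ P, ∀ a, g p (a + p) = g p a) (h0 : ∀ p ∈ P, ∑ a ∈ range p, g p a = 0) :
    ∑ a ∈ range (∏ p ∈ P, p), (∑ p ∈ P, g p a) ^ (2 * m)
      ≤ (∏ p ∈ P, p : ℕ) * (2 * (8 * (2 * m : ℕ) * P.card : ℝ) ^ m) := by
  obtain ⟨r, hr⟩ : ∃ r : ℕ, r = 2 * m := ⟨_, rfl⟩
  have hr0 : (0 : ℝ) < r := by exact_mod_cast (by omega : 0 < r)
  have hk0 : (0 : ℝ) < P.card := by exact_mod_cast (by omega : 0 < P.card)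
  have hrk : (r : ℝ) ≤ P.card := by exact_mod_cast hr ▸ hk
  have hx0 : (0 : ℝ) < r / P.card := div_pos hr0 hk0
  obtain ⟨l, hl⟩ : ∃ l : ℝ, l ^ 2 = r / P.card := ⟨√(r / P.card), Real.sq_sqrt hx0.le⟩
  have hl1 : |l| ≤ 1 := by
    rw [← sq_le_one_iff_abs_le_one, hl]
    exact (div_le_one hk0).2 hrk
  have hl2 : l ^ 2 * P.card = r := by rw [hl]; field_simp
  have b1 := seg_exp P g hP hb hg h0 hl1
  have b2 := seg_exp P g hP hb hg h0 (l := -l) (by rwa [abs_neg])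
  rw [neg_sq] at b2
  rw [hl2] at b1 b2
  have pt : ∀ S : ℝ, (r / P.card) ^ m * S ^ (2 * m) ≤
      (r : ℝ) ^ r * (Real.exp (l * S) + Real.exp (-l * S)) := by
    intro S
    have c1 : (r / P.card) ^ m * S ^ (2 * m) = |l * S| ^ r := by
      rw [← hl, hr, (even_two_mul m).pow_abs, mul_pow, pow_mul l]
    have c2 := Real.pow_div_factorial_le_exp _ (abs_nonneg (l * S)) r
    have c3 : (0 : ℝ) < r.factorial := by exact_mod_cast r.factorial_pos
    rw [div_le_iff₀ c3] at c2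
    have c4 : (r.factorial : ℝ) ≤ (r : ℝ) ^ r := by exact_mod_cast Nat.factorial_le_pow r
    have c5 : Real.exp |l * S| ≤ Real.exp (l * S) + Real.exp (-l * S) := by
      have d1 := Real.exp_pos (l * S)
      have d2 := Real.exp_pos (-l * S)
      rcases abs_cases (l * S) with h | h
      · rw [h.1]; linarith
      · rw [h.1, ← neg_mul]; linarith
    rw [c1, mul_comm ((r : ℝ) ^ r)]
    exact c2.trans (mul_le_mul c5 c4 c3.le (by positivity))
  have b3 := sum_le_sum (s := range (∏ p ∈ P, p)) fun a _ => pt (∑ p ∈ P, g p a)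
  rw [← mul_sum, ← mul_sum, sum_add_distrib] at b3
  have hQ : (0 : ℝ) ≤ (∏ p ∈ P, p : ℕ) := Nat.cast_nonneg _
  generalize ((∏ p ∈ P, p : ℕ) : ℝ) = Q at *
  have b4 : (r : ℝ) ^ r * Real.exp r ≤ (r / P.card) ^ m * (8 * r * P.card : ℝ) ^ m := by
    have d1 : Real.exp r = (Real.exp 1 ^ 2) ^ m := by
      rw [← pow_mul, ← hr, Real.exp_one_pow]
    have d2 : (r : ℝ) ^ r = ((r : ℝ) ^ 2) ^ m := by rw [← pow_mul, ← hr]
    rw [d1, d2, ← mul_pow _ _ m, ← mul_pow _ _ m]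
    have d0 : (0 : ℝ) ≤ (r : ℝ) ^ 2 * Real.exp 1 ^ 2 := by positivity
    refine pow_le_pow_left₀ d0 ?_ m
    have d3 : (r : ℝ) / P.card * (8 * r * P.card) = r ^ 2 * 8 := by field_simp
    have d4 := Real.exp_one_lt_d9
    have d5 := Real.exp_pos 1
    rw [d3]
    exact mul_le_mul_of_nonneg_left (by nlinarith) (by positivity)
  rw [← hr]
  refine le_of_mul_le_mul_left ?_ (pow_pos hx0 m)
  rw [hr] at b3 ⊢
  refine b3.trans ?_
  rw [← hr]
  have b5 := mul_le_mul_of_nonneg_left (add_le_add b1 b2) (by positivity : (0 : ℝ) ≤ (r : ℝ) ^ r)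
  have b6 := mul_le_mul_of_nonneg_left b4 hQ
  nlinarith

theorem seg_stmt : SegStmt := by
  classical
  intro P M A r g hP hr hk hb hg h0
  obtain ⟨m, hm⟩ := hr
  rw [← two_mul] at hm
  subst hm
  rcases Nat.eq_zero_or_pos m with rfl | hm
  · simp only [mul_zero, pow_zero, sum_const, card_range, nsmul_eq_mul, Nat.zero_div]
    have : (0 : ℝ) ≤ A := Nat.cast_nonneg A
    linarith
  have hP' : ∀ p ∈ P, p.Prime := fun p hp => (hP p hp).1
  have hM : 1 ≤ M := by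
    obtain ⟨p, hp⟩ := card_pos.1 (by omega : 0 < P.card)
    exact (hP p hp).1.pos.trans_le (hP p hp).2
  have hQ : 0 < ∏ p ∈ P, p := prod_pos fun p hp => (hP' p hp).pos
  have hQ' : (0 : ℝ) < (∏ p ∈ P, p : ℕ) := by exact_mod_cast hQ
  have mom := seg_moment P m g hP' hm hk hb hg h0
  rw [Nat.mul_div_cancel_left m (by norm_num : 0 < 2)]
  rw [mul_comm ((∏ p ∈ P, p : ℕ) : ℝ), ← div_le_iff₀ hQ'] at mom
  refine le_trans ?_ (add_le_add_left (mul_le_mul_of_nonneg_left mom (Nat.cast_nonneg A)) _)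
  generalize 2 * m = r
  simp only [sum_pow']
  rw [sum_comm, sum_comm (s := range (∏ p ∈ P, p)), sum_div, mul_sum]
  have hc : (2 * (P.card * M : ℝ) ^ r) =
      ∑ t ∈ Fintype.piFinset fun _ : Fin r => P, 2 * (M : ℝ) ^ r := by
    rw [sum_const, Fintype.card_piFinset, prod_const, card_univ, Fintype.card_fin, nsmul_eq_mul]
    push_cast
    ring
  rw [hc, ← sum_add_distrib]
  refine sum_le_sum fun t ht => ?_
  have ht' : ∀ i, t i ∈ P := Fintype.mem_piFinset.1 ht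
  have hs : univ.image t ⊆ P := fun p hp => by
    obtain ⟨i, -, rfl⟩ := mem_image.1 hp
    exact ht' i
  have h1 := seg_approx (f := fun a => ∏ i, g (t i) a) (q := ∏ p ∈ univ.image t, p)
    (fun a => prod_congr rfl fun i _ => seg_per_dvd (hg _ (ht' i))
      (dvd_prod_of_mem (fun p => p) (mem_image_of_mem t (mem_univ i))) a)
    (fun a => by
      rw [abs_prod]
      exact prod_le_one (fun i _ => abs_nonneg _) fun i _ => hb _ (ht' i) a)
    hQ (prod_dvd_prod_of_subset _ _ _ hs) A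
  refine h1.trans (add_le_add_right ?_ _)
  have h2 : ∏ p ∈ univ.image t, p ≤ M ^ r :=
    (prod_le_pow_card _ _ M fun p hp => (hP p (hs hp)).2).trans
      (Nat.pow_le_pow_right hM (card_image_le.trans (by simp)))
  have h3 : ((∏ p ∈ univ.image t, p : ℕ) : ℝ) ≤ (M : ℝ) ^ r := by exact_mod_cast h2
  linarith

end Vale.Agent.P015
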