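import Vale.Agent.P015.Basic

/-! # P015: telescoping, one block, initial state -/

namespace Vale.Agent.P015

open Finset

lemma tele_wl_map {γ : Type} (ν : FP ℕ) (B : ℕ → FP γ) {m n : ℕ} (e : Fin m → Fin n)
    (he : Function.Injective e) :
    ((wl ν B n).map fun ω => (ω.1, ω.2 ∘ e)) = wl ν B m := by
  refine FP.ext_E fun f => ?_
  simp only [wl, FP.E_map, FP.E_joint]
  congr 1
  funext σ
  rw [← FP.iid_map_comp (B σ) e he, FP.E_map]

theorem tele_stmt : TeleStmt := by
  intro γ δ β ν B F Y m r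
  have h1 := (wl ν B (r * m)).H_le_add_Hc (fun ω i => F ω.1 (ω.2 i)) fun ω => Y ω.1
  have h2 : ((wl ν B (r * m)).H fun ω => Y ω.1) = ν.H Y := FP.H_joint_fst _ _ _
  have h3 := (wl ν B (r * m)).Hc_sum_le (univ : Finset (Fin r))
    (fun q ω (i : Fin m) => F ω.1 (ω.2 (finProdFinEquiv (q, i)))) (fun ω => Y ω.1)
    (fun ω i => F ω.1 (ω.2 i)) (fun a a' h _ => by
      funext i
      obtain ⟨⟨q, j⟩, rfl⟩ := finProdFinEquiv.surjective i
      exact congrFun (h q (mem_univ q)) j)
  have h4 : ∀ q : Fin r, (wl ν B (r * m)).Hc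
      (fun ω (i : Fin m) => F ω.1 (ω.2 (finProdFinEquiv (q, i)))) (fun ω => Y ω.1) =
      (wl ν B m).Hc (fun ω i => F ω.1 (ω.2 i)) fun ω => Y ω.1 := by
    intro q
    rw [← tele_wl_map ν B (fun i : Fin m => (finProdFinEquiv (q, i) : Fin (r * m)))
      (fun i j h => (Prod.mk.inj (finProdFinEquiv.injective h)).2), FP.Hc_map]
    rfl
  simp only [h4, sum_const, card_univ, Fintype.card_fin, nsmul_eq_mul] at h3
  linarith

theorem one_stmt : OneStmt := by
  intro D K x κ tm g J C env hg hK htm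
  set ν := top κ tm (24 * g) with hν
  set Λ := ν.joint fun σ => (chain κ (3 * g) (21 * g) σ).joint C with hΛ
  have e24 : 3 * g + 21 * g = 24 * g := by ring
  have h1 : (wl ν (blk κ g C) 1).H (wd x) ≤
      (wl ν (blk κ g C) 1).H fun ω => wd1 x (ω.1, ω.2 0) := by
    refine FP.H_mono _ fun a a' h => ?_
    funext i
    rw [Subsingleton.elim i 0]
    exact h
  have h2 : ((wl ν (blk κ g C) 1).map fun ω => (ω.1, ω.2 0)) = Λ.map fun ω => (ω.1, ω.2.2) := by
    refine FP.ext_E fun f => ?_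
    simp only [hΛ, wl, blk, FP.E_map, FP.E_joint]
    congr 1
    funext σ
    rw [FP.E_iid_eval _ 0 fun u => f (σ, u), FP.E_bind]
  have h3 : ((wl ν (blk κ g C) 1).H fun ω => wd1 x (ω.1, ω.2 0)) =
      Λ.H fun ω => wd1 x (ω.1, ω.2.2) := by
    rw [← FP.H_map (wl ν (blk κ g C) 1) (fun ω => (ω.1, ω.2 0)) (wd1 x), h2, FP.H_map]
  have h4 : (Λ.H fun ω => wd1 x (ω.1, ω.2.2)) ≤
      Λ.H fun ω => (x ω.2.1 - x ω.1, wd1 x ω.2) := by
    refine FP.H_mono _ fun a a' h => ?_
    obtain ⟨ha, hb⟩ := Prod.mk.inj h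
    funext j
    have hc := congrFun hb j
    simp only [wd1] at hc ⊢
    linear_combination ha + hc
  have h5 := Λ.H_pair_le (fun ω => x ω.2.1 - x ω.1) fun ω => wd1 x ω.2
  have h6 : (Λ.H fun ω => wd1 x ω.2) = ((top κ tm (3 * g)).joint C).H (wd1 x) := by
    rw [hΛ, FP.H_joint_snd, ← top_bind (κ := κ) (tm := tm) (t := 3 * g) (n := 21 * g) (by omega),
      e24]
    congr 1
    exact FP.ext_E fun f => by simp only [FP.E_bind, FP.E_joint]; rfl
  have h7 : (Λ.H fun ω => x ω.2.1 - x ω.1) ≤ 36 * (lv (24 * g) : ℝ) := by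
    have hl := lt_lv (24 * g)
    have hD := env.DK
    refine (Λ.H_le_log_card _ (box (D * 2 ^ (17 * lv (24 * g)))) ?_).trans
      (log_card_disp_le (by omega) (by omega))
    refine FP.ae_joint (FP.ae_of_all _ fun σ => FP.ae_joint
      ((env.kern.chain_rng (21 * g) (3 * g) σ).mono fun τ hτ => FP.ae_of_all _ fun u => ?_))
    rw [e24] at hτ
    obtain ⟨ha, hb⟩ := hτ
    exact env.path.disp_mem_box ((Nat.le_add_right _ _).trans hb)
      (ha.trans (Nat.le_add_right _ _))
  linarith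

theorem init_stmt : InitStmt := by
  intro D x κ tm g hx
  obtain ⟨n, hn⟩ : ∃ n, n = 2 ^ (896 * g) := ⟨_, rfl⟩
  have hn0 : 0 < n := hn ▸ Nat.two_pow_pos _
  refine ⟨Fin n, inferInstance, inferInstance, ⟨⟨0, hn0⟩⟩,
    fun τ => FP.pure fun j => τ + j, ⟨?_, ?_, ?_, ?_⟩, ?_⟩
  · rw [Fintype.card_fin, hn]
  · rw [Fintype.card_fin, hn]
    exact Nat.pow_le_pow_right (by norm_num) (by omega)
  · intro τ
    refine FP.ae_pure fun j => ?_
    have h1 := lt_lv (3 * g)
    have h2 : 2 ^ (896 * g) ≤ 2 ^ (17 * lv (3 * g)) :=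
      Nat.pow_le_pow_right (by norm_num) (by omega)
    have h3 := j.2
    omega
  · intro τ
    rw [FP.E_pure, zero_mul]
    have : (ncoll fun j : Fin n => τ + j) = 0 := by
      rw [ncoll, card_eq_zero, filter_eq_empty_iff]
      intro q hq h
      exact (mem_offDiag.mp hq).2.2 (Fin.ext (by omega))
    rw [this, Nat.cast_zero]
  · have h1 : ((top κ tm (3 * g)).joint fun τ => FP.pure fun j : Fin n => τ + j) =
        (top κ tm (3 * g)).map fun τ => (τ, fun j : Fin n => τ + j) :=
      FP.ext_E fun f => by simp only [FP.E_map, FP.E_joint, FP.E_pure]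
    rw [h1, FP.H_map]
    have h2 := (top κ tm (3 * g)).H_sum_le (range n) (fun i τ => x (τ + i + 1) - x (τ + i))
      (fun τ => wd1 x (τ, fun j : Fin n => τ + j)) (fun a a' h => by
        have h3 : ∀ k ≤ n, x (a + k) - x a = x (a' + k) - x a' := by
          intro k hk
          induction k with
          | zero => simp
          | succ k ih =>
            have h4 := ih (by omega)
            have h5 := h k (mem_range.mpr (by omega))
            rw [← add_assoc, ← add_assoc]
            linear_combination h4 + h5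
        funext j
        exact h3 j j.2.le)
    refine h2.trans ?_
    have h6 : ∀ i ∈ range n, ((top κ tm (3 * g)).H fun τ => x (τ + i + 1) - x (τ + i)) ≤
        4 * (D : ℝ) := fun i _ =>
      (FP.H_le_log_card _ _ (box D) (FP.ae_of_all _ fun τ =>
        mem_box_of_norm_le (hx.2 (τ + i)))).trans (log_card_box_le D)
    have h7 := sum_le_card_nsmul _ _ _ h6
    rw [card_range, nsmul_eq_mul] at h7
    rwa [Fintype.card_fin]

end Vale.Agent.P015
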