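import Vale.Agent.P015.Basic

/-! # P015: few residue classes stay uncovered -/

namespace Vale.Agent.P015

open Finset

lemma unc_pick_ae {J α : Type} [Fintype J] [Inhabited J] {β : FP (J → α)} {Q : α → Prop}
    (h : β.Ae fun u => ∀ j, Q (u j)) : (pick β).Ae Q :=
  FP.ae_bind (h.mono fun _ hu => FP.ae_map.mpr (FP.ae_of_all _ hu))

lemma unc_three_le {g : ℕ} (hg : 1 ≤ g) : 3 ≤ lv (3 * g) := by
  have := lt_lv (3 * g); omega

lemma unc_exp {g s p N : ℕ} (hs : 2048 * g ≤ s) (hp0 : 0 < p) (hp : p < 2 ^ (s + 1))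
    (hN : 2 ^ s * s ≤ N) : Real.exp (-(N : ℝ) / (8 * p)) ≤ 1 / ((2 : ℝ) ^ g) ^ 128 := by
  have h1 : 128 * g * (8 * p) ≤ N := by
    rw [pow_succ] at hp
    generalize 2 ^ s = M at *
    nlinarith
  have h2 : ((128 * g : ℕ) : ℝ) * (8 * p) ≤ N := by exact_mod_cast h1
  have hp' : (0 : ℝ) < p := by exact_mod_cast hp0
  have h3 : -(N : ℝ) / (8 * p) ≤ -((128 * g : ℕ) : ℝ) := by
    rw [div_le_iff₀ (by positivity)]; linarith
  refine (Real.exp_le_exp.mpr h3).trans ?_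
  rw [Real.exp_neg, one_div, ← pow_mul, mul_comm g 128]
  refine inv_anti₀ (by positivity) ?_
  rw [← mul_one ((128 * g : ℕ) : ℝ), Real.exp_nat_mul]
  refine pow_le_pow_left₀ (by norm_num) ?_ _
  linarith [Real.add_one_le_exp (1 : ℝ)]

lemma unc_kl (hB : ErrBStmt) {D K : ℕ} {x : ℕ → GaussianInt} {κ : ℕ → ℕ → FP ℕ} {ι : ℕ → ℤ}
    {g s : ℕ} {ε : ℝ} {J : Type} [Fintype J] [DecidableEq J] [Inhabited J]
    {C : ℕ → FP (J → ℕ)} {P : Finset ℕ} (env : Env D K x κ) (hC : Col g ε C) (hg : 2 ≤ g)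
    (hK : K ≤ g) (hs1 : 2048 * g ≤ s) (hs2 : s < 4096 * g) (hP : Pool ι s P)
    (hk : 2 ^ (1792 * g) ≤ P.card) (σ : ℕ) :
    ∑ p ∈ P, (Real.log p - (pick (blk κ g C σ)).H fun a => (-lin ι p (x a - x σ)) % p)
      ≤ P.card * s / 2 ^ (21 * g) + P.card / 2 ^ (100 * g) := by
  have hl := lt_lv (3 * g)
  have h3 := unc_three_le (g := g) (by omega)
  have hD : D ≤ lv (3 * g) := by have := env.DK; omega
  have h := env.halv ι P (fun p => {p}) ((P.card : ℝ) / 2 ^ (100 * g)) (21 * g) (3 * g)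
    (by positivity) (by omega)
    (fun t' h1 h2 => by
      have h4 := lv_lt_le h1
      have h5 : lv t' ≤ 2 ^ (768 * g) := by
        have h6 := lv_mono (t := t') (t' := 24 * g) (by omega)
        rw [lv_def (24 * g), ← mul_assoc] at h6
        exact h6
      exact hB ι g s K (lv t') P (by omega) env.K1 (by omega) hs2 hP hk (by omega) (by omega) h5)
    (FP.pure σ) GaussianInt (fun τ => (pick (C τ)).map fun a => x a - x τ)
    (box (D * 2 ^ (17 * lv (3 * g))))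
    ((log_card_disp_le h3 hD).trans (by
      have : (0 : ℝ) ≤ lv (3 * g) := Nat.cast_nonneg _
      linarith))
    (fun τ => FP.ae_map.mpr (unc_pick_ae ((hC.rng τ).mono fun u hu j =>
      env.path.disp_mem_box (hu j).2 ((hu j).1.trans (Nat.le_add_right _ _)))))
  rw [FP.pure_bind] at h
  set ν := chain κ (3 * g) (21 * g) σ with hν
  set Λ := ν.joint fun τ => pick (C τ) with hΛ
  have h1 : (ν.joint fun τ => (pick (C τ)).map fun a => x a - x τ)
      = Λ.map fun ω => (ω.1, x ω.2 - x ω.1) :=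
    FP.ext_E fun f => by simp only [hΛ, FP.E_map, FP.E_joint]
  have h2 : pick (blk κ g C σ) = Λ.map Prod.snd := by
    rw [hΛ, FP.joint_map_snd, blk, pick, FP.bind_assoc]
    rfl
  have h4 : ∑ p ∈ P, lg {p} ≤ (P.card : ℝ) * s := by
    simp only [lg_singleton]
    exact hP.lg_le (by omega)
  refine le_trans (sum_le_sum fun p hp => ?_) (h.trans (add_le_add ?_ le_rfl))
  · rw [Df, lg_singleton, h1, h2, FP.Hc_map, FP.H_map]
    refine sub_le_sub_left (le_trans ?_ (Λ.Hc_le_H _ fun ω => x ω.2 - x ω.1)) _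
    refine Λ.Hc_mono_left _ fun a a' h5 h6 => cls_eq_iff_dvd.mpr fun q hq => ?_
    rw [mem_singleton.mp hq]
    have h7 := Int.dvd_of_emod_eq_zero (Int.emod_eq_emod_iff_emod_sub_eq_zero.mp h5)
    have h8 := congrArg (lin ι p) h6
    simp only [lin_sub] at h7 h8
    have h9 : lin ι p (x a.1) - lin ι p (x a'.1)
        = -(-(lin ι p (x a.2) - lin ι p (x σ)) - -(lin ι p (x a'.2) - lin ι p (x σ))) := by
      linarith
    rw [h9]
    exact h7.neg_right
  · exact div_le_div_of_nonneg_right h4 (by positivity)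

lemma unc_coll_pt {D R L : ℕ} {x : ℕ → GaussianInt} {ι : ℕ → ℤ} {s : ℕ} {J : Type} [Fintype J]
    [DecidableEq J] {P : Finset ℕ} (hx : IsPath D x) (hP : Pool ι s P)
    (hR : ∀ z ∈ box (D * R), z.norm ≤ 2 ^ L) (σ τ : ℕ) (u : J → ℕ)
    (hu : ∀ j, τ ≤ u j ∧ u j ≤ τ + R) :
    ∑ p ∈ P, ncoll (fun j => (-lin ι p (x (u j) - x σ)) % p)
      ≤ P.card * ncoll u + Fintype.card J * Fintype.card J * L := by
  have h1 : ∀ p ∈ P, ncoll (fun j => (-lin ι p (x (u j) - x σ)) % p) ≤ ncoll u +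
      ∑ q : J × J, if u q.1 ≠ u q.2 ∧ (p : ℤ) ∣ (x (u q.1) - x (u q.2)).norm then 1 else 0 := by
    intro p hp
    rw [← card_filter, ncoll, ncoll]
    refine le_trans (card_le_card fun q hq => ?_) (card_union_le _ _)
    obtain ⟨hq1, hq2⟩ := mem_filter.mp hq
    by_cases h : u q.1 = u q.2
    · exact mem_union_left _ (mem_filter.mpr ⟨hq1, h⟩)
    · refine mem_union_right _ (mem_filter.mpr ⟨mem_univ _, h,
        dvd_norm_of_dvd_lin (hP p hp).2.1 ?_⟩)
      have h7 := Int.dvd_of_emod_eq_zero (Int.emod_eq_emod_iff_emod_sub_eq_zero.mp hq2)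
      have h9 : lin ι p (x (u q.1) - x (u q.2))
          = -(-lin ι p (x (u q.1) - x σ) - -lin ι p (x (u q.2) - x σ)) := by
        simp only [lin_sub]; ring
      rw [h9]
      exact h7.neg_right
  refine (sum_le_sum h1).trans ?_
  rw [sum_add_distrib, sum_const, smul_eq_mul, sum_comm]
  refine Nat.add_le_add_left ?_ _
  rw [← Fintype.card_prod, ← smul_eq_mul, ← card_univ]
  refine sum_le_card_nsmul _ _ _ fun q _ => ?_
  rw [← card_filter]
  by_cases h : u q.1 = u q.2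
  · simp [h]
  · have h2 := hu q.1
    have h3 := hu q.2
    exact card_primes_le (N := (x (u q.1) - x (u q.2)).norm)
      (fun p hp => ⟨(hP p (mem_filter.mp hp).1).1, (mem_filter.mp hp).2.2⟩)
      (norm_pos' (sub_ne_zero.mpr fun h' => h (hx.1 h')))
      (hR _ (hx.disp_mem_box (by omega) (by omega)))

lemma unc_coll {D K : ℕ} {x : ℕ → GaussianInt} {κ : ℕ → ℕ → FP ℕ} {ι : ℕ → ℤ}
    {g s : ℕ} {ε : ℝ} {J : Type} [Fintype J] [DecidableEq J]
    {C : ℕ → FP (J → ℕ)} {P : Finset ℕ} (env : Env D K x κ) (hC : Col g ε C) (hg : 2 ≤ g)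
    (hK : K ≤ g) (hP : Pool ι s P) (σ : ℕ) :
    ∑ p ∈ P, ((blk κ g C σ).E fun u => (ncoll fun j => (-lin ι p (x (u j) - x σ)) % p : ℝ))
      ≤ P.card * (ε * Fintype.card J)
        + Fintype.card J * Fintype.card J * (36 * lv (3 * g) : ℝ) := by
  have hl := lt_lv (3 * g)
  have h3 := unc_three_le (g := g) (by omega)
  have hD : D ≤ lv (3 * g) := by have := env.DK; omega
  rw [← FP.E_sum, blk, FP.E_bind]
  refine FP.E_le_of_ae _ (FP.ae_of_all _ fun τ => ?_)
  calc _ ≤ (C τ).E fun u => (P.card : ℝ) * (ncoll u : ℝ)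
          + Fintype.card J * Fintype.card J * (36 * lv (3 * g) : ℝ) := by
        refine FP.E_mono_ae _ ((hC.rng τ).mono fun u hu => ?_)
        exact_mod_cast unc_coll_pt env.path hP (fun z hz => norm_disp_le h3 hD hz) σ τ u hu
    _ ≤ _ := by
        rw [FP.E_add, FP.E_const, FP.E_mul_left]
        exact add_le_add (mul_le_mul_of_nonneg_left (hC.col τ) (Nat.cast_nonneg _)) le_rfl

lemma unc_term {y c : ℝ} (hy : 4 ≤ y) {a b : ℕ} (hc : 5 * c ≤ y ^ a) (h : a + 8 ≤ b) :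
    c / y ^ b ≤ 1 / y ^ 8 / 5 := by
  have hy0 : 0 < y := by linarith
  rw [div_div, div_le_div_iff₀ (by positivity) (by positivity), one_mul]
  calc c * (y ^ 8 * 5) = 5 * c * y ^ 8 := by ring
    _ ≤ y ^ a * y ^ 8 := mul_le_mul_of_nonneg_right hc (by positivity)
    _ = y ^ (a + 8) := (pow_add _ _ _).symm
    _ ≤ y ^ b := pow_le_pow_right₀ (by linarith) h

lemma unc_final {y k s n ε : ℝ} (hy : 4 ≤ y) (hk : y ^ 1792 ≤ k) (hs : s ≤ 4096 * y)
    (hn0 : 0 < n) (hn : n ≤ y ^ 900) (hε : ε ≤ 1 / y ^ 16) :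
    k * (1 / y ^ 128) + 4 * (k * s / y ^ 21 + k / y ^ 100)
      + 8 * (k * (ε * n) + n * n * (36 * y ^ 96)) / n ≤ k * (1 / y ^ 8) := by
  have hy0 : 0 < y := by linarith
  have hk0 : 0 < k := lt_of_lt_of_le (by positivity) hk
  have h4 : ∀ a : ℕ, (4 : ℝ) ^ a ≤ y ^ a := fun a => pow_le_pow_left₀ (by norm_num) hy a
  have h1 : 1 / y ^ 128 ≤ 1 / y ^ 8 / 5 :=
    unc_term hy (a := 2) (by have := h4 2; norm_num at this ⊢; linarith) (by norm_num)
  have h2 : 4 * s / y ^ 21 ≤ 1 / y ^ 8 / 5 := by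
    refine unc_term hy (a := 10) ?_ (by norm_num)
    have h5 := h4 9
    rw [pow_succ y 9]
    norm_num at h5
    nlinarith
  have h3 : 4 / y ^ 100 ≤ 1 / y ^ 8 / 5 :=
    unc_term hy (a := 3) (by have := h4 3; norm_num at this ⊢; linarith) (by norm_num)
  have h5 : 8 / y ^ 16 ≤ 1 / y ^ 8 / 5 :=
    unc_term hy (a := 3) (by have := h4 3; norm_num at this ⊢; linarith) (by norm_num)
  have h6 : 288 * y ^ 996 / y ^ 1792 ≤ 1 / y ^ 8 / 5 := by
    refine unc_term hy (a := 6 + 996) ?_ (by norm_num)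
    have h7 := h4 6
    have h8 : 0 < y ^ 996 := by positivity
    rw [pow_add]
    norm_num at h7
    nlinarith
  have h7 : 8 * (k * (ε * n) + n * n * (36 * y ^ 96)) / n = k * (8 * ε) + 288 * (n * y ^ 96) := by
    field_simp
    ring
  have h8 : 8 * ε ≤ 1 / y ^ 8 / 5 := by
    refine le_trans ?_ h5
    rw [div_eq_mul_one_div]
    linarith
  have h9 : 288 * (n * y ^ 96) ≤ k * (1 / y ^ 8 / 5) := by
    have h10 : n * y ^ 96 ≤ y ^ 996 := by
      rw [show 996 = 900 + 96 from rfl, pow_add]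
      exact mul_le_mul_of_nonneg_right hn (by positivity)
    have h11 : 0 < y ^ 1792 := by positivity
    rw [div_le_iff₀ h11] at h6
    have h12 := mul_le_mul_of_nonneg_left hk (by positivity : 0 ≤ 1 / y ^ 8 / 5)
    linarith
  have h10 : 4 * (k * s / y ^ 21 + k / y ^ 100) = k * (4 * s / y ^ 21) + k * (4 / y ^ 100) := by
    ring
  rw [h7, h10]
  have h11 := mul_le_mul_of_nonneg_left h1 hk0.le
  have h12 := mul_le_mul_of_nonneg_left h2 hk0.le
  have h13 := mul_le_mul_of_nonneg_left h3 hk0.le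
  have h14 := mul_le_mul_of_nonneg_left h8 hk0.le
  linarith

theorem unc_of (hB : ErrBStmt) (hC : CoverStmt) : UncStmt := by
  intro D K x κ ι g s m ε J _ _ _ C P env hcol hg hK hε hs1 hs2 hP hk hm σ
  have hn0 : (0 : ℝ) < Fintype.card J := by exact_mod_cast Fintype.card_pos
  have h1 : ∀ p ∈ P,
      ((FP.iid (Fin m) (blk κ g C σ)).E fun u => (unc ι p (wd x (σ, u)) : ℝ)) / p
      ≤ 1 / ((2 : ℝ) ^ g) ^ 128
        + 4 * (Real.log p - (pick (blk κ g C σ)).H fun a => (-lin ι p (x a - x σ)) % p)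
        + 8 * ((blk κ g C σ).E fun u => (ncoll fun j => (-lin ι p (x (u j) - x σ)) % p : ℝ))
          / Fintype.card J := by
    intro p hp
    have hp0 := hP.pos p hp
    have hp' : (0 : ℝ) < p := by exact_mod_cast hp0
    have h2 := hC J (blk κ g C σ) (fun a => (-lin ι p (x a - x σ)) % p) (Ico (0 : ℤ) p) m
      fun a => emod_mem_Ico hp0 _
    rw [card_Ico_int] at h2
    have h3 := unc_exp hs1 hp0 (hP p hp).2.2.2 hm
    rw [Nat.cast_mul] at h3
    rw [div_le_iff₀' hp']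
    refine le_trans h2 (mul_le_mul_of_nonneg_left ?_ hp'.le)
    linarith
  refine (sum_le_sum h1).trans ?_
  rw [sum_add_distrib, sum_add_distrib, sum_const, nsmul_eq_mul, ← mul_sum, ← sum_div, ← mul_sum]
  have h2 := unc_kl hB env hcol hg hK hs1 hs2 hP hk σ
  have h3 := unc_coll env hcol hg hK hP σ
  have hpow : ∀ a : ℕ, (2 : ℝ) ^ (a * g) = (2 ^ g) ^ a := fun a => by rw [← pow_mul, mul_comm]
  have hy : (4 : ℝ) ≤ 2 ^ g := by
    have := pow_le_pow_right₀ (by norm_num : (1 : ℝ) ≤ 2) hg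
    norm_num at this ⊢; exact this
  have hgy : (g : ℝ) ≤ 2 ^ g := by exact_mod_cast (Nat.lt_two_pow_self (n := g)).le
  have hky : ((2 : ℝ) ^ g) ^ 1792 ≤ P.card := by rw [← hpow]; exact_mod_cast hk
  have hny : (Fintype.card J : ℝ) ≤ ((2 : ℝ) ^ g) ^ 900 := by rw [← hpow]; exact_mod_cast hcol.hi
  have hsy : (s : ℝ) ≤ 4096 * 2 ^ g := by
    have : (s : ℝ) ≤ 4096 * g := by exact_mod_cast hs2.le
    linarith
  have hlv : (lv (3 * g) : ℝ) = ((2 : ℝ) ^ g) ^ 96 := by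
    rw [← hpow, lv_def, ← mul_assoc]; push_cast; rfl
  rw [hpow] at hε ⊢
  rw [hpow, hpow] at h2
  rw [hlv] at h3
  refine le_trans ?_ (unc_final hy hky hsy hn0 hny hε)
  refine add_le_add (add_le_add le_rfl (by linarith)) ?_
  exact div_le_div_of_nonneg_right (by linarith) hn0.le

end Vale.Agent.P015
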