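import Vale.Agent.P015.Prime
import Vale.Agent.P015.Ring
import Vale.Agent.P015.Geom
import Vale.Agent.P015.Halv
import Vale.Agent.P015.Seg
import Vale.Agent.P015.KL
import Vale.Agent.P015.Cover
import Vale.Agent.P015.ErrA
import Vale.Agent.P015.ErrB
import Vale.Agent.P015.Tele
import Vale.Agent.P015.Unc
import Vale.Agent.P015.Hc
import Vale.Agent.P015.InfoA
import Vale.Agent.P015.Scale
import Vale.Agent.P015.New
import Vale.Agent.P015.Core
import Vale.Agent.P015.Final

/-! # P015: assembly -/

namespace Vale.Agent.P015

theorem core_stmt : CoreStmt :=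
  core_of prime_stmt (halv_of_geom (geom_of_ring ring_stmt))
    (scale_of tele_stmt one_stmt (info_of (unc_of (errB_of seg_stmt kl_stmt) cover_stmt) hc_stmt
      (infoA_of errA_stmt))) new_stmt init_stmt

theorem final_stmt : FinalStmt := final_of core_stmt

end Vale.Agent.P015
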