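import Vale.Agent.P015.Basic
import Vale.Agent.Lib.NT.PNT

/-! # P015: split primes in dyadic ranges -/

namespace Vale.Agent.P015

open Finset Filter Topology

noncomputable def primeTh (N : ℕ) : ℝ :=
  ∑ p ∈ (Finset.Icc 1 N).filter (fun p : ℕ => p.Prime ∧ (p : ZMod 4) = 1), Real.log p

theorem primeTh_tendsto :
    Tendsto (fun s : ℕ => primeTh (2 ^ s) / 2 ^ s) atTop (𝓝 (1 / 2)) := by
  have h := Vale.Agent.Lib.NT.theta_AP (q := 4) (a := 1) isUnit_one
  have h2 : Tendsto (fun s : ℕ => (2 : ℝ) ^ s) atTop atTop :=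
    tendsto_pow_atTop_atTop_of_one_lt (by norm_num)
  have h3 := h.comp h2
  have e : ((Nat.totient 4 : ℕ) : ℝ)⁻¹ = 1 / 2 := by
    have : Nat.totient 4 = 2 := by decide
    rw [this]; norm_num
  rw [e] at h3
  refine h3.congr (fun s => ?_)
  have : ⌊(2 : ℝ) ^ s⌋₊ = 2 ^ s := by
    rw [show (2 : ℝ) ^ s = ((2 ^ s : ℕ) : ℝ) by push_cast; rfl, Nat.floor_natCast]
  simp only [Function.comp, this, primeTh]

theorem primeTh_step (s : ℕ) (hs : 1 ≤ s) :
    primeTh (2 ^ (s + 1)) ≤ primeTh (2 ^ s) +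
      (((Ico (2 ^ s) (2 ^ (s + 1))).filter fun p : ℕ => p.Prime ∧ p % 4 = 1).card : ℝ) *
        (2 * s) := by
  classical
  set T := (Ico (2 ^ s) (2 ^ (s + 1))).filter fun p : ℕ => p.Prime ∧ p % 4 = 1 with hT
  have hsub : (Finset.Icc 1 (2 ^ (s + 1))).filter (fun p : ℕ => p.Prime ∧ (p : ZMod 4) = 1) ⊆
      (Finset.Icc 1 (2 ^ s)).filter (fun p : ℕ => p.Prime ∧ (p : ZMod 4) = 1) ∪ T := by
    intro p hp
    simp only [mem_filter, mem_Icc] at hp
    obtain ⟨⟨h1, h2⟩, h3, h4⟩ := hp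
    have h5 : p % 4 = 1 := by
      have := (ZMod.natCast_eq_natCast_iff' p 1 4).1 (by simpa using h4)
      simpa using this
    rw [mem_union]
    by_cases h6 : p ≤ 2 ^ s
    · exact Or.inl (mem_filter.2 ⟨mem_Icc.2 ⟨h1, h6⟩, h3, h4⟩)
    · refine Or.inr (mem_filter.2 ⟨mem_Ico.2 ⟨by omega, lt_of_le_of_ne h2 ?_⟩, h3, h5⟩)
      intro e
      rw [pow_succ] at e
      omega
  have hT2 : ∑ p ∈ T, Real.log p ≤ T.card * (2 * s : ℝ) := by
    rw [← nsmul_eq_mul]
    refine sum_le_card_nsmul _ _ _ (fun p hp => ?_)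
    simp only [hT, mem_filter, mem_Ico] at hp
    have h1 : (p : ℝ) ≤ 2 ^ (s + 1) := by exact_mod_cast hp.1.2.le
    have h0 : (0 : ℝ) < p := by exact_mod_cast hp.2.1.pos
    have h2 : Real.log p ≤ (s + 1 : ℕ) * Real.log 2 := by
      rw [← Real.log_pow]; exact Real.log_le_log h0 h1
    have h3 : Real.log 2 ≤ 1 := by
      have := Real.log_two_lt_d9; linarith
    have h4 : (1 : ℝ) ≤ s := by exact_mod_cast hs
    push_cast at h2
    nlinarith
  have hnn : ∀ p : ℕ, 0 ≤ Real.log p := fun p => Real.log_natCast_nonneg p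
  calc primeTh (2 ^ (s + 1))
      ≤ ∑ p ∈ (Finset.Icc 1 (2 ^ s)).filter (fun p : ℕ => p.Prime ∧ (p : ZMod 4) = 1) ∪ T,
          Real.log p := sum_le_sum_of_subset_of_nonneg hsub (fun p _ _ => hnn p)
    _ ≤ primeTh (2 ^ s) + ∑ p ∈ T, Real.log p := by
        rw [primeTh, ← sum_union_inter]
        exact le_add_of_nonneg_right (sum_nonneg fun p _ => hnn p)
    _ ≤ _ := by linarith

theorem prime_stmt : PrimeStmt := by
  have h1 := primeTh_tendsto.eventually (lt_mem_nhds (show (9 / 20 : ℝ) < 1 / 2 by norm_num))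
  have h2 := primeTh_tendsto.eventually (gt_mem_nhds (show (1 / 2 : ℝ) < 11 / 20 by norm_num))
  obtain ⟨s1, hs1⟩ := eventually_atTop.1 (h1.and h2)
  refine ⟨1 / 8, by norm_num, s1 + 1, fun s hs => ?_⟩
  have a := (hs1 (s + 1) (by omega)).1
  have b := (hs1 s (by omega)).2
  have c := primeTh_step s (by omega)
  have hp : (0 : ℝ) < 2 ^ s := by positivity
  have hp' : (0 : ℝ) < 2 ^ (s + 1) := by positivity
  have h4 : (1 : ℝ) ≤ s := by exact_mod_cast (show 1 ≤ s by omega)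
  rw [lt_div_iff₀ hp', pow_succ (2 : ℝ) s] at a
  rw [div_lt_iff₀ hp] at b
  rw [div_le_iff₀ (by linarith)]
  linarith

end Vale.Agent.P015
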