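import Vale.Agent.P015.Defs
import Vale.Agent.P015.Graph

/-! # P015: the statements of the steps of the proof -/

namespace Vale.Agent.P015

open Finset

/-- enough split primes in every dyadic range. -/
def PrimeStmt : Prop := ∃ c : ℝ, 0 < c ∧ ∃ s0 : ℕ, ∀ s : ℕ, s0 ≤ s →
  c * 2 ^ s / s ≤ (((Ico (2 ^ s) (2 ^ (s + 1))).filter fun p : ℕ => p.Prime ∧ p % 4 = 1).card : ℝ)

/-- approximate differences of a walk surject onto the quotient by the lattice it spans. -/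
def RingStmt : Prop := ∀ (D n : ℕ) (z : ℕ → GaussianInt),
  (∀ i, (z (i + 1) - z i).norm ≤ (D : ℤ) ^ 2) → ∀ a b c : ℕ, a ≤ n → b ≤ n → c ≤ n →
  ∃ Ω : Finset GaussianInt, |((z c - z a) * star (z b - z a)).im| ≤ (Ω.card : ℤ) ∧
    ∀ d ∈ Ω, ∃ i ≤ n, ∃ j ≤ n, (z i - z j - d).norm ≤ 8 * (D : ℤ) ^ 2

def GeomStmt : Prop := ∀ D : ℕ, ∃ K : ℕ, D ≤ K ∧ 1 ≤ K ∧ ∀ x, IsPath D x → ∀ l σ : ℕ, K ≤ l →
  ∃ (Ω : Finset GaussianInt) (v : GaussianInt) (s : Bool → GaussianInt → ℕ),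
    Ω.Nonempty ∧ v ≠ 0 ∧ v.norm ≤ 2 ^ (32 * l) ∧ (∀ β d, σ ≤ s β d ∧ s β d ≤ σ + 2 ^ (8 * l)) ∧
    (∀ d ∈ Ω, (x (s true d) - x (s false d) - d).norm ≤ K) ∧ Dom Ω v (2 ^ l) K

def HalvStmt : Prop := ∀ D : ℕ, ∃ K : ℕ, ∀ x, IsPath D x → ∃ κ, Env D K x κ

/-- moments of a sum of periodic functions with distinct prime periods. -/
def SegStmt : Prop := ∀ (P : Finset ℕ) (M A r : ℕ) (g : ℕ → ℕ → ℝ),
  (∀ p ∈ P, p.Prime ∧ p ≤ M) → Even r → r ≤ P.card → (∀ p ∈ P, ∀ a, |g p a| ≤ 1) →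
  (∀ p ∈ P, ∀ a, g p (a + p) = g p a) → (∀ p ∈ P, ∑ a ∈ range p, g p a = 0) →
  ∑ a ∈ range A, (∑ p ∈ P, g p a) ^ r
    ≤ A * (2 * (8 * r * P.card : ℝ) ^ (r / 2)) + 2 * (P.card * M : ℝ) ^ r

/-- conditional deficiency against total variation. -/
def KLStmt : Prop := ∀ (α β γ : Type) [DecidableEq β] (μ : FP α) (X : α → β) (Z : α → γ)
  (Cl : Finset β), (μ.Ae fun a => X a ∈ Cl) → ∃ U : γ → Finset β, (∀ c, U c ⊆ Cl) ∧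
    0 ≤ (μ.E fun a => (if X a ∈ U (Z a) then 1 else 0) - ((U (Z a)).card : ℝ) / Cl.card) ∧
    Real.log Cl.card - μ.Hc X Z ≤ (Real.log Cl.card + 1) *
      μ.E fun a => (if X a ∈ U (Z a) then 1 else 0) - ((U (Z a)).card : ℝ) / Cl.card

def ErrAStmt : Prop := ∀ (ι : ℕ → ℤ) (s j b K l : ℕ) (A : ℕ → Finset ℕ), 1 ≤ s → 1 ≤ j → 1 ≤ K →
  (∀ i < b, Pool ι s (A i) ∧ (A i).card = j) →
  (∀ i < b, ∀ i' < b, i ≠ i' → Disjoint (A i) (A i')) →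
  2 ^ 32 * K ≤ l → 2 * j * s ≤ l → 2 ^ 18 * l ≤ b * j * s →
  ErrHyp ι (range b) A K l ((b * j * s : ℝ) / 2 ^ 11)

def ErrBStmt : Prop := ∀ (ι : ℕ → ℤ) (g s K l : ℕ) (P : Finset ℕ), 1 ≤ g → 1 ≤ K → 1 ≤ s →
  s < 4096 * g → Pool ι s P → 2 ^ (1792 * g) ≤ P.card → 2 ^ 32 * K ≤ l → 12 * s ≤ l →
  l ≤ 2 ^ (768 * g) → ErrHyp ι P (fun p => {p}) K l ((P.card : ℝ) / 2 ^ (100 * g))

/-- coupon collector bound. -/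
def CoverStmt : Prop := ∀ (J : Type) [Fintype J] [DecidableEq J] [Inhabited J]
  (β : FP (J → ℕ)) (y : ℕ → ℤ) (Cl : Finset ℤ) (m : ℕ), (∀ a, y a ∈ Cl) →
  ((FP.iid (Fin m) β).E fun ω => ((Cl.filter fun c => ∀ i j, y (ω i j) ≠ c).card : ℝ)) ≤
    Cl.card * (Real.exp (-(m * Fintype.card J : ℝ) / (8 * Cl.card))
      + 4 * (Real.log Cl.card - (pick β).H y)
      + 8 * (β.E fun u => (ncoll fun j => y (u j) : ℝ)) / Fintype.card J)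

/-- telescoping (entropy decrement) inequality. -/
def TeleStmt : Prop := ∀ (γ δ β : Type) (ν : FP ℕ) (B : ℕ → FP γ) (F : ℕ → γ → δ) (Y : ℕ → β)
  (m r : ℕ), ((wl ν B (r * m)).H fun ω i => F ω.1 (ω.2 i)) ≤
    ν.H Y + r * (wl ν B m).Hc (fun ω i => F ω.1 (ω.2 i)) fun ω => Y ω.1

def UncStmt : Prop := ∀ (D K : ℕ) (x : ℕ → GaussianInt) (κ : ℕ → ℕ → FP ℕ) (ι : ℕ → ℤ)
  (g s m : ℕ) (ε : ℝ) (J : Type) [Fintype J] [DecidableEq J] [Inhabited J]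
  (C : ℕ → FP (J → ℕ)) (P : Finset ℕ), Env D K x κ → Col g ε C → 2 ≤ g → K ≤ g →
  ε ≤ 1 / 2 ^ (16 * g) → 2048 * g ≤ s → s < 4096 * g → Pool ι s P → 2 ^ (1792 * g) ≤ P.card →
  2 ^ s * s ≤ m * Fintype.card J → ∀ σ : ℕ,
  ∑ p ∈ P, ((FP.iid (Fin m) (blk κ g C σ)).E fun u => (unc ι p (wd x (σ, u)) : ℝ)) / p
    ≤ P.card * (1 / 2 ^ (8 * g))

def HcStmt : Prop := ∀ (x : ℕ → GaussianInt) (ι : ℕ → ℤ) (ν : FP ℕ) (J : Type) [Fintype J]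
  (B : ℕ → FP (J → ℕ)) (m : ℕ) (P : Finset ℕ) (θ : ℝ), 0 < θ → (∀ p ∈ P, 0 < p) → Avoid ι x P →
  (∀ σ : ℕ, ∑ p ∈ P, ((FP.iid (Fin m) (B σ)).E fun u => (unc ι p (wd x (σ, u)) : ℝ)) / p
    ≤ P.card * θ) →
  ∑ p ∈ P, (wl ν B m).Hc (fun ω => cls ι {p} (x ω.1)) (wd x) ≤ lg P + P.card * Real.log θ

def InfoAStmt : Prop := ∀ (D K : ℕ) (x : ℕ → GaussianInt) (κ : ℕ → ℕ → FP ℕ) (ι : ℕ → ℤ)
  (tm g s j b : ℕ) (A : ℕ → Finset ℕ), Env D K x κ → 1 ≤ g → K ≤ g → 300 * g ≤ tm → 3 ≤ s →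
  s < 4096 * g → b = 2 ^ 435 → j ≤ 2 ^ s → lv (24 * g) < 2 * j * s →
  (∀ i < b, Pool ι s (A i) ∧ (A i).card = j) →
  (∀ i < b, ∀ i' < b, i ≠ i' → Disjoint (A i) (A i')) →
  ∑ i ∈ range b, (lg (A i) - (top κ tm (24 * g)).H fun σ => cls ι (A i) (x σ))
    ≤ 3 * (b * j * s : ℝ) / 2 ^ 12

def InfoStmt : Prop := ∀ (D K : ℕ) (x : ℕ → GaussianInt) (κ : ℕ → ℕ → FP ℕ) (ι : ℕ → ℤ)
  (tm g s j b m : ℕ) (ε : ℝ) (J : Type) [Fintype J] [DecidableEq J] [Inhabited J]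
  (C : ℕ → FP (J → ℕ)) (P : Finset ℕ), Env D K x κ → Col g ε C → 2 ≤ g → K ≤ g → 300 * g ≤ tm →
  ε ≤ 1 / 2 ^ (16 * g) → 2048 * g ≤ s → s < 4096 * g → b = 2 ^ 435 → Pool ι s P → Avoid ι x P →
  b * j ≤ P.card → 2 ^ (1792 * g) ≤ b * j → lv (24 * g) < 2 * j * s →
  2 ^ s * s ≤ m * Fintype.card J →
  ∃ A : Finset ℕ, ((top κ tm (24 * g)).H fun σ => cls ι A (x σ)) ≤ j * s ∧
    ((wl (top κ tm (24 * g)) (blk κ g C) m).Hc (wd x) fun ω => cls ι A (x ω.1))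
      ≤ (wl (top κ tm (24 * g)) (blk κ g C) m).H (wd x) - j * s / 2 ^ 11

def OneStmt : Prop := ∀ (D K : ℕ) (x : ℕ → GaussianInt) (κ : ℕ → ℕ → FP ℕ) (tm g : ℕ)
  (J : Type) (C : ℕ → FP (J → ℕ)), Env D K x κ → 1 ≤ g → K ≤ g → 24 * g ≤ tm →
  (wl (top κ tm (24 * g)) (blk κ g C) 1).H (wd x)
    ≤ 36 * (lv (24 * g) : ℝ) + ((top κ tm (3 * g)).joint C).H (wd1 x)

/-- avoided pools of primes for all scales in `[s0, S)`. -/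
def Supply (ι : ℕ → ℤ) (x : ℕ → GaussianInt) (c : ℝ) (s0 S : ℕ) : Prop :=
  ∀ s : ℕ, s0 ≤ s → s < S → ∃ P, Pool ι s P ∧ Avoid ι x P ∧ c * 2 ^ s / s ≤ P.card

def ScaleStmt : Prop := ∀ (c : ℝ) (s0 : ℕ), 0 < c → ∃ g1 : ℕ, ∀ (D K : ℕ) (x : ℕ → GaussianInt)
  (κ : ℕ → ℕ → FP ℕ) (ι : ℕ → ℤ) (tm g : ℕ) (e ε : ℝ) (J : Type) [Fintype J] [DecidableEq J]
  [Inhabited J] (C : ℕ → FP (J → ℕ)), Env D K x κ → Col g ε C → g1 ≤ g → K ≤ g → 300 * g ≤ tm →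
  ε ≤ 1 / 2 ^ (16 * g) → Supply ι x c s0 (4096 * g) →
  ((top κ tm (3 * g)).joint C).H (wd1 x) ≤ Fintype.card J * e →
  ∃ M : ℕ, 2 ^ (7168 * g) ≤ M * Fintype.card J ∧ M * Fintype.card J ≤ 2 ^ (7200 * g) ∧
    (wl (top κ tm (24 * g)) (blk κ g C) M).H (wd x) ≤ M * Fintype.card J * (e - c / 2 ^ 456)

def NewStmt : Prop := ∀ (x : ℕ → GaussianInt) (κ : ℕ → ℕ → FP ℕ) (tm g M : ℕ) (e ε : ℝ)
  (J : Type) [Fintype J] [DecidableEq J] [Inhabited J] (C : ℕ → FP (J → ℕ)), Kern κ →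
  Col g ε C → 1 ≤ g → 2 ^ (7168 * g) ≤ M * Fintype.card J → M * Fintype.card J ≤ 2 ^ (7200 * g) →
  (wl (top κ tm (24 * g)) (blk κ g C) M).H (wd x) ≤ M * Fintype.card J * e →
  State x κ tm (8 * g) e (ε + 2 ^ (7200 * g + 2) / 2 ^ lv (24 * g))

def InitStmt : Prop := ∀ (D : ℕ) (x : ℕ → GaussianInt) (κ : ℕ → ℕ → FP ℕ) (tm g : ℕ),
  IsPath D x → State x κ tm g (4 * D) 0

/-- the periodic moat. -/
def CoreStmt : Prop := ∀ D : ℕ, ∃ (ι : ℕ → ℤ) (P : Finset ℕ),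
  (∀ p ∈ P, p.Prime ∧ (p : ℤ) ∣ ι p ^ 2 + 1) ∧ ∀ x, IsPath D x → ¬ Avoid ι x P

def FinalStmt : Prop := ∀ D : ℝ,
  (∃ B : ℕ, ∀ c : (moatGraph D).ConnectedComponent, c.supp.Finite ∧ c.supp.ncard ≤ B) ∧
  ¬ ∃ x : ℕ → GaussianInt, Function.Injective x ∧ (∀ n, Irreducible (x n)) ∧
    ∀ n, dist (x n : ℂ) (x (n + 1) : ℂ) ≤ D

end Vale.Agent.P015
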